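import Vale.Agent.P268.T.B4.Sec921
import Vale.Agent.P268.T.DeltaR
import Vale.Agent.P268.T.H863.KA

/-!
# P268, topological half, block B4: the parameter of the chart does not matter

`bFam_usec`: the data `rc nu (c k) (usec n d x)`, `rn nu (usec n d x)` depend continuously on the
chart parameter `d`.  `BFam.farFam`: one more far constant sheet.  `NN_veq_usec`: the normal forms for
two chart parameters are equivalent.  `NN_veq_iso`: isometries of the fibre.
-/

set_option linter.unusedSectionVars false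

namespace Vale.Agent.P268.T

open Set Filter Topology Metric
open scoped RealInnerProductSpace

section Far

variable {T P V A : Type*} [TopologicalSpace T] [NormedAddCommGroup P] [NormedSpace ℝ P]
  [NormedAddCommGroup V] [InnerProductSpace ℝ V] {s : Set T} {e : V}

/-- One more constant sheet, far away (its position may depend on the parameter). -/
theorem BFam.farFam {b ν : T → A → P → V} (h : BFam s e b ν) (he : ‖e‖ = 1) {b₀ : T → V}
    (hb₀ : ContinuousOn b₀ s) (h0 : ∀ t ∈ s, ⟪b₀ t, e⟫ = 0)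
    (hb : ∀ t ∈ s, ∀ a, ∀ x ∈ closedBall (0 : P) 1, ‖b t a x‖ < ‖b₀ t‖) :
    BFam s e (fun t => farB (b₀ t) (b t)) (fun t => farN e (ν t)) where
  cb := by
    rintro (_ | a)
    · exact hb₀.comp continuousOn_fst (fun q hq => hq.1)
    · exact h.cb a
  cn := by
    rintro (_ | a)
    · exact continuousOn_const
    · exact h.cn a
  nn := by
    rintro t ht (_ | a) x hx
    · exact he
    · exact h.nn t ht a x hx
  inj := by
    rintro t ht x hx (_ | a) (_ | a') haa
    · rfl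
    · exfalso
      have h1 : b₀ t = b t a' x := haa
      have h2 := hb t ht a' x hx
      rw [h1] at h2
      exact lt_irrefl _ h2
    · exfalso
      have h1 : b t a x = b₀ t := haa
      have h2 := hb t ht a x hx
      rw [h1] at h2
      exact lt_irrefl _ h2
    · exact congrArg some (h.inj t ht x hx haa)
  bh := by
    rintro t ht (_ | a) x hx
    · exact h0 t ht
    · exact h.bh t ht a x hx
  nh := by
    rintro t ht (_ | a) x hx
    · rfl
    · exact h.nh t ht a x hx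

/-- A uniform bound for the centres of a family over a compact set. -/
theorem BFam.exists_bound921 [ProperSpace P] [Finite A] {b ν : T → A → P → V} (h : BFam s e b ν)
    (hs : IsCompact s) : ∃ C : ℝ, ∀ t ∈ s, ∀ a, ∀ x ∈ closedBall (0 : P) 1, ‖b t a x‖ ≤ C := by
  have hK : IsCompact (s ×ˢ closedBall (0 : P) 1) := hs.prod (isCompact_closedBall 0 1)
  have h1 : ∀ a, ∃ C : ℝ, ∀ q ∈ s ×ˢ closedBall (0 : P) 1, ‖b q.1 a q.2‖ ≤ C := fun a =>
    hK.exists_bound_of_continuousOn (h.cb a)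
  choose C hC using h1
  obtain ⟨C', hC'⟩ := (Set.finite_range C).bddAbove
  exact ⟨C', fun t ht a x hx => (hC a (t, x) ⟨ht, hx⟩).trans (hC' ⟨a, rfl⟩)⟩

end Far

/-! ### Isometries of the fibre -/

section Iso

variable {P V W A : Type*} [NormedAddCommGroup P] [NormedSpace ℝ P]
  [NormedAddCommGroup V] [InnerProductSpace ℝ V] [NormedAddCommGroup W] [InnerProductSpace ℝ W]
  [Fintype A]

/-- The normal form in terms of an isometry of the fibre. -/
theorem NN_iso (φ : V ≃ₗᵢ[ℝ] W) (e : V) (ε R M : ℝ) (b ν : A → P → V) (x : (ℝ × P) × V) :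
    NN (φ e) ε R M (fun a p => φ (b a p)) (fun a p => φ (ν a p)) (x.1, φ x.2) =
      NN e ε R M b ν x := by
  have hrho : ∀ a, (nplates (φ e) (fun _ : Unit => ε) (fun _ => R) (fun _ => M)
      (fun _ a p => φ (b a p)) (fun _ a p => φ (ν a p))).rho () a (x.1, φ x.2) =
      (nplates e (fun _ : Unit => ε) (fun _ => R) (fun _ => M) (fun _ => b)
        (fun _ => ν)).rho () a x := by
    rintro (_ | a)
    · show min (R * ‖x.1‖ - ‖φ x.2‖) _ = min (R * ‖x.1‖ - ‖x.2‖) _
      rw [φ.norm_map]; rfl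
    · show min (ε * ‖x.1‖ - ‖φ x.2 - ‖x.1‖ • φ (b a (kap x.1))‖) _ =
        min (ε * ‖x.1‖ - ‖x.2 - ‖x.1‖ • b a (kap x.1)‖) _
      rw [← map_smul, ← map_sub, φ.norm_map]; rfl
  have hbe : ∀ a, (nplates (φ e) (fun _ : Unit => ε) (fun _ => R) (fun _ => M)
      (fun _ a p => φ (b a p)) (fun _ a p => φ (ν a p))).be () a (x.1, φ x.2) =
      (nplates e (fun _ : Unit => ε) (fun _ => R) (fun _ => M) (fun _ => b)
        (fun _ => ν)).be () a x := by
    rintro (_ | a)
    · show inner ℝ (φ x.2) (φ e) = inner ℝ x.2 e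
      rw [φ.inner_map_map]
    · show inner ℝ (φ x.2 - ‖x.1‖ • φ (b a (kap x.1))) (φ (ν a (kap x.1))) =
        inner ℝ (x.2 - ‖x.1‖ • b a (kap x.1)) (ν a (kap x.1))
      rw [← map_smul, ← map_sub, φ.inner_map_map]
  unfold NN SheetData.fn gfn gre gim gwt
  simp only [hrho, hbe]

end Iso

section IsoV

variable {P V W A : Type} [NormedAddCommGroup P] [NormedSpace ℝ P]
  [NormedAddCommGroup V] [InnerProductSpace ℝ V] [NormedAddCommGroup W] [InnerProductSpace ℝ W]
  [Fintype A]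

/-- Isometries of the fibre. -/
theorem NN_veq_iso (φ : V ≃ₗᵢ[ℝ] W) (e : V) (ε R M : ℝ) (b ν : A → P → V) :
    VEq (NN e ε R M b ν)
      (NN (φ e) ε R M (fun a p => φ (b a p)) (fun a p => φ (ν a p)) : (ℝ × P) × W → ℂ) := by
  refine ⟨(Homeomorph.refl (ℝ × P)).prodCongr φ.toHomeomorph, ?_, fun x => ?_⟩
  · show ((0 : ℝ × P), φ 0) = 0
    rw [map_zero]; rfl
  · have h : (Homeomorph.refl (ℝ × P)).prodCongr φ.toHomeomorph x = (x.1, φ x.2) := rfl
    rw [h, NN_iso]

end IsoV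

namespace B4

open Vale.Agent.P268.H288 (mx le_mx mx_le exists_mx mx_add_const continuous_mx mx_smul)

variable {n : ℕ} {d δ d' : ℝ}
  {nu : EuclideanSpace ℝ (Fin (n + 1)) → EuclideanSpace ℝ (Fin (n + 1))} {σ : Type}
  {c : σ → EuclideanSpace ℝ (Fin (n + 1)) → EuclideanSpace ℝ (Fin (n + 1))}

theorem continuous_usec_param : Continuous fun q : ℝ × (Fin n → ℝ) => usec n q.1 q.2 := by
  refine (PiLp.continuous_toLp 2 _).comp (continuous_pi fun i => ?_)
  have h : Continuous fun q : ℝ × (Fin n → ℝ) => qq q.2 := continuous_qq.comp continuous_snd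
  have h1 : Continuous fun q : ℝ × (Fin n → ℝ) => 1 - ‖q.2‖ :=
    continuous_const.sub (continuous_norm.comp continuous_snd)
  exact ((continuous_apply i).comp h).add ((h1.add
    (continuous_fst.mul (continuous_osc.comp h))).sub (continuous_mx.comp h))

/-- The data of the normal form depend continuously on the parameter of the chart. -/
theorem bFam_usec {s : Set ℝ} {d₁ : ℝ} (hd₁ : 0 < d₁) (hs : ∀ d ∈ s, d₁ ≤ d ∧ 2 * d ≤ δ)
    (hd' : 0 ≤ d') (hc : d' * (Real.sqrt (n + 1) * (1 + 1 / d₁)) < 1) (hn : NField δ nu)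
    (hcc : ∀ k, Continuous (c k))
    (hch : ∀ k, ∀ r : ℝ, 0 ≤ r → ∀ u, c k (r • u) = r • c k u)
    (hp : ∀ k u, mx u.ofLp ≤ δ * ‖u‖ → ⟪nu u, c k u⟫ = 0)
    (hne : ∀ k l, k ≠ l → ∀ u, u ≠ 0 → d' * ‖u‖ < mx u.ofLp → c k u ≠ c l u) :
    BFam s (eDiag (Fin (n + 1))) (fun d k x => rc nu (c k) (usec n d x))
      (fun d _ x => rn nu (usec n d x)) := by
  have hc0 : ∀ k, c k 0 = 0 := fun k => by
    have := hch k 0 le_rfl 0
    rwa [smul_zero, zero_smul] at this
  have hle : ∀ d ∈ s, d' * (Real.sqrt (n + 1) * (1 + 1 / d)) < 1 := fun d hd => by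
    refine lt_of_le_of_lt ?_ hc
    have h1 : 1 / d ≤ 1 / d₁ := one_div_le_one_div_of_le hd₁ (hs d hd).1
    have h2 := Real.sqrt_nonneg ((n : ℝ) + 1)
    gcongr
  have key : ∀ d ∈ s, BData (eDiag (Fin (n + 1))) (fun k x => rc nu (c k) (usec n d x))
      (fun _ x => rn nu (usec n d x)) := fun d hd =>
    bData_usec (hd₁.trans_le (hs d hd).1) (hs d hd).2 hd' (hle d hd) hn hcc hch hp hne
  exact
    { cb := fun k => ((continuous_rc hn (hcc k) (hc0 k)).comp continuous_usec_param).continuousOn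
      cn := fun k => ((continuousOn_rn hn).comp_continuous continuous_usec_param
        (fun q => usec_ne q.1 q.2)).continuousOn
      nn := fun t ht k x hx => (key t ht).nn () (mem_univ _) k x hx
      inj := fun t ht x hx => (key t ht).inj () (mem_univ _) x hx
      bh := fun t ht k x hx => (key t ht).bh () (mem_univ _) k x hx
      nh := fun t ht k x hx => (key t ht).nh () (mem_univ _) k x hx }

/-- **The parameter of the chart does not matter.** -/
theorem NN_veq_usec [Fintype σ] {d₁ d₂ : ℝ} (hd₁ : 0 < d₁) (h12 : d₁ ≤ d₂) (hδ : 2 * d₂ ≤ δ)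
    (hd' : 0 ≤ d') (hc : d' * (Real.sqrt (n + 1) * (1 + 1 / d₁)) < 1) (hn : NField δ nu)
    (hcc : ∀ k, Continuous (c k))
    (hch : ∀ k, ∀ r : ℝ, 0 ≤ r → ∀ u, c k (r • u) = r • c k u)
    (hp : ∀ k u, mx u.ofLp ≤ δ * ‖u‖ → ⟪nu u, c k u⟫ = 0)
    (hne : ∀ k l, k ≠ l → ∀ u, u ≠ 0 → d' * ‖u‖ < mx u.ofLp → c k u ≠ c l u) :
    ∃ C : ℝ, ∀ b₀ : EuclideanSpace ℝ (Fin (n + 1)), C < ‖b₀‖ →
      ⟪b₀, eDiag (Fin (n + 1))⟫ = 0 → ∀ ε R M ε' R' M' : ℝ,
      Adm ε R M (farB b₀ fun k x => rc nu (c k) (usec n d₁ x)) →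
      Adm ε' R' M' (farB b₀ fun k x => rc nu (c k) (usec n d₂ x)) →
      VEq (NN (eDiag (Fin (n + 1))) ε R M (farB b₀ fun k x => rc nu (c k) (usec n d₁ x))
          (farN (eDiag (Fin (n + 1))) fun _ x => rn nu (usec n d₁ x)))
        (NN (eDiag (Fin (n + 1))) ε' R' M' (farB b₀ fun k x => rc nu (c k) (usec n d₂ x))
          (farN (eDiag (Fin (n + 1))) fun _ x => rn nu (usec n d₂ x))) := by
  have hF : BFam (Icc d₁ d₂) (eDiag (Fin (n + 1))) (fun d k x => rc nu (c k) (usec n d x))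
      (fun d _ x => rn nu (usec n d x)) :=
    bFam_usec hd₁ (fun d hd => ⟨hd.1, by linarith [hd.2]⟩) hd' hc hn hcc hch hp hne
  obtain ⟨C, hC⟩ := hF.exists_bound921 isCompact_Icc
  refine ⟨C, fun b₀ hb₀ he₀ ε R M ε' R' M' hA hA' => ?_⟩
  have hG : BFam (Icc d₁ d₂) (eDiag (Fin (n + 1)))
      (fun d => farB b₀ fun k x => rc nu (c k) (usec n d x))
      (fun d => farN (eDiag (Fin (n + 1))) fun _ x => rn nu (usec n d x)) :=
    hF.farFam norm_eDiag continuousOn_const (fun _ _ => he₀)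
      (fun t ht a x hx => (hC t ht a x hx).trans_lt hb₀)
  have hφ : ContinuousOn (fun t : ℝ => (1 - t) * d₁ + t * d₂) (Icc 0 1) := by fun_prop
  have hm : MapsTo (fun t : ℝ => (1 - t) * d₁ + t * d₂) (Icc 0 1) (Icc d₁ d₂) := by
    intro t ht
    constructor
    · nlinarith [ht.1, ht.2]
    · nlinarith [ht.1, ht.2]
  have h1 := hG.param hφ hm
  have e0 : (1 - (0 : ℝ)) * d₁ + 0 * d₂ = d₁ := by ring
  have e1 : (1 - (1 : ℝ)) * d₁ + 1 * d₂ = d₂ := by ring
  have h2 := NN_veq_of_homotopy norm_eDiag h1 (ε := ε) (R := R) (M := M) (ε' := ε') (R' := R')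
    (M' := M') (by rw [e0]; exact hA) (by rw [e1]; exact hA')
  beta_reduce at h2
  rw [e0, e1] at h2
  exact h2

end B4

end Vale.Agent.P268.T
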