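import Vale.Agent.P268.T.H903.Field
import Vale.Agent.P268.H288.PLHomeo

/-!
# P268, topological half, block B4a: data of the half space form

`KData e κ c nu`: centres `c k` (degree 1) and a common unit normal `nu` (degree 0) on the base
`ℝ × P`; flat (`c k ⟂ e`, `nu = e`) for `u0 ≤ 0`, pairwise distinct for `u0 ≥ -κ ‖p‖`.
`kData_of`: such data from the sheets `c_K` of the K-form, by a base homeomorphism `Θ` and
helper903's fibrewise rotation `rot (absDir (nu u)) (eDiag ι)`.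
-/

set_option linter.unusedSectionVars false

namespace Vale.Agent.P268.T.B4

open Set Filter Topology
open scoped RealInnerProductSpace
open Vale.Agent.P268.H288 (mx)

/-- Data of a half space form. -/
structure KData {P V σ : Type} [NormedAddCommGroup P] [NormedSpace ℝ P] [NormedAddCommGroup V]
    [InnerProductSpace ℝ V] (e : V) (κ : ℝ) (c : σ → ℝ × P → V) (nu : ℝ × P → V) : Prop where
  he : ‖e‖ = 1
  cont : ∀ k, Continuous (c k)
  hom : ∀ k, ∀ r : ℝ, 0 ≤ r → ∀ s, c k (r • s) = r • c k s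
  ncont : ContinuousOn nu {s | s ≠ 0}
  nhom : ∀ r : ℝ, 0 < r → ∀ s, nu (r • s) = nu s
  norm : ∀ s, s ≠ 0 → ‖nu s‖ = 1
  flat : ∀ k s, s.1 ≤ 0 → ⟪e, c k s⟫ = 0
  nflat : ∀ s, s ≠ 0 → s.1 ≤ 0 → nu s = e
  ne : ∀ k l, k ≠ l → ∀ s, s ≠ 0 → -κ * ‖s.2‖ ≤ s.1 → c k s ≠ c l s

section Rotation

variable {ι : Type} [Fintype ι] [Nonempty ι]

/-- The normal field of the K-form. -/
structure NField (δ : ℝ) (nu : EuclideanSpace ℝ ι → EuclideanSpace ℝ ι) : Prop where
  cont : ContinuousOn nu {u | u ≠ 0}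
  hom : ∀ r : ℝ, 0 < r → ∀ u, nu (r • u) = nu u
  ne : ∀ u, u ≠ 0 → nu u ≠ 0
  neg : ∀ u, mx u.ofLp ≤ δ * ‖u‖ → ∀ j, nu u j ≤ 0

/-- The rotated centres. -/
noncomputable def rc (nu c : EuclideanSpace ℝ ι → EuclideanSpace ℝ ι) (u : EuclideanSpace ℝ ι) :
    EuclideanSpace ℝ ι := rot (absDir (nu u)) (eDiag ι) (c u)

/-- The rotated unit normal. -/
noncomputable def rn (nu : EuclideanSpace ℝ ι → EuclideanSpace ℝ ι) (u : EuclideanSpace ℝ ι) :
    EuclideanSpace ℝ ι := rot (absDir (nu u)) (eDiag ι) (‖nu u‖⁻¹ • nu u)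

variable {δ : ℝ} {nu : EuclideanSpace ℝ ι → EuclideanSpace ℝ ι}

theorem norm_rc (h : NField δ nu) {c : EuclideanSpace ℝ ι → EuclideanSpace ℝ ι}
    (hc : c 0 = 0) (u : EuclideanSpace ℝ ι) : ‖rc nu c u‖ = ‖c u‖ := by
  unfold rc
  by_cases hu : u = 0
  · rw [hu, hc, rot_zero]
  · exact norm_rot (norm_absDir (h.ne u hu)) norm_eDiag (one_add_inner_absDir _).ne' _

theorem norm_rn (h : NField δ nu) {u : EuclideanSpace ℝ ι} (hu : u ≠ 0) : ‖rn nu u‖ = 1 := by
  unfold rn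
  rw [norm_rot (norm_absDir (h.ne u hu)) norm_eDiag (one_add_inner_absDir _).ne', norm_smul,
    norm_inv, norm_norm, inv_mul_cancel₀ (norm_ne_zero_iff.mpr (h.ne u hu))]

theorem rn_hom (h : NField δ nu) {r : ℝ} (hr : 0 < r) (u : EuclideanSpace ℝ ι) :
    rn nu (r • u) = rn nu u := by
  unfold rn; rw [h.hom r hr]

theorem rc_hom (h : NField δ nu) {c : EuclideanSpace ℝ ι → EuclideanSpace ℝ ι}
    (hc : ∀ r : ℝ, 0 ≤ r → ∀ u, c (r • u) = r • c u) {r : ℝ} (hr : 0 ≤ r)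
    (u : EuclideanSpace ℝ ι) : rc nu c (r • u) = r • rc nu c u := by
  rcases hr.eq_or_lt with h0 | hr'
  · subst h0
    unfold rc
    rw [hc 0 le_rfl, zero_smul ℝ (c u), rot_zero, zero_smul]
  · unfold rc
    rw [hc r hr, h.hom r hr', rot_smul]

theorem continuousOn_absDir (h : NField δ nu) :
    ContinuousOn (fun u => absDir (nu u)) {u | u ≠ 0} := by
  unfold absDir
  exact (h.cont.norm.inv₀ fun s hs => norm_ne_zero_iff.mpr (h.ne s hs)).smul
    (continuous_absV.comp_continuousOn h.cont)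

theorem continuous_rc (h : NField δ nu) {c : EuclideanSpace ℝ ι → EuclideanSpace ℝ ι}
    (hc : Continuous c) (hc0 : c 0 = 0) : Continuous (rc nu c) := by
  rw [continuous_iff_continuousAt]
  intro u
  by_cases hu : u = 0
  · subst hu
    have h0 : rc nu c 0 = 0 := by unfold rc; rw [hc0, rot_zero]
    show Tendsto (rc nu c) (𝓝 0) (𝓝 (rc nu c 0))
    rw [h0, tendsto_zero_iff_norm_tendsto_zero]
    have h1 : Tendsto (fun u => ‖c u‖) (𝓝 0) (𝓝 0) := by
      have := (hc.norm).tendsto 0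
      rwa [hc0, norm_zero] at this
    exact h1.congr fun u => (norm_rc h hc0 u).symm
  · have hm : ContinuousAt (fun u => absDir (nu u)) u :=
      (continuousOn_absDir h).continuousAt (isOpen_ne.mem_nhds hu)
    exact continuousAt_rot hm continuousAt_const hc.continuousAt (one_add_inner_absDir _).ne'

theorem continuousOn_rn (h : NField δ nu) : ContinuousOn (rn nu) {u | u ≠ 0} := by
  intro u hu
  have hm : ContinuousAt (fun u => absDir (nu u)) u :=
    (continuousOn_absDir h).continuousAt (isOpen_ne.mem_nhds hu)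
  have hn : ContinuousAt nu u := h.cont.continuousAt (isOpen_ne.mem_nhds hu)
  have h1 : ContinuousAt (fun u => ‖nu u‖⁻¹ • nu u) u :=
    (hn.norm.inv₀ (norm_ne_zero_iff.mpr (h.ne u hu))).smul hn
  exact (continuousAt_rot hm continuousAt_const h1
    (one_add_inner_absDir _).ne').continuousWithinAt

theorem rn_flat (h : NField δ nu) {u : EuclideanSpace ℝ ι} (hu : u ≠ 0)
    (hf : mx u.ofLp ≤ δ * ‖u‖) : rn nu u = eDiag ι :=
  rot_normal_of_nonpos (h.ne u hu) (h.neg u hf)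

theorem rc_flat (h : NField δ nu) {c : EuclideanSpace ℝ ι → EuclideanSpace ℝ ι}
    (hc0 : c 0 = 0) {u : EuclideanSpace ℝ ι} (hf : mx u.ofLp ≤ δ * ‖u‖)
    (hp : ⟪nu u, c u⟫ = 0) : ⟪eDiag ι, rc nu c u⟫ = 0 := by
  by_cases hu : u = 0
  · subst hu
    unfold rc
    rw [hc0, rot_zero, inner_zero_right]
  · rw [← rn_flat h hu hf]
    unfold rn rc
    rw [inner_rot (norm_absDir (h.ne u hu)) norm_eDiag (one_add_inner_absDir _).ne',
      inner_smul_left, hp, mul_zero]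

theorem rc_ne (h : NField δ nu) {c d : EuclideanSpace ℝ ι → EuclideanSpace ℝ ι}
    {u : EuclideanSpace ℝ ι} (hu : u ≠ 0) (hcd : c u ≠ d u) : rc nu c u ≠ rc nu d u := by
  intro he
  apply hcd
  unfold rc at he
  have h1 := rot_inv (norm_absDir (h.ne u hu)) norm_eDiag (one_add_inner_absDir _).ne' (c u)
  have h2 := rot_inv (norm_absDir (h.ne u hu)) norm_eDiag (one_add_inner_absDir _).ne' (d u)
  rw [← h1, ← h2, he]

end Rotation

section Transport

variable {ι : Type} [Fintype ι] [Nonempty ι] {P : Type} [NormedAddCommGroup P] [NormedSpace ℝ P]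
  {δ d' κ : ℝ} {nu : EuclideanSpace ℝ ι → EuclideanSpace ℝ ι} {σ : Type}
  {c : σ → EuclideanSpace ℝ ι → EuclideanSpace ℝ ι}

/-- **S3**: the rotated sheets over the base `ℝ × P` are data of a half space form. -/
theorem kData_of (Θ : EuclideanSpace ℝ ι ≃ₜ ℝ × P)
    (hΘ : ∀ r : ℝ, 0 ≤ r → ∀ u, Θ (r • u) = r • Θ u) (hΘ0 : Θ 0 = 0)
    (h1 : ∀ u, (Θ u).1 ≤ 0 → mx u.ofLp ≤ δ * ‖u‖)
    (h2 : ∀ u, u ≠ 0 → -κ * ‖(Θ u).2‖ ≤ (Θ u).1 → d' * ‖u‖ < mx u.ofLp)
    (hn : NField δ nu) (hc : ∀ k, Continuous (c k))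
    (hch : ∀ k, ∀ r : ℝ, 0 ≤ r → ∀ u, c k (r • u) = r • c k u)
    (hp : ∀ k u, mx u.ofLp ≤ δ * ‖u‖ → ⟪nu u, c k u⟫ = 0)
    (hne : ∀ k l, k ≠ l → ∀ u, u ≠ 0 → d' * ‖u‖ < mx u.ofLp → c k u ≠ c l u) :
    KData (eDiag ι) κ (fun k s => rc nu (c k) (Θ.symm s)) (fun s => rn nu (Θ.symm s)) := by
  have hc0 : ∀ k, c k 0 = 0 := fun k => by
    have := hch k 0 le_rfl 0
    rwa [smul_zero, zero_smul] at this
  have hs : ∀ r : ℝ, 0 ≤ r → ∀ s, Θ.symm (r • s) = r • Θ.symm s := by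
    intro r hr s
    rw [Θ.symm_apply_eq, hΘ r hr, Θ.apply_symm_apply]
  have hs0 : ∀ s, s ≠ 0 → Θ.symm s ≠ 0 := by
    intro s hs h0
    apply hs
    rw [← Θ.apply_symm_apply s, h0, hΘ0]
  exact
    { he := norm_eDiag
      cont := fun k => (continuous_rc hn (hc k) (hc0 k)).comp Θ.symm.continuous
      hom := fun k r hr s => by
        show rc nu (c k) (Θ.symm (r • s)) = r • rc nu (c k) (Θ.symm s)
        rw [hs r hr, rc_hom hn (hch k) hr]
      ncont := (continuousOn_rn hn).comp Θ.symm.continuous.continuousOn fun s h => hs0 s h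
      nhom := fun r hr s => by
        show rn nu (Θ.symm (r • s)) = rn nu (Θ.symm s)
        rw [hs r hr.le, rn_hom hn hr]
      norm := fun s h => norm_rn hn (hs0 s h)
      flat := fun k s h => by
        have hf := h1 (Θ.symm s) (by rwa [Θ.apply_symm_apply])
        exact rc_flat hn (hc0 k) hf (hp k _ hf)
      nflat := fun s h h' => rn_flat hn (hs0 s h) (h1 (Θ.symm s) (by rwa [Θ.apply_symm_apply]))
      ne := fun k l hkl s h h' => rc_ne hn (hs0 s h) (hne k l hkl _ (hs0 s h)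
        (h2 _ (hs0 s h) (by rwa [Θ.apply_symm_apply]))) }

end Transport

end Vale.Agent.P268.T.B4
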