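import Vale.Agent.P268.T.B4.Shape2

/-!
# P268, topological half, block B4d: the shape path, the four families and the theorem
-/

set_option linter.unusedSectionVars false

namespace Vale.Agent.P268.T

open Set Filter Topology Metric
open Vale.Agent.P268.T.B4 (sec continuous_sec sec_ne)

variable {P V A : Type} [NormedAddCommGroup P] [NormedSpace ℝ P]
  [NormedAddCommGroup V] [InnerProductSpace ℝ V]

variable {e : V} {z : P → ℝ} {κ₀ κ₁ L : ℝ} {ρ₀ ρ₁ : ℝ × P → ℝ} {c : A → ℝ × P → V}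
  {nu : ℝ × P → V}

/-- Constants of the shape path. -/
structure ShConst (κ₀ κ₁ L δ B η₁ ε R M η ζ : ℝ) : Prop where
  hε : 0 < ε
  hδ : 4 * ε ≤ δ
  hR : B + 2 * ε ≤ R
  hR' : B + 2 * ε < R
  hB : 0 < B
  hη : 0 < η
  hηε : η ≤ ε
  hη1 : η ≤ η₁
  hζ : 0 < ζ
  hζ0 : ζ ≤ κ₀
  hζ1 : 4 * ζ ≤ κ₁ - κ₀
  hζ4 : ζ ≤ 1 / 4
  hM : 8 * (L + R) ≤ M
  hMη : 8 * η ≤ M
  hMζ : 3 * η ≤ ζ * M

theorem exists_shConst {κ₀ κ₁ L δ B η₁ : ℝ} (h0 : 0 < κ₀) (h1 : κ₀ < κ₁) (hL : 0 < L) (hδ : 0 < δ)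
    (hB : 0 < B) (hη₁ : 0 < η₁) : ∃ ε R M η ζ, ShConst κ₀ κ₁ L δ B η₁ ε R M η ζ := by
  set ζ := min κ₀ (min ((κ₁ - κ₀) / 4) (1 / 4)) with hζ
  have hζ0 : 0 < ζ := lt_min h0 (lt_min (by linarith) (by norm_num))
  set ε := δ / 4 with hε
  have hε0 : 0 < ε := by positivity
  set η := min ε η₁ with hη
  have hη0 : 0 < η := lt_min hε0 hη₁
  set R := B + 2 * ε + 1 with hR
  have hR0 : 0 < R := by positivity
  refine ⟨ε, R, 8 * (L + R) + 8 * η + 3 * η / ζ, η, ζ, hε0, by rw [hε]; linarith, by linarith,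
    by linarith, hB, hη0,
    min_le_left _ _, min_le_right _ _, hζ0, min_le_left _ _, ?_, ?_, ?_, ?_, ?_⟩
  · have : ζ ≤ (κ₁ - κ₀) / 4 := (min_le_right _ _).trans (min_le_left _ _)
    linarith
  · exact (min_le_right _ _).trans (min_le_right _ _)
  · have : 0 ≤ 8 * η + 3 * η / ζ := by positivity
    linarith
  · have : 0 ≤ 8 * (L + R) + 3 * η / ζ := by positivity
    linarith
  · have h2 : ζ * (3 * η / ζ) = 3 * η := by field_simp
    have h3 : 0 ≤ ζ * (8 * (L + R) + 8 * η) := by positivity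
    have h4 : ζ * (8 * (L + R) + 8 * η + 3 * η / ζ) =
      ζ * (8 * (L + R) + 8 * η) + ζ * (3 * η / ζ) := by ring
    rw [h4, h2]
    linarith

section Start

variable {δ B η₁ ε R M η ζ : ℝ}

theorem KStart.exists_delta [ProperSpace P] [Finite A] (h : KStart e z κ₀ κ₁ L ρ₀ ρ₁ c nu) :
    ∃ δ > 0, ∀ τ ∈ Icc (0 : ℝ) 1, ∀ a b, a ≠ b → ∀ s,
      δ * ‖s‖ ≤ ‖c a (shPsi z κ₁ τ s) - c b (shPsi z κ₁ τ s)‖ := by
  have key : ∀ i : {i : A × A // i.1 ≠ i.2}, ∃ δ > 0, ∀ τ ∈ Icc (0 : ℝ) 1, ∀ s,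
      δ * ‖s‖ ≤ ‖c i.1.1 (shPsi z κ₁ τ s) - c i.1.2 (shPsi z κ₁ τ s)‖ := by
    rintro ⟨⟨a, b⟩, hab⟩
    refine sh_exists_lower isCompact_Icc (φ := fun τ s =>
      ‖c a (shPsi z κ₁ τ s) - c b (shPsi z κ₁ τ s)‖) ?_ ?_ ?_
    · exact ((((h.cont a).comp h.continuous_shPsi).sub
        ((h.cont b).comp h.continuous_shPsi)).norm).continuousOn
    · intro τ _ r hr s
      show ‖c a (shPsi z κ₁ τ (r • s)) - c b (shPsi z κ₁ τ (r • s))‖ = _
      rw [h.shPsi_smul τ hr, h.hom a r hr, h.hom b r hr, ← smul_sub, norm_smul, Real.norm_eq_abs,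
        abs_of_nonneg hr]
    · intro τ hτ s hs
      obtain ⟨h1, h2⟩ := h.shPsi_region hτ hs
      exact norm_pos_iff.mpr (sub_ne_zero.mpr (h.ne a b hab _ h1 h2))
  choose δ hδ0 hδ using key
  obtain ⟨d, hd0, hd⟩ := sh_exists_pos_le δ hδ0
  exact ⟨d, hd0, fun τ hτ a b hab s => (mul_le_mul_of_nonneg_right (hd ⟨(a, b), hab⟩)
    (norm_nonneg _)).trans (hδ ⟨(a, b), hab⟩ τ hτ s)⟩

theorem KStart.exists_B [ProperSpace P] [Finite A] (h : KStart e z κ₀ κ₁ L ρ₀ ρ₁ c nu) :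
    ∃ B > 0, ∀ τ ∈ Icc (0 : ℝ) 1, ∀ a, ∀ s, ‖c a (shPsi z κ₁ τ s)‖ ≤ B * ‖s‖ := by
  have key : ∀ a : A, ∃ B > 0, ∀ τ ∈ Icc (0 : ℝ) 1, ∀ s, ‖c a (shPsi z κ₁ τ s)‖ ≤ B * ‖s‖ := by
    intro a
    refine sh_exists_upper isCompact_Icc (φ := fun τ s => ‖c a (shPsi z κ₁ τ s)‖) ?_ ?_
    · exact ((h.cont a).comp h.continuous_shPsi).norm.continuousOn
    · intro τ _ r hr s
      show ‖c a (shPsi z κ₁ τ (r • s))‖ = _
      rw [h.shPsi_smul τ hr, h.hom a r hr, norm_smul, Real.norm_eq_abs, abs_of_nonneg hr]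
  choose B hB0 hB using key
  obtain ⟨C, hC0, hC⟩ := sh_exists_pos_ge B
  exact ⟨C, hC0, fun τ hτ a s => (hB a τ hτ s).trans
    (mul_le_mul_of_nonneg_right (hC a) (norm_nonneg _))⟩

theorem KStart.exists_eta [ProperSpace P] (h : KStart e z κ₀ κ₁ L ρ₀ ρ₁ c nu) :
    ∃ η₁ > 0, ∀ s, η₁ * ‖s‖ ≤ ρ₁ s := by
  obtain ⟨η₁, h1, h2⟩ := sh_exists_lower (K := (univ : Set Unit)) isCompact_univ
    (φ := fun _ s => ρ₁ s) (h.c₁.comp continuous_snd).continuousOn (fun _ _ => h.h₁)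
    (fun _ _ => h.p₁)
  exact ⟨η₁, h1, h2 () (mem_univ _)⟩

/-! ### The zones -/

theorem KStart.zoneK (h : KStart e z κ₀ κ₁ L ρ₀ ρ₁ c nu)
    (hc : ShConst κ₀ κ₁ L δ B η₁ ε R M η ζ) (p : P) :
    -κ₁ * z p ≤ -((κ₀ + κ₁) / 2) * z p - ζ * ‖p‖ ∧ -κ₀ * z p + ζ * ‖p‖ ≤ 0 ∧
      -((κ₀ + κ₁) / 2) * z p + 2 * ζ * ‖p‖ ≤ -κ₀ * z p := by
  have h1 : ζ * ‖p‖ ≤ ζ * z p := mul_le_mul_of_nonneg_left (h.z1 p) hc.hζ.le
  have h2 : ζ * z p ≤ κ₀ * z p := mul_le_mul_of_nonneg_right hc.hζ0 (h.z_nonneg p)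
  have h3 : 4 * ζ * z p ≤ (κ₁ - κ₀) * z p := mul_le_mul_of_nonneg_right hc.hζ1 (h.z_nonneg p)
  have h4 : 0 ≤ ζ * z p := mul_nonneg hc.hζ.le (h.z_nonneg p)
  refine ⟨?_, ?_, ?_⟩ <;> linarith

theorem continuousOn_nu_psi (h : KStart e z κ₀ κ₁ L ρ₀ ρ₁ c nu) :
    ContinuousOn (fun q : ℝ × (ℝ × P) => nu (shPsi z κ₁ q.1 q.2)) (Icc 0 1 ×ˢ {x | x ≠ 0}) :=
  h.ncont.comp h.continuous_shPsi.continuousOn fun _ hq => (h.shPsi_region hq.1 hq.2).1

theorem sh_bz (h : KStart e z κ₀ κ₁ L ρ₀ ρ₁ c nu) {k : ℝ} (hk0 : 0 ≤ k) (hk1 : k ≤ 1 / 2) (p : P) :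
    |-k * z p| ≤ ‖p‖ := by
  rw [abs_mul, abs_neg, abs_of_nonneg hk0, abs_of_nonneg (h.z_nonneg p)]
  calc k * z p ≤ 1 / 2 * (2 * ‖p‖) := mul_le_mul hk1 (h.z2 p) (h.z_nonneg p) (by norm_num)
    _ = ‖p‖ := by ring

theorem norm_pair_sub (p : P) (x y : ℝ) : |‖(x, p)‖ - ‖(y, p)‖| ≤ |x - y| := by
  refine (abs_norm_sub_norm_le _ _).trans ?_
  rw [Prod.mk_sub_mk, sub_self, norm_base]
  show max |x - y| ‖(0 : P)‖ ≤ _
  rw [norm_zero]
  exact max_le le_rfl (abs_nonneg _)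

/-- **Step A**: the radii. -/
theorem KStart.famA (h : KStart e z κ₀ κ₁ L ρ₀ ρ₁ c nu) (hc : ShConst κ₀ κ₁ L δ B η₁ ε R M η ζ)
    (hδ : ∀ τ ∈ Icc (0 : ℝ) 1, ∀ a b, a ≠ b → ∀ s,
      δ * ‖s‖ ≤ ‖c a (shPsi z κ₁ τ s) - c b (shPsi z κ₁ τ s)‖)
    (hB : ∀ τ ∈ Icc (0 : ℝ) 1, ∀ a, ∀ s, ‖c a (shPsi z κ₁ τ s)‖ ≤ B * ‖s‖)
    (hη₁ : ∀ s, η₁ * ‖s‖ ≤ ρ₁ s) :
    SFam (Icc (0 : ℝ) 1) e (fun τ s => (1 - τ) * ρ₀ s + τ * (R * ‖s‖))
      (fun τ s => (1 - τ) * ρ₁ s + τ * (ε * ‖s‖)) (fun _ => M) (fun _ p => -κ₀ * z p)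
      (fun _ p => -((κ₀ + κ₁) / 2) * z p) (fun _ a s => c a (shPsi z κ₁ 0 s))
      (fun _ _ s => nu (shPsi z κ₁ 0 s)) ζ (L + R) η := by
  have hR0 : 0 < R := by linarith [hc.hR, hc.hB, hc.hε]
  have hfold : ∀ {x : ℝ × P}, -κ₁ * z x.2 ≤ x.1 → shPsi z κ₁ 0 x = x := fun hx => by
    rw [shPsi_zero, shFold_of_le hx]
  have h01 : (0 : ℝ) ∈ Icc (0 : ℝ) 1 := ⟨le_rfl, zero_le_one⟩
  have cz : Continuous fun q : ℝ × P => z q.2 := h.zc.comp continuous_snd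
  refine
    { he := h.he, hη := hc.hη, hz := hc.hζ, hL := by linarith [h.hL], cρ₀ := ?_, cρ₁ := ?_,
      cM := continuousOn_const, cf := (continuous_const.mul cz).continuousOn,
      cl := (continuous_const.mul cz).continuousOn, cc := ?_, cn := ?_, hρ₀ := ?_, hρ₁ := ?_,
      hf := ?_, hl := ?_, hc := ?_, hn := ?_, nn := ?_, pos₀ := ?_, pos₁ := ?_, bf := ?_,
      bl := ?_, lf := ?_, flat := ?_, nflat := ?_, dist := ?_, inn := ?_, lipc := ?_, lip₀ := ?_,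
      lip₁ := ?_, hM := fun _ _ => hc.hM, hMη := fun _ _ => hc.hMη, hMz := fun _ _ => hc.hMζ }
  · have c1 : Continuous fun q : ℝ × (ℝ × P) => ρ₀ q.2 := h.c₀.comp continuous_snd
    exact ((continuous_const.sub continuous_fst).mul c1).add (continuous_fst.mul
      (continuous_const.mul continuous_snd.norm)) |>.continuousOn
  · have c1 : Continuous fun q : ℝ × (ℝ × P) => ρ₁ q.2 := h.c₁.comp continuous_snd
    exact ((continuous_const.sub continuous_fst).mul c1).add (continuous_fst.mul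
      (continuous_const.mul continuous_snd.norm)) |>.continuousOn
  · intro a
    have c1 : Continuous fun q : ℝ × (ℝ × P) => ((0 : ℝ), q.2) :=
      continuous_const.prodMk continuous_snd
    exact ((h.cont a).comp (h.continuous_shPsi.comp c1)).continuousOn
  · intro a
    have c1 : ContinuousOn (fun q : ℝ × (ℝ × P) => ((0 : ℝ), q.2))
        (Icc (0 : ℝ) 1 ×ˢ {x | x ≠ 0}) :=
      (continuous_const.prodMk continuous_snd).continuousOn
    exact (continuousOn_nu_psi h).comp c1 fun q hq => ⟨h01, hq.2⟩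
  · intro τ _ k hk x
    show (1 - τ) * ρ₀ (k • x) + τ * (R * ‖k • x‖) = _
    rw [h.h₀ k hk, norm_smul, Real.norm_eq_abs, abs_of_nonneg hk]
    ring
  · intro τ _ k hk x
    show (1 - τ) * ρ₁ (k • x) + τ * (ε * ‖k • x‖) = _
    rw [h.h₁ k hk, norm_smul, Real.norm_eq_abs, abs_of_nonneg hk]
    ring
  · intro τ _ k hk p
    show -κ₀ * z (k • p) = _
    rw [h.zh k hk]; ring
  · intro τ _ k hk p
    show -((κ₀ + κ₁) / 2) * z (k • p) = _
    rw [h.zh k hk]; ring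
  · intro τ _ a k hk x
    show c a (shPsi z κ₁ 0 (k • x)) = _
    rw [h.shPsi_smul 0 hk, h.hom a k hk]
  · intro τ _ a k hk x
    show nu (shPsi z κ₁ 0 (k • x)) = _
    rw [h.shPsi_smul 0 hk.le, h.nhom k hk]
  · intro τ _ a x hx
    exact h.norm _ (h.shPsi_region h01 hx).1
  · intro τ hτ x hx
    have h1 := h.p₀ x hx
    have h2 : 0 < R * ‖x‖ := mul_pos hR0 (norm_pos_iff.mpr hx)
    rcases hτ.1.eq_or_lt with h3 | h3
    · show 0 < (1 - τ) * ρ₀ x + τ * (R * ‖x‖)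
      rw [← h3]; linarith
    · have h4 : 0 ≤ (1 - τ) * ρ₀ x := mul_nonneg (by linarith [hτ.2]) h1.le
      have h5 := mul_pos h3 h2
      show 0 < (1 - τ) * ρ₀ x + τ * (R * ‖x‖)
      linarith
  · intro τ hτ x
    show η * ‖x‖ ≤ (1 - τ) * ρ₁ x + τ * (ε * ‖x‖)
    have h1 : η * ‖x‖ ≤ ρ₁ x := (mul_le_mul_of_nonneg_right hc.hη1 (norm_nonneg _)).trans (hη₁ x)
    have h2 : η * ‖x‖ ≤ ε * ‖x‖ := mul_le_mul_of_nonneg_right hc.hηε (norm_nonneg _)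
    have h3 := mul_le_mul_of_nonneg_left h1 (show 0 ≤ 1 - τ by linarith [hτ.2])
    have h4 := mul_le_mul_of_nonneg_left h2 hτ.1
    linarith
  · intro τ _ p
    have := sh_bz h h.hk0.le (by linarith [h.hk, h.hk1]) p
    have := norm_nonneg p
    show |-κ₀ * z p| ≤ 2 * ‖p‖
    linarith
  · intro τ _ p
    have := sh_bz h (k := (κ₀ + κ₁) / 2) (by linarith [h.hk0, h.hk]) (by linarith [h.hk, h.hk1]) p
    have := norm_nonneg p
    show |-((κ₀ + κ₁) / 2) * z p| ≤ 2 * ‖p‖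
    linarith
  · intro τ _ p
    exact (h.zoneK hc p).2.2
  · intro τ _ a x hx h1 h2
    have hz1 := h.zoneK hc x.2
    rw [hfold (hz1.1.trans h1)]
    exact h.flat a x (h2.trans hz1.2.1)
  · intro τ _ a x hx h1 h2
    have hz1 := h.zoneK hc x.2
    rw [hfold (hz1.1.trans h1)]
    exact h.nflat x hx (h2.trans hz1.2.1)
  · intro τ hτ a b hab x hx h1
    have hz1 := h.zoneK hc x.2
    have h2 := hδ 0 h01 a b hab x
    rw [hfold (hz1.1.trans h1)] at h2 ⊢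
    have h3 := h.dist a b hab x hx (hz1.1.trans h1)
    have h4 : 4 * ε * ‖x‖ ≤ δ * ‖x‖ := mul_le_mul_of_nonneg_right hc.hδ (norm_nonneg _)
    have h5 := mul_le_mul_of_nonneg_left h3 (show 0 ≤ 1 - τ by linarith [hτ.2])
    have h6 := mul_le_mul_of_nonneg_left (h4.trans h2) hτ.1
    show 4 * ((1 - τ) * ρ₁ x + τ * (ε * ‖x‖)) ≤ _
    linarith
  · intro τ hτ a x hx h1 h2
    have hz1 := h.zoneK hc x.2
    have h3 := hB 0 h01 a x
    rw [hfold (hz1.1.trans h1)] at h3 ⊢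
    have h4 := h.inn a x hx (h2.trans hz1.2.1)
    have h5 : ‖c a x‖ + 2 * (ε * ‖x‖) ≤ R * ‖x‖ := by
      have := mul_le_mul_of_nonneg_right hc.hR (norm_nonneg x)
      linarith
    have h6 := mul_le_mul_of_nonneg_left h4 (show 0 ≤ 1 - τ by linarith [hτ.2])
    have h7 := mul_le_mul_of_nonneg_left h5 hτ.1
    show ‖c a x‖ + 2 * ((1 - τ) * ρ₁ x + τ * (ε * ‖x‖)) ≤ (1 - τ) * ρ₀ x + τ * (R * ‖x‖)
    linarith
  · intro τ hτ a p x y hx hy
    have hz1 := h.zoneK hc p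
    have hx' := abs_le.mp hx
    have hy' := abs_le.mp hy
    have x1 : -κ₁ * z p ≤ x := by linarith [hz1.1, hz1.2.2, hx'.1, mul_nonneg hc.hζ.le (norm_nonneg p)]
    have y1 : -κ₁ * z p ≤ y := by linarith [hz1.1, hz1.2.2, hy'.1, mul_nonneg hc.hζ.le (norm_nonneg p)]
    have x2 : x ≤ 0 := by linarith [hz1.2.1, hx'.2]
    have y2 : y ≤ 0 := by linarith [hz1.2.1, hy'.2]
    show ‖c a (shPsi z κ₁ 0 (y, p)) - c a (shPsi z κ₁ 0 (x, p))‖ ≤ (L + R) * |y - x|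
    rw [hfold (x := (y, p)) y1, hfold (x := (x, p)) x1]
    have h1 := h.lipc a p y x y1 y2 x1 x2
    have h2 : 0 ≤ R * |y - x| := by positivity
    linarith
  · intro τ hτ p x y hx hy
    have hz1 := h.zoneK hc p
    have hx' := abs_le.mp hx
    have hy' := abs_le.mp hy
    have x1 : -κ₁ * z p ≤ x := by linarith [hz1.1, hz1.2.2, hx'.1, mul_nonneg hc.hζ.le (norm_nonneg p)]
    have y1 : -κ₁ * z p ≤ y := by linarith [hz1.1, hz1.2.2, hy'.1, mul_nonneg hc.hζ.le (norm_nonneg p)]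
    have x2 : x ≤ 0 := by linarith [hz1.2.1, hx'.2]
    have y2 : y ≤ 0 := by linarith [hz1.2.1, hy'.2]
    have h1 := h.lip₀ p y x y1 y2 x1 x2
    have h2 := norm_pair_sub p y x
    have h0 : 0 ≤ 1 - τ := by linarith [hτ.2]
    show |(1 - τ) * ρ₀ (y, p) + τ * (R * ‖(y, p)‖) - ((1 - τ) * ρ₀ (x, p) + τ * (R * ‖(x, p)‖))| ≤ _
    have e1 : (1 - τ) * ρ₀ (y, p) + τ * (R * ‖(y, p)‖) -
        ((1 - τ) * ρ₀ (x, p) + τ * (R * ‖(x, p)‖)) =
        (1 - τ) * (ρ₀ (y, p) - ρ₀ (x, p)) + τ * (R * (‖(y, p)‖ - ‖(x, p)‖)) := by ring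
    rw [e1]
    refine (abs_add_le _ _).trans ?_
    rw [abs_mul, abs_mul, abs_mul, abs_of_nonneg h0, abs_of_nonneg hτ.1, abs_of_pos hR0]
    have h3 : (1 - τ) * |ρ₀ (y, p) - ρ₀ (x, p)| ≤ 1 * (L * |y - x|) :=
      mul_le_mul (by linarith [hτ.1]) h1 (abs_nonneg _) zero_le_one
    have h4 : τ * (R * |‖(y, p)‖ - ‖(x, p)‖|) ≤ 1 * (R * |y - x|) :=
      mul_le_mul hτ.2 (mul_le_mul_of_nonneg_left h2 hR0.le) (by positivity) zero_le_one
    linarith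
  · intro τ hτ p x y hx hy
    have hz1 := h.zoneK hc p
    have hx' := abs_le.mp hx
    have hy' := abs_le.mp hy
    have x1 : -κ₁ * z p ≤ x := by linarith [hz1.1, hz1.2.2, hx'.1, mul_nonneg hc.hζ.le (norm_nonneg p)]
    have y1 : -κ₁ * z p ≤ y := by linarith [hz1.1, hz1.2.2, hy'.1, mul_nonneg hc.hζ.le (norm_nonneg p)]
    have x2 : x ≤ 0 := by linarith [hz1.2.1, hx'.2]
    have y2 : y ≤ 0 := by linarith [hz1.2.1, hy'.2]
    have h1 := h.lip₁ p y x y1 y2 x1 x2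
    have h2 := norm_pair_sub p y x
    have h0 : 0 ≤ 1 - τ := by linarith [hτ.2]
    have hεR : ε ≤ R := by linarith [hc.hR, hc.hB, hc.hε]
    show |(1 - τ) * ρ₁ (y, p) + τ * (ε * ‖(y, p)‖) - ((1 - τ) * ρ₁ (x, p) + τ * (ε * ‖(x, p)‖))| ≤ _
    have e1 : (1 - τ) * ρ₁ (y, p) + τ * (ε * ‖(y, p)‖) -
        ((1 - τ) * ρ₁ (x, p) + τ * (ε * ‖(x, p)‖)) =
        (1 - τ) * (ρ₁ (y, p) - ρ₁ (x, p)) + τ * (ε * (‖(y, p)‖ - ‖(x, p)‖)) := by ring
    rw [e1]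
    refine (abs_add_le _ _).trans ?_
    rw [abs_mul, abs_mul, abs_mul, abs_of_nonneg h0, abs_of_nonneg hτ.1, abs_of_pos hc.hε]
    have h3 : (1 - τ) * |ρ₁ (y, p) - ρ₁ (x, p)| ≤ 1 * (L * |y - x|) :=
      mul_le_mul (by linarith [hτ.1]) h1 (abs_nonneg _) zero_le_one
    have h4 : τ * (ε * |‖(y, p)‖ - ‖(x, p)‖|) ≤ 1 * (R * |y - x|) :=
      mul_le_mul hτ.2 (mul_le_mul hεR h2 (abs_nonneg _) hR0.le) (by have := hc.hε; positivity)
        zero_le_one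
    linarith

/-- **Step B**: the data. -/
theorem KStart.famB (h : KStart e z κ₀ κ₁ L ρ₀ ρ₁ c nu) (hc : ShConst κ₀ κ₁ L δ B η₁ ε R M η ζ)
    (hδ : ∀ τ ∈ Icc (0 : ℝ) 1, ∀ a b, a ≠ b → ∀ s,
      δ * ‖s‖ ≤ ‖c a (shPsi z κ₁ τ s) - c b (shPsi z κ₁ τ s)‖)
    (hB : ∀ τ ∈ Icc (0 : ℝ) 1, ∀ a, ∀ s, ‖c a (shPsi z κ₁ τ s)‖ ≤ B * ‖s‖) :
    SFam (Icc (0 : ℝ) 1) e (fun _ s => R * ‖s‖) (fun _ s => ε * ‖s‖) (fun _ => M)
      (fun _ p => -κ₀ * z p) (fun _ p => -((κ₀ + κ₁) / 2) * z p)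
      (fun τ a s => c a (shPsi z κ₁ τ s)) (fun τ _ s => nu (shPsi z κ₁ τ s)) ζ (L + R) η := by
  have hR0 : 0 < R := by linarith [hc.hR, hc.hB, hc.hε]
  have hεR : ε ≤ R := by linarith [hc.hR, hc.hB, hc.hε]
  have hL := h.hL
  have cz : Continuous fun q : ℝ × P => z q.2 := h.zc.comp continuous_snd
  have hfst : ∀ {τ : ℝ} {x : ℝ × P}, τ ∈ Icc (0 : ℝ) 1 → -κ₁ * z x.2 ≤ x.1 → x.1 ≤ 0 →
      (shPsi z κ₁ τ x).1 ≤ 0 := by
    intro τ x hτ h1 h2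
    have : shPsi z κ₁ τ x = ((1 - τ) * x.1, x.2) := h.shPsi_collar τ h1 h2
    rw [this]
    exact mul_nonpos_of_nonneg_of_nonpos (by linarith [hτ.2]) h2
  refine
    { he := h.he, hη := hc.hη, hz := hc.hζ, hL := by linarith [h.hL],
      cρ₀ := (continuous_const.mul continuous_snd.norm).continuousOn,
      cρ₁ := (continuous_const.mul continuous_snd.norm).continuousOn,
      cM := continuousOn_const, cf := (continuous_const.mul cz).continuousOn,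
      cl := (continuous_const.mul cz).continuousOn,
      cc := fun a => ((h.cont a).comp h.continuous_shPsi).continuousOn,
      cn := fun a => continuousOn_nu_psi h, hρ₀ := ?_, hρ₁ := ?_,
      hf := ?_, hl := ?_, hc := ?_, hn := ?_, nn := ?_, pos₀ := ?_, pos₁ := ?_, bf := ?_,
      bl := ?_, lf := ?_, flat := ?_, nflat := ?_, dist := ?_, inn := ?_, lipc := ?_, lip₀ := ?_,
      lip₁ := ?_, hM := fun _ _ => hc.hM, hMη := fun _ _ => hc.hMη, hMz := fun _ _ => hc.hMζ }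
  · intro τ _ k hk x
    show R * ‖k • x‖ = _
    rw [norm_smul, Real.norm_eq_abs, abs_of_nonneg hk]
    ring
  · intro τ _ k hk x
    show ε * ‖k • x‖ = _
    rw [norm_smul, Real.norm_eq_abs, abs_of_nonneg hk]
    ring
  · intro τ _ k hk p
    show -κ₀ * z (k • p) = _
    rw [h.zh k hk]; ring
  · intro τ _ k hk p
    show -((κ₀ + κ₁) / 2) * z (k • p) = _
    rw [h.zh k hk]; ring
  · intro τ _ a k hk x
    show c a (shPsi z κ₁ τ (k • x)) = _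
    rw [h.shPsi_smul τ hk, h.hom a k hk]
  · intro τ _ a k hk x
    show nu (shPsi z κ₁ τ (k • x)) = _
    rw [h.shPsi_smul τ hk.le, h.nhom k hk]
  · intro τ hτ a x hx
    exact h.norm _ (h.shPsi_region hτ hx).1
  · intro τ hτ x hx
    exact mul_pos hR0 (norm_pos_iff.mpr hx)
  · intro τ hτ x
    exact mul_le_mul_of_nonneg_right hc.hηε (norm_nonneg _)
  · intro τ _ p
    have := sh_bz h h.hk0.le (by linarith [h.hk, h.hk1]) p
    have := norm_nonneg p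
    show |-κ₀ * z p| ≤ 2 * ‖p‖
    linarith
  · intro τ _ p
    have := sh_bz h (k := (κ₀ + κ₁) / 2) (by linarith [h.hk0, h.hk]) (by linarith [h.hk, h.hk1]) p
    have := norm_nonneg p
    show |-((κ₀ + κ₁) / 2) * z p| ≤ 2 * ‖p‖
    linarith
  · intro τ _ p
    exact (h.zoneK hc p).2.2
  · intro τ hτ a x hx h1 h2
    have hz1 := h.zoneK hc x.2
    exact h.flat a _ (hfst hτ (hz1.1.trans h1) (h2.trans hz1.2.1))
  · intro τ hτ a x hx h1 h2
    have hz1 := h.zoneK hc x.2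
    exact h.nflat _ (h.shPsi_region hτ hx).1 (hfst hτ (hz1.1.trans h1) (h2.trans hz1.2.1))
  · intro τ hτ a b hab x hx h1
    have h2 := hδ τ hτ a b hab x
    have h4 : 4 * ε * ‖x‖ ≤ δ * ‖x‖ := mul_le_mul_of_nonneg_right hc.hδ (norm_nonneg _)
    show 4 * (ε * ‖x‖) ≤ _
    linarith
  · intro τ hτ a x hx h1 h2
    have h3 := hB τ hτ a x
    have := mul_le_mul_of_nonneg_right hc.hR (norm_nonneg x)
    show ‖c a (shPsi z κ₁ τ x)‖ + 2 * (ε * ‖x‖) ≤ R * ‖x‖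
    linarith
  · intro τ hτ a p x y hx hy
    have hz1 := h.zoneK hc p
    have hx' := abs_le.mp hx
    have hy' := abs_le.mp hy
    have x1 : -κ₁ * z p ≤ x := by linarith [hz1.1, hz1.2.2, hx'.1, mul_nonneg hc.hζ.le (norm_nonneg p)]
    have y1 : -κ₁ * z p ≤ y := by linarith [hz1.1, hz1.2.2, hy'.1, mul_nonneg hc.hζ.le (norm_nonneg p)]
    have x2 : x ≤ 0 := by linarith [hz1.2.1, hx'.2]
    have y2 : y ≤ 0 := by linarith [hz1.2.1, hy'.2]
    show ‖c a (shPsi z κ₁ τ (y, p)) - c a (shPsi z κ₁ τ (x, p))‖ ≤ (L + R) * |y - x|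
    rw [h.shPsi_collar τ y1 y2, h.shPsi_collar τ x1 x2]
    have h0 : 0 ≤ 1 - τ := by linarith [hτ.2]
    have h0' : 1 - τ ≤ 1 := by linarith [hτ.1]
    have sc : ∀ {w : ℝ}, -κ₁ * z p ≤ w → w ≤ 0 → -κ₁ * z p ≤ (1 - τ) * w ∧ (1 - τ) * w ≤ 0 := by
      intro w hw1 hw2
      refine ⟨?_, mul_nonpos_of_nonneg_of_nonpos h0 hw2⟩
      have : 1 * w ≤ (1 - τ) * w := by nlinarith
      linarith
    have h1 := h.lipc a p ((1 - τ) * y) ((1 - τ) * x) (sc y1 y2).1 (sc y1 y2).2 (sc x1 x2).1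
      (sc x1 x2).2
    have h2 : (1 - τ) * y - (1 - τ) * x = (1 - τ) * (y - x) := by ring
    rw [h2, abs_mul, abs_of_nonneg h0] at h1
    have h3 : L * ((1 - τ) * |y - x|) ≤ L * (1 * |y - x|) :=
      mul_le_mul_of_nonneg_left (mul_le_mul_of_nonneg_right h0' (abs_nonneg _)) hL.le
    have h4 : 0 ≤ R * |y - x| := by positivity
    linarith
  · intro τ hτ p x y hx hy
    have h2 := norm_pair_sub p y x
    show |R * ‖(y, p)‖ - R * ‖(x, p)‖| ≤ _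
    rw [← mul_sub, abs_mul, abs_of_pos hR0]
    have h3 := mul_le_mul_of_nonneg_left h2 hR0.le
    have h4 : 0 ≤ L * |y - x| := by positivity
    linarith
  · intro τ hτ p x y hx hy
    have h2 := norm_pair_sub p y x
    show |ε * ‖(y, p)‖ - ε * ‖(x, p)‖| ≤ _
    rw [← mul_sub, abs_mul, abs_of_pos hc.hε]
    have h3 := mul_le_mul hεR h2 (abs_nonneg _) hR0.le
    have h4 : 0 ≤ L * |y - x| := by positivity
    linarith

/-- The centres in the final form. -/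
theorem KStart.c_shLam (h : KStart e z κ₀ κ₁ L ρ₀ ρ₁ c nu) (a : A) (s : ℝ × P) :
    c a (shLam s) = ‖s‖ • c a (sec (kap s)) := h.hom a _ (norm_nonneg _) _

theorem continuousOn_nu_sec {T : Type*} [TopologicalSpace T] (S : Set T)
    (h : KStart e z κ₀ κ₁ L ρ₀ ρ₁ c nu) :
    ContinuousOn (fun q : T × (ℝ × P) => nu (sec (kap q.2))) (S ×ˢ {x | x ≠ 0}) := by
  rintro ⟨τ, x⟩ ⟨-, hx⟩
  have h1 : ContinuousAt (fun q : T × (ℝ × P) => sec (kap q.2)) (τ, x) :=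
    ContinuousAt.comp (g := (sec : P → ℝ × P)) continuous_sec.continuousAt
      (ContinuousAt.comp (g := (kap : ℝ × P → P)) (continuousAt_kap hx) continuousAt_snd)
  have h2 : ContinuousAt nu (sec (kap x)) :=
    (h.ncont _ (sec_ne _)).continuousAt (isOpen_ne.mem_nhds (sec_ne _))
  exact (ContinuousAt.comp (g := nu) (f := fun q : T × (ℝ × P) => sec (kap q.2)) (x := (τ, x))
    h2 h1).continuousWithinAt

theorem sec_fst_kap {x : ℝ × P} (h : |x.1| ≤ 2 * ‖x.2‖) (hp : x.2 ≠ 0) :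
    (sec (kap x)).1 ≤ 0 := by
  show 1 - ‖kap x‖ ≤ 0
  rw [norm_kap_of_le h hp, sub_self]

/-- Lipschitz bound for the final data, along `u₀`, where the base map is constant. -/
theorem KStart.lip_shLam (h : KStart e z κ₀ κ₁ L ρ₀ ρ₁ c nu) {C : ℝ} (a : A)
    (hC : ∀ x ∈ closedBall (0 : P) 1, ‖c a (sec x)‖ ≤ C) {p : P} {x y : ℝ}
    (hx : |x| ≤ 2 * ‖p‖) (hy : |y| ≤ 2 * ‖p‖) :
    ‖c a (shLam (y, p)) - c a (shLam (x, p))‖ ≤ C * |y - x| := by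
  rw [h.c_shLam, h.c_shLam, kap_of_le (s := (y, p)) hy, kap_of_le (s := (x, p)) hx, ← sub_smul,
    norm_smul, Real.norm_eq_abs, mul_comm C]
  refine mul_le_mul (norm_pair_sub p y x) (hC _ ?_) (norm_nonneg _) (abs_nonneg _)
  rw [← kap_of_le (s := (x, p)) hx]
  exact kap_mem _

/-- **Step C**: the fronts. -/
theorem KStart.famC (h : KStart e z κ₀ κ₁ L ρ₀ ρ₁ c nu) (hc : ShConst κ₀ κ₁ L δ B η₁ ε R M η ζ)
    (hδ : ∀ τ ∈ Icc (0 : ℝ) 1, ∀ a b, a ≠ b → ∀ s,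
      δ * ‖s‖ ≤ ‖c a (shPsi z κ₁ τ s) - c b (shPsi z κ₁ τ s)‖)
    (hB : ∀ τ ∈ Icc (0 : ℝ) 1, ∀ a, ∀ s, ‖c a (shPsi z κ₁ τ s)‖ ≤ B * ‖s‖) :
    SFam (Icc (0 : ℝ) 1) e (fun _ s => R * ‖s‖) (fun _ s => ε * ‖s‖) (fun _ => M)
      (fun τ p => (1 - τ) * (-κ₀ * z p) + τ * ‖p‖)
      (fun τ p => (1 - τ) * (-((κ₀ + κ₁) / 2) * z p) + τ * (‖p‖ / 2))
      (fun _ a s => c a (shLam s)) (fun _ _ s => nu (sec (kap s))) ζ (L + R) η := by
  have hR0 : 0 < R := by linarith [hc.hR, hc.hB, hc.hε]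
  have hεR : ε ≤ R := by linarith [hc.hR, hc.hB, hc.hε]
  have hBR : B ≤ R := by linarith [hc.hR, hc.hε]
  have hL := h.hL
  have h11 : (1 : ℝ) ∈ Icc (0 : ℝ) 1 := ⟨zero_le_one, le_rfl⟩
  have cz : Continuous fun q : ℝ × P => z q.2 := h.zc.comp continuous_snd
  -- the zone
  have hzone : ∀ {τ : ℝ}, τ ∈ Icc (0 : ℝ) 1 → ∀ {x : ℝ} {p : P},
      (1 - τ) * (-((κ₀ + κ₁) / 2) * z p) + τ * (‖p‖ / 2) - ζ * ‖p‖ ≤ x →
      x ≤ (1 - τ) * (-κ₀ * z p) + τ * ‖p‖ + ζ * ‖p‖ → |x| ≤ 2 * ‖p‖ := by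
    intro τ hτ x p h1 h2
    have h0 : 0 ≤ 1 - τ := by linarith [hτ.2]
    have hp := norm_nonneg p
    have h3 := (abs_le.mp (sh_bz h (k := (κ₀ + κ₁) / 2) (by linarith [h.hk0, h.hk])
      (by linarith [h.hk, h.hk1]) p)).1
    have h5 : ζ * ‖p‖ ≤ 1 / 4 * ‖p‖ := mul_le_mul_of_nonneg_right hc.hζ4 hp
    have h4 : 0 ≤ κ₀ * z p := mul_nonneg h.hk0.le (h.z_nonneg p)
    have h6 := mul_le_mul_of_nonneg_left h3 h0
    have h7 : 0 ≤ (1 - τ) * (κ₀ * z p) := mul_nonneg h0 h4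
    have h8 : 0 ≤ τ * ‖p‖ := mul_nonneg hτ.1 hp
    have h9 : τ * ‖p‖ ≤ 1 * ‖p‖ := mul_le_mul_of_nonneg_right hτ.2 hp
    refine abs_le.mpr ⟨?_, ?_⟩ <;> linarith
  have hpne : ∀ {x : ℝ × P}, x ≠ 0 → |x.1| ≤ 2 * ‖x.2‖ → x.2 ≠ 0 := by
    intro x hx h1 h2
    rw [h2, norm_zero, mul_zero] at h1
    exact hx (Prod.ext (abs_nonpos_iff.mp h1) h2)
  have hlf : ∀ {τ : ℝ}, τ ∈ Icc (0 : ℝ) 1 → ∀ p : P,
      (1 - τ) * (-((κ₀ + κ₁) / 2) * z p) + τ * (‖p‖ / 2) + 2 * ζ * ‖p‖ ≤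
        (1 - τ) * (-κ₀ * z p) + τ * ‖p‖ := by
    intro τ hτ p
    have h0 : 0 ≤ 1 - τ := by linarith [hτ.2]
    have hp := norm_nonneg p
    have h1 := mul_le_mul_of_nonneg_left (h.zoneK hc p).2.2 h0
    have h5 : ζ * ‖p‖ ≤ 1 / 4 * ‖p‖ := mul_le_mul_of_nonneg_right hc.hζ4 hp
    have h6 := mul_le_mul_of_nonneg_left h5 hτ.1
    linarith
  refine
    { he := h.he, hη := hc.hη, hz := hc.hζ, hL := by linarith [h.hL],
      cρ₀ := (continuous_const.mul continuous_snd.norm).continuousOn,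
      cρ₁ := (continuous_const.mul continuous_snd.norm).continuousOn,
      cM := continuousOn_const, cf := ?_, cl := ?_,
      cc := fun a => ((h.cont a).comp (continuous_shLam.comp continuous_snd)).continuousOn,
      cn := fun a => continuousOn_nu_sec _ h, hρ₀ := ?_, hρ₁ := ?_,
      hf := ?_, hl := ?_, hc := ?_, hn := ?_, nn := ?_, pos₀ := ?_, pos₁ := ?_, bf := ?_,
      bl := ?_, lf := fun τ hτ p => hlf hτ p, flat := ?_, nflat := ?_, dist := ?_, inn := ?_,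
      lipc := ?_, lip₀ := ?_,
      lip₁ := ?_, hM := fun _ _ => hc.hM, hMη := fun _ _ => hc.hMη, hMz := fun _ _ => hc.hMζ }
  · exact (((continuous_const.sub continuous_fst).mul (continuous_const.mul cz)).add
      (continuous_fst.mul continuous_snd.norm)).continuousOn
  · exact (((continuous_const.sub continuous_fst).mul (continuous_const.mul cz)).add
      (continuous_fst.mul (continuous_snd.norm.div_const 2))).continuousOn
  · intro τ _ k hk x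
    show R * ‖k • x‖ = _
    rw [norm_smul, Real.norm_eq_abs, abs_of_nonneg hk]
    ring
  · intro τ _ k hk x
    show ε * ‖k • x‖ = _
    rw [norm_smul, Real.norm_eq_abs, abs_of_nonneg hk]
    ring
  · intro τ _ k hk p
    show (1 - τ) * (-κ₀ * z (k • p)) + τ * ‖k • p‖ = _
    rw [h.zh k hk, norm_smul, Real.norm_eq_abs, abs_of_nonneg hk]; ring
  · intro τ _ k hk p
    show (1 - τ) * (-((κ₀ + κ₁) / 2) * z (k • p)) + τ * (‖k • p‖ / 2) = _
    rw [h.zh k hk, norm_smul, Real.norm_eq_abs, abs_of_nonneg hk]; ring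
  · intro τ _ a k hk x
    show c a (shLam (k • x)) = _
    rw [shLam_smul hk, h.hom a k hk]
  · intro τ _ a k hk x
    show nu (sec (kap (k • x))) = _
    rw [kap_smul hk]
  · intro τ hτ a x hx
    exact h.norm _ (sec_ne _)
  · intro τ hτ x hx
    exact mul_pos hR0 (norm_pos_iff.mpr hx)
  · intro τ hτ x
    exact mul_le_mul_of_nonneg_right hc.hηε (norm_nonneg _)
  · intro τ hτ p
    show |(1 - τ) * (-κ₀ * z p) + τ * ‖p‖| ≤ 2 * ‖p‖
    refine hzone hτ ?_ ?_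
    · have h1 := hlf hτ p
      have h2 : 0 ≤ ζ * ‖p‖ := mul_nonneg hc.hζ.le (norm_nonneg p)
      linarith
    · have h2 : 0 ≤ ζ * ‖p‖ := mul_nonneg hc.hζ.le (norm_nonneg p)
      linarith
  · intro τ hτ p
    show |(1 - τ) * (-((κ₀ + κ₁) / 2) * z p) + τ * (‖p‖ / 2)| ≤ 2 * ‖p‖
    refine hzone hτ ?_ ?_
    · have h2 : 0 ≤ ζ * ‖p‖ := mul_nonneg hc.hζ.le (norm_nonneg p)
      linarith
    · have h1 := hlf hτ p
      have h2 : 0 ≤ ζ * ‖p‖ := mul_nonneg hc.hζ.le (norm_nonneg p)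
      linarith
  · intro τ hτ a x hx h1 h2
    have h3 := hzone hτ h1 h2
    exact h.flat a _ (shLam_fst_zero h3 (hpne hx h3)).le
  · intro τ hτ a x hx h1 h2
    have h3 := hzone hτ h1 h2
    exact h.nflat _ (sec_ne _) (sec_fst_kap h3 (hpne hx h3))
  · intro τ hτ a b hab x hx h1
    have h2 := hδ 1 h11 a b hab x
    rw [shPsi_one] at h2
    have h4 : 4 * ε * ‖x‖ ≤ δ * ‖x‖ := mul_le_mul_of_nonneg_right hc.hδ (norm_nonneg _)
    show 4 * (ε * ‖x‖) ≤ _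
    linarith
  · intro τ hτ a x hx h1 h2
    have h3 := hB 1 h11 a x
    rw [shPsi_one] at h3
    have := mul_le_mul_of_nonneg_right hc.hR (norm_nonneg x)
    show ‖c a (shLam x)‖ + 2 * (ε * ‖x‖) ≤ R * ‖x‖
    linarith
  · intro τ hτ a p x y hx hy
    have hx' := abs_le.mp hx
    have hy' := abs_le.mp hy
    have hlf' := hlf hτ p
    have hzp : 0 ≤ ζ * ‖p‖ := mul_nonneg hc.hζ.le (norm_nonneg p)
    have hx2 : |x| ≤ 2 * ‖p‖ := hzone hτ (by linarith [hx'.1]) (by linarith [hx'.2])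
    have hy2 : |y| ≤ 2 * ‖p‖ := hzone hτ (by linarith [hy'.1]) (by linarith [hy'.2])
    have h1 := h.lip_shLam (C := B) a (fun w hw => by
      have h2 := hB 1 h11 a (sec w)
      rw [shPsi_one] at h2
      have h3 : kap (sec w) = kap (sec w) := rfl
      -- bound at `sec w` through the homogeneous bound of `c a`
      have h4 : ‖c a (shPsi z κ₁ 0 (sec w))‖ ≤ B * ‖sec w‖ := hB 0 ⟨le_rfl, zero_le_one⟩ a (sec w)
      have h5 : shPsi z κ₁ 0 (sec w) = sec w := by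
        rw [shPsi_zero]
        refine shFold_of_le ?_
        have hw1 : ‖w‖ ≤ 1 := by simpa using hw
        show -κ₁ * z w ≤ 1 - ‖w‖
        have := mul_nonneg (h.hk0.trans h.hk).le (h.z_nonneg w)
        linarith
      rw [h5] at h4
      have h6 : ‖sec w‖ ≤ 1 := norm_sec_le (by simpa using hw)
      have h7 := mul_le_mul_of_nonneg_left h6 hc.hB.le
      linarith) hx2 hy2
    have h8 : B * |y - x| ≤ R * |y - x| := mul_le_mul_of_nonneg_right hBR (abs_nonneg _)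
    have h4 : 0 ≤ L * |y - x| := by positivity
    show ‖c a (shLam (y, p)) - c a (shLam (x, p))‖ ≤ (L + R) * |y - x|
    linarith
  · intro τ hτ p x y hx hy
    have h2 := norm_pair_sub p y x
    show |R * ‖(y, p)‖ - R * ‖(x, p)‖| ≤ _
    rw [← mul_sub, abs_mul, abs_of_pos hR0]
    have h3 := mul_le_mul_of_nonneg_left h2 hR0.le
    have h4 : 0 ≤ L * |y - x| := by positivity
    linarith
  · intro τ hτ p x y hx hy
    have h2 := norm_pair_sub p y x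
    show |ε * ‖(y, p)‖ - ε * ‖(x, p)‖| ≤ _
    rw [← mul_sub, abs_mul, abs_of_pos hc.hε]
    have h3 := mul_le_mul hεR h2 (abs_nonneg _) hR0.le
    have h4 : 0 ≤ L * |y - x| := by positivity
    linarith

/-- **Step D**: the final form with admissible parameters. -/
theorem KStart.famD (h : KStart e z κ₀ κ₁ L ρ₀ ρ₁ c nu) {T : Type*} [TopologicalSpace T]
    {S : Set T} {ε R M : T → ℝ} {η C : ℝ} (hC : 0 < C)
    (hε : ContinuousOn ε S) (hR : ContinuousOn R S) (hM : ContinuousOn M S) (hη : 0 < η)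
    (hηε : ∀ τ ∈ S, η ≤ ε τ) (hA : ∀ τ ∈ S, Adm (ε τ) (R τ) (16 * R τ) fun k x => c k (sec x))
    (hRC : ∀ τ ∈ S, R τ ≤ C) (hMC : ∀ τ ∈ S, 8 * C ≤ M τ) (hMR : ∀ τ ∈ S, 16 * R τ ≤ M τ) :
    SFam S e (fun τ s => R τ * ‖s‖) (fun τ s => ε τ * ‖s‖) M (fun _ p => ‖p‖)
      (fun _ p => ‖p‖ / 2) (fun _ a s => c a (shLam s)) (fun _ _ s => nu (sec (kap s)))
      (1 / 4) C η := by
  have hzone : ∀ {x : ℝ} {p : P}, ‖p‖ / 2 - 1 / 4 * ‖p‖ ≤ x → x ≤ ‖p‖ + 1 / 4 * ‖p‖ →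
      |x| ≤ 2 * ‖p‖ := by
    intro x p h1 h2
    have hp := norm_nonneg p
    refine abs_le.mpr ⟨?_, ?_⟩ <;> linarith
  have hpne : ∀ {x : ℝ × P}, x ≠ 0 → |x.1| ≤ 2 * ‖x.2‖ → x.2 ≠ 0 := by
    intro x hx h1 h2
    rw [h2, norm_zero, mul_zero] at h1
    exact hx (Prod.ext (abs_nonpos_iff.mp h1) h2)
  have c1 : ∀ {f : T → ℝ}, ContinuousOn f S →
      ContinuousOn (fun q : T × (ℝ × P) => f q.1 * ‖q.2‖) (S ×ˢ univ) := fun hf =>
    (hf.comp continuousOn_fst fun q hq => hq.1).mul continuous_snd.norm.continuousOn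
  have hR0 : ∀ τ ∈ S, 0 < R τ := fun τ hτ => by linarith [(hA τ hτ).hε, (hA τ hτ).hR]
  refine
    { he := h.he, hη := hη, hz := by norm_num, hL := hC, cρ₀ := c1 hR, cρ₁ := c1 hε,
      cM := hM, cf := continuous_snd.norm.continuousOn,
      cl := (continuous_snd.norm.div_const 2).continuousOn,
      cc := fun a => ((h.cont a).comp (continuous_shLam.comp continuous_snd)).continuousOn,
      cn := fun a => continuousOn_nu_sec _ h, hρ₀ := ?_, hρ₁ := ?_,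
      hf := ?_, hl := ?_, hc := ?_, hn := ?_, nn := ?_, pos₀ := ?_, pos₁ := ?_, bf := ?_,
      bl := ?_, lf := ?_, flat := ?_, nflat := ?_, dist := ?_, inn := ?_,
      lipc := ?_, lip₀ := ?_, lip₁ := ?_, hM := hMC, hMη := ?_, hMz := ?_ }
  · intro τ _ k hk x
    show R τ * ‖k • x‖ = _
    rw [norm_smul, Real.norm_eq_abs, abs_of_nonneg hk]
    ring
  · intro τ _ k hk x
    show ε τ * ‖k • x‖ = _
    rw [norm_smul, Real.norm_eq_abs, abs_of_nonneg hk]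
    ring
  · intro τ _ k hk p
    show ‖k • p‖ = _
    rw [norm_smul, Real.norm_eq_abs, abs_of_nonneg hk]
  · intro τ _ k hk p
    show ‖k • p‖ / 2 = _
    rw [norm_smul, Real.norm_eq_abs, abs_of_nonneg hk]; ring
  · intro τ _ a k hk x
    show c a (shLam (k • x)) = _
    rw [shLam_smul hk, h.hom a k hk]
  · intro τ _ a k hk x
    show nu (sec (kap (k • x))) = _
    rw [kap_smul hk]
  · intro τ hτ a x hx
    exact h.norm _ (sec_ne _)
  · intro τ hτ x hx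
    exact mul_pos (hR0 τ hτ) (norm_pos_iff.mpr hx)
  · intro τ hτ x
    exact mul_le_mul_of_nonneg_right (hηε τ hτ) (norm_nonneg _)
  · intro τ hτ p
    show |‖p‖| ≤ 2 * ‖p‖
    rw [abs_norm]
    linarith [norm_nonneg p]
  · intro τ hτ p
    show |‖p‖ / 2| ≤ 2 * ‖p‖
    have := norm_nonneg p
    rw [abs_of_nonneg (by linarith)]
    linarith
  · intro τ hτ p
    show ‖p‖ / 2 + 2 * (1 / 4) * ‖p‖ ≤ ‖p‖
    linarith
  · intro τ hτ a x hx h1 h2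
    have h3 := hzone h1 h2
    exact h.flat a _ (shLam_fst_zero h3 (hpne hx h3)).le
  · intro τ hτ a x hx h1 h2
    have h3 := hzone h1 h2
    exact h.nflat _ (sec_ne _) (sec_fst_kap h3 (hpne hx h3))
  · intro τ hτ a b hab x hx h1
    have h2 := (hA τ hτ).hd a b hab _ (kap_mem x)
    rw [h.c_shLam, h.c_shLam, ← smul_sub, norm_smul, norm_norm]
    have h3 := mul_le_mul_of_nonneg_left h2 (norm_nonneg x)
    show 4 * (ε τ * ‖x‖) ≤ _
    linarith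
  · intro τ hτ a x hx h1 h2
    have h2 := (hA τ hτ).hb a _ (kap_mem x)
    show ‖c a (shLam x)‖ + 2 * (ε τ * ‖x‖) ≤ R τ * ‖x‖
    rw [h.c_shLam, norm_smul, norm_norm]
    have h3 := mul_le_mul_of_nonneg_left h2.le (norm_nonneg x)
    linarith
  · intro τ hτ a p x y hx hy
    have hx' := abs_le.mp hx
    have hy' := abs_le.mp hy
    have hp := norm_nonneg p
    have hx2 : |x| ≤ 2 * ‖p‖ := abs_le.mpr ⟨by linarith [hx'.1], by linarith [hx'.2]⟩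
    have hy2 : |y| ≤ 2 * ‖p‖ := abs_le.mpr ⟨by linarith [hy'.1], by linarith [hy'.2]⟩
    exact h.lip_shLam a (fun w hw => by
      have := (hA τ hτ).hb a w hw
      have := (hA τ hτ).hε
      linarith [hRC τ hτ]) hx2 hy2
  · intro τ hτ p x y hx hy
    have h2 := norm_pair_sub p y x
    show |R τ * ‖(y, p)‖ - R τ * ‖(x, p)‖| ≤ _
    rw [← mul_sub, abs_mul, abs_of_pos (hR0 τ hτ)]
    exact mul_le_mul (hRC τ hτ) h2 (abs_nonneg _) hC.le
  · intro τ hτ p x y hx hy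
    have h2 := norm_pair_sub p y x
    show |ε τ * ‖(y, p)‖ - ε τ * ‖(x, p)‖| ≤ _
    rw [← mul_sub, abs_mul, abs_of_pos (hA τ hτ).hε]
    exact mul_le_mul ((hA τ hτ).hR.trans (hRC τ hτ)) h2 (abs_nonneg _) hC.le
  · intro τ hτ
    linarith [(hA τ hτ).hR, (hA τ hτ).hε, hηε τ hτ, hMR τ hτ]
  · intro τ hτ
    linarith [(hA τ hτ).hR, (hA τ hτ).hε, hηε τ hτ, hMR τ hτ]

end Start

/-! ### The theorem -/

theorem SZero.congr {ρ₀ ρ₀' ρ₁ ρ₁' : ℝ × P → ℝ} {f f' l l' : P → ℝ} {c c' ν ν' : A → ℝ × P → V}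
    (h0 : ρ₀ = ρ₀') (h1 : ρ₁ = ρ₁') (hf : f = f') (hl : l = l')
    (hd : ∀ a s, l s.2 ≤ s.1 → c a s = c' a s)
    (hn : ∀ a s, s ≠ 0 → l s.2 ≤ s.1 → ν a s = ν' a s) (hz : ρ₁ 0 = 0) :
    SZero e ρ₀ ρ₁ f l c ν = SZero e ρ₀' ρ₁' f' l' c' ν' := by
  subst h0 h1 hf hl
  funext x
  apply propext
  have key : ∀ a, (‖x.2 - c a x.1‖ ≤ ρ₁ x.1 ∧ l x.1.2 ≤ x.1.1 ∧
      inner ℝ (x.2 - c a x.1) (ν a x.1) = 0) ↔ (‖x.2 - c' a x.1‖ ≤ ρ₁ x.1 ∧ l x.1.2 ≤ x.1.1 ∧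
      inner ℝ (x.2 - c' a x.1) (ν' a x.1) = 0) := by
    intro a
    by_cases hl : l x.1.2 ≤ x.1.1
    · rw [hd a x.1 hl]
      by_cases hx : x.1 = 0
      · refine and_congr_right fun h2 => and_congr_right fun _ => ?_
        rw [hx, hz, norm_le_zero_iff] at h2
        rw [hx, h2, inner_zero_left, inner_zero_left]
      · rw [hn a x.1 hx hl]
    · exact ⟨fun h => absurd h.2.1 hl, fun h => absurd h.2.1 hl⟩
  have key' : ∀ a, (¬(‖x.2 - c a x.1‖ < ρ₁ x.1 ∧ l x.1.2 < x.1.1)) ↔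
      ¬(‖x.2 - c' a x.1‖ < ρ₁ x.1 ∧ l x.1.2 < x.1.1) := by
    intro a
    by_cases hl : l x.1.2 < x.1.1
    · rw [hd a x.1 hl.le]
    · exact ⟨fun _ h => hl h.2, fun _ h => hl h.2⟩
  unfold SZero
  rw [forall_congr' key', exists_congr key]

theorem SFam.veq_ind [ProperSpace P] [ProperSpace V] [Fintype A]
    {ρ₀ ρ₁ : ℝ → ℝ × P → ℝ} {M : ℝ → ℝ} {f l : ℝ → P → ℝ} {c ν : ℝ → A → ℝ × P → V}
    {w L η : ℝ} (h : SFam (Icc (0 : ℝ) 1) e ρ₀ ρ₁ M f l c ν w L η) :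
    VEq (shInd (SZero e (ρ₀ 0) (ρ₁ 0) (f 0) (l 0) (c 0) (ν 0)))
      (shInd (SZero e (ρ₀ 1) (ρ₁ 1) (f 1) (l 1) (c 1) (ν 1))) := by
  have h0 : (0 : ℝ) ∈ Icc (0 : ℝ) 1 := ⟨le_rfl, zero_le_one⟩
  have h1 : (1 : ℝ) ∈ Icc (0 : ℝ) 1 := ⟨zero_le_one, le_rfl⟩
  refine (VEq.of_iff fun x => ?_).trans ((h.rfam.veq isPreconnected_Icc h0 h1).trans
    (VEq.of_iff fun x => ?_))
  · rw [shInd_eq_zero, h.zero_iff h0]
  · rw [shInd_eq_zero, h.zero_iff h1]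

theorem shLam_half {x : P} (hx : ‖x‖ ≤ 1) : shLam ((1 : ℝ), (1 / 2 : ℝ) • x) = sec x := by
  have h1 : ‖(1 / 2 : ℝ) • x‖ = 1 / 2 * ‖x‖ := by
    rw [norm_smul, Real.norm_eq_abs, abs_of_pos (by norm_num)]
  have h2 : ‖((1 : ℝ), (1 / 2 : ℝ) • x)‖ = 1 := by
    rw [norm_base]
    show max |(1 : ℝ)| ‖(1 / 2 : ℝ) • x‖ = 1
    rw [abs_one, h1, max_eq_left (by linarith)]
  have h3 : kap ((1 : ℝ), (1 / 2 : ℝ) • x) = x := by
    unfold kap
    show (2 / max |(1 : ℝ)| (2 * ‖(1 / 2 : ℝ) • x‖)) • (1 / 2 : ℝ) • x = x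
    rw [abs_one, h1, max_eq_left (by linarith), smul_smul]
    norm_num
  unfold shLam
  rw [h2, h3, one_smul]

/-- **Block B4d: the shape path.**  The end form of block B3 in the chart has the zero set of
helper863's half space form `KA`, for all admissible parameters. -/
theorem KStart.shape [ProperSpace P] [ProperSpace V] [Fintype A]
    (h : KStart e z κ₀ κ₁ L ρ₀ ρ₁ c nu) {F : (ℝ × P) × V → ℂ}
    (hF : ∀ x, F x = 0 ↔ SZeroK e ρ₀ ρ₁ (fun p => -κ₀ * z p) c nu x) {ε R M : ℝ}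
    (hA : Adm ε R M fun k x => c k (sec x)) :
    VEq F (KA e ε R M (fun k x => c k (sec x)) (fun _ x => nu (sec x))) := by
  obtain ⟨δ, hδ0, hδ⟩ := h.exists_delta
  obtain ⟨B, hB0, hB⟩ := h.exists_B
  obtain ⟨η₁, hη₁0, hη₁⟩ := h.exists_eta
  obtain ⟨ε₀, R₀, M₀, η, ζ, hc⟩ := exists_shConst h.hk0 h.hk h.hL hδ0 hB0 hη₁0
  have h11 : (1 : ℝ) ∈ Icc (0 : ℝ) 1 := ⟨zero_le_one, le_rfl⟩
  set l := (κ₀ + κ₁) / 2 with hl
  have hl1 : l ≤ κ₁ := by rw [hl]; linarith [h.hk]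
  -- the four paths
  have vA := (h.famA hc hδ hB hη₁).veq_ind
  have vB := (h.famB hc hδ hB).veq_ind
  have vC := (h.famC hc hδ hB).veq_ind
  have hA0 : Adm ε₀ R₀ (16 * R₀) fun k x => c k (sec x) := by
    refine ⟨hc.hε, by linarith [hc.hR, hc.hB, hc.hε], le_rfl, fun a x hx => ?_,
      fun a b hab x hx => ?_⟩
    · have hx1 : ‖x‖ ≤ 1 := by simpa using hx
      have h2 := hB 1 h11 a ((1 : ℝ), (1 / 2 : ℝ) • x)
      rw [shPsi_one, shLam_half hx1, norm_base] at h2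
      have h3 : max |(1 : ℝ)| ‖(1 / 2 : ℝ) • x‖ = 1 := by
        rw [abs_one, norm_smul, Real.norm_eq_abs, abs_of_pos (by norm_num),
          max_eq_left (by linarith)]
      have h4 : ‖c a (sec x)‖ ≤ B * max |(1 : ℝ)| ‖(1 / 2 : ℝ) • x‖ := h2
      rw [h3, mul_one] at h4
      linarith [hc.hR']
    · have hx1 : ‖x‖ ≤ 1 := by simpa using hx
      have h2 := hδ 1 h11 a b hab ((1 : ℝ), (1 / 2 : ℝ) • x)
      rw [shPsi_one, shLam_half hx1, norm_base] at h2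
      have h3 : max |(1 : ℝ)| ‖(1 / 2 : ℝ) • x‖ = 1 := by
        rw [abs_one, norm_smul, Real.norm_eq_abs, abs_of_pos (by norm_num),
          max_eq_left (by linarith)]
      have h4 : δ * max |(1 : ℝ)| ‖(1 / 2 : ℝ) • x‖ ≤ ‖c a (sec x) - c b (sec x)‖ := h2
      rw [h3, mul_one] at h4
      linarith [hc.hδ]
  have hA1 : Adm ε R (16 * R) fun k x => c k (sec x) := ⟨hA.hε, hA.hR, le_rfl, hA.hb, hA.hd⟩
  have hRp : 0 < R := by linarith [hA.hε, hA.hR]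
  have hcont : ∀ x y : ℝ, ContinuousOn (fun t : ℝ => (1 - t) * x + t * y) (Icc (0 : ℝ) 1) := by
    intro x y
    fun_prop
  have vD := (h.famD (S := Icc (0 : ℝ) 1) (ε := fun t => (1 - t) * ε₀ + t * ε)
    (R := fun t => (1 - t) * R₀ + t * R) (M := fun _ => 16 * max R₀ R) (η := min ε₀ ε)
    (C := max R₀ R) (lt_max_of_lt_right hRp) (hcont _ _) (hcont _ _) continuousOn_const
    (lt_min hc.hε hA.hε) (fun t ht => by
      have h0 : 0 ≤ 1 - t := by linarith [ht.2]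
      have h1 := mul_le_mul_of_nonneg_left (min_le_left ε₀ ε) h0
      have h2 := mul_le_mul_of_nonneg_left (min_le_right ε₀ ε) ht.1
      linarith) (fun t ht => by
      have h2 := hA0.segment hA1 ht
      have e1 : (1 - t) * (16 * R₀) + t * (16 * R) = 16 * ((1 - t) * R₀ + t * R) := by ring
      rwa [e1] at h2) (fun t ht => by
      have h0 : 0 ≤ 1 - t := by linarith [ht.2]
      have h1 := mul_le_mul_of_nonneg_left (le_max_left R₀ R) h0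
      have h2 := mul_le_mul_of_nonneg_left (le_max_right R₀ R) ht.1
      linarith) (fun t ht => by
      have h3 : 0 < max R₀ R := lt_max_of_lt_right hRp
      linarith) (fun t ht => by
      have h0 : 0 ≤ 1 - t := by linarith [ht.2]
      have h1 := mul_le_mul_of_nonneg_left (le_max_left R₀ R) h0
      have h2 := mul_le_mul_of_nonneg_left (le_max_right R₀ R) ht.1
      linarith)).veq_ind
  -- the end
  have hK := h.famD (T := Unit) (S := univ) (ε := fun _ => ε) (R := fun _ => R) (M := fun _ => M)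
    (η := ε) (C := R) hRp continuousOn_const continuousOn_const continuousOn_const hA.hε
    (fun _ _ => le_rfl) (fun _ _ => hA1) (fun _ _ => le_rfl) (fun _ _ => by linarith [hA.hM])
    (fun _ _ => hA.hM)
  have hKz : ∀ x, KA e ε R M (fun k x => c k (sec x)) (fun _ x => nu (sec x)) x = 0 ↔
      SZero e (fun s => R * ‖s‖) (fun s => ε * ‖s‖) (fun p => ‖p‖) (fun p => ‖p‖ / 2)
        (fun a s => c a (shLam s)) (fun _ s => nu (sec (kap s))) x := by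
    intro x
    have h1 := hK.zero_iff (mem_univ ()) x
    rw [← h1]
    have e1 : (fun (_ : Unit) (a : A) (s : ℝ × P) => c a (shLam s)) =
        fun _ a s => ‖s‖ • c a (sec (kap s)) := by
      funext _ a s
      exact h.c_shLam a s
    rw [e1]
    exact Iff.rfl
  have hpne : κ₁ * z (0 : P) = 0 := by rw [h.z_zero, mul_zero]
  -- junctions
  have j0 : SZeroK e ρ₀ ρ₁ (fun p => -κ₀ * z p) c nu =
      SZero e (fun s => (1 - (0 : ℝ)) * ρ₀ s + 0 * (R₀ * ‖s‖))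
        (fun s => (1 - (0 : ℝ)) * ρ₁ s + 0 * (ε₀ * ‖s‖)) (fun p => -κ₀ * z p)
        (fun p => -l * z p) (fun a s => c a (shPsi z κ₁ 0 s)) (fun _ s => nu (shPsi z κ₁ 0 s)) := by
    have e1 : SZeroK e ρ₀ ρ₁ (fun p => -κ₀ * z p) c nu =
        SZero e ρ₀ ρ₁ (fun p => -κ₀ * z p) (fun p => -l * z p) c (fun _ => nu) := by
      funext x
      exact propext (h.zero_congr (by rw [hl]; linarith [h.hk]) x)
    rw [e1]
    have hf : ∀ s : ℝ × P, -l * z s.2 ≤ s.1 → shPsi z κ₁ 0 s = s := fun s hs => by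
      rw [shPsi_zero]
      refine shFold_of_le ?_
      have := mul_le_mul_of_nonneg_right hl1 (h.z_nonneg s.2)
      linarith
    refine SZero.congr (by funext s; ring) (by funext s; ring) rfl rfl
      (fun a s hs => by rw [hf s hs]) (fun a s _ hs => by rw [hf s hs]) h.rho_zero.2
  have j1 : SZero e (fun s => (1 - (1 : ℝ)) * ρ₀ s + 1 * (R₀ * ‖s‖))
        (fun s => (1 - (1 : ℝ)) * ρ₁ s + 1 * (ε₀ * ‖s‖)) (fun p => -κ₀ * z p)
        (fun p => -l * z p) (fun a s => c a (shPsi z κ₁ 0 s)) (fun _ s => nu (shPsi z κ₁ 0 s)) =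
      SZero e (fun s => R₀ * ‖s‖) (fun s => ε₀ * ‖s‖) (fun p => -κ₀ * z p)
        (fun p => -l * z p) (fun a s => c a (shPsi z κ₁ 0 s)) (fun _ s => nu (shPsi z κ₁ 0 s)) := by
    refine SZero.congr (by funext s; ring) (by funext s; ring) rfl rfl (fun a s hs => rfl)
      (fun a s _ hs => rfl) ?_
    rw [h.rho_zero.2, norm_zero]
    ring
  have j2 : SZero e (fun s => R₀ * ‖s‖) (fun s => ε₀ * ‖s‖) (fun p => -κ₀ * z p)
        (fun p => -l * z p) (fun a s => c a (shPsi z κ₁ 1 s)) (fun _ s => nu (shPsi z κ₁ 1 s)) =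
      SZero e (fun s => R₀ * ‖s‖) (fun s => ε₀ * ‖s‖)
        (fun p => (1 - (0 : ℝ)) * (-κ₀ * z p) + 0 * ‖p‖)
        (fun p => (1 - (0 : ℝ)) * (-l * z p) + 0 * (‖p‖ / 2)) (fun a s => c a (shLam s))
        (fun _ s => nu (sec (kap s))) := by
    refine SZero.congr rfl rfl (by funext s; ring) (by funext s; ring)
      (fun a s hs => by rw [shPsi_one]) (fun a s hs _ => ?_) (by rw [norm_zero, mul_zero])
    rw [shPsi_one]
    exact h.nhom _ (norm_pos_iff.mpr hs) _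
  have j3 : SZero e (fun s => R₀ * ‖s‖) (fun s => ε₀ * ‖s‖)
        (fun p => (1 - (1 : ℝ)) * (-κ₀ * z p) + 1 * ‖p‖)
        (fun p => (1 - (1 : ℝ)) * (-l * z p) + 1 * (‖p‖ / 2)) (fun a s => c a (shLam s))
        (fun _ s => nu (sec (kap s))) =
      SZero e (fun s => ((1 - (0 : ℝ)) * R₀ + 0 * R) * ‖s‖)
        (fun s => ((1 - (0 : ℝ)) * ε₀ + 0 * ε) * ‖s‖) (fun p : P => ‖p‖) (fun p : P => ‖p‖ / 2)
        (fun a s => c a (shLam s)) (fun _ s => nu (sec (kap s))) := by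
    refine SZero.congr (by funext s; ring) (by funext s; ring) (by funext s; ring)
      (by funext s; ring) (fun a s hs => rfl) (fun a s _ hs => rfl) (by rw [norm_zero, mul_zero])
  have j4 : SZero e (fun s => ((1 - (1 : ℝ)) * R₀ + 1 * R) * ‖s‖)
        (fun s => ((1 - (1 : ℝ)) * ε₀ + 1 * ε) * ‖s‖) (fun p : P => ‖p‖) (fun p : P => ‖p‖ / 2)
        (fun a s => c a (shLam s)) (fun _ s => nu (sec (kap s))) =
      SZero e (fun s => R * ‖s‖) (fun s => ε * ‖s‖) (fun p => ‖p‖) (fun p => ‖p‖ / 2)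
        (fun a s => c a (shLam s)) (fun _ s => nu (sec (kap s))) := by
    refine SZero.congr (by funext s; ring) (by funext s; ring) rfl rfl (fun a s hs => rfl)
      (fun a s _ hs => rfl) (by rw [norm_zero, mul_zero])
  have s0 : VEq F (shInd (SZeroK e ρ₀ ρ₁ (fun p => -κ₀ * z p) c nu)) :=
    VEq.of_iff fun x => by rw [hF, shInd_eq_zero]
  have s1 : VEq (shInd (SZero e (fun s => R * ‖s‖) (fun s => ε * ‖s‖) (fun p => ‖p‖)
      (fun p => ‖p‖ / 2) (fun a s => c a (shLam s)) (fun _ s => nu (sec (kap s)))))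
      (KA e ε R M (fun k x => c k (sec x)) (fun _ x => nu (sec x))) :=
    VEq.of_iff fun x => by rw [hKz, shInd_eq_zero]
  rw [j0] at s0
  rw [j1] at vA
  rw [j2] at vB
  rw [j3] at vC
  rw [j4] at vD
  exact s0.trans (vA.trans (vB.trans (vC.trans (vD.trans s1))))

end Vale.Agent.P268.T
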