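import Vale.Agent.P268.T.B4.Theta921
import Vale.Agent.P268.T.Delta

/-!
# P268, topological half, block B4a: the section of the half space chart and the data of `N(b)`

`sec x = (1 - ‖x‖, x)` for `x` in the closed unit ball of `P`; data `KData e κ c nu` of a half space
form restrict to data `BData e (fun k x => c k (sec x)) (fun _ x => nu (sec x))` of helper874's
normal form.  `usec n d x = (Theta n d).symm (sec x)`.
-/

set_option linter.unusedSectionVars false

namespace Vale.Agent.P268.T.B4

open Set Filter Topology Metric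
open scoped RealInnerProductSpace
open Vale.Agent.P268.H288 (mx le_mx mx_le exists_mx mx_add_const continuous_mx mx_smul)

section sec

variable {P : Type} [NormedAddCommGroup P] [NormedSpace ℝ P]

/-- The section over the unit ball. -/
noncomputable def sec (x : P) : ℝ × P := (1 - ‖x‖, x)

theorem continuous_sec : Continuous (sec : P → ℝ × P) :=
  (continuous_const.sub continuous_norm).prodMk continuous_id

theorem sec_fst (x : P) : (sec x).1 = 1 - ‖x‖ := rfl

theorem sec_snd (x : P) : (sec x).2 = x := rfl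

theorem sec_ne (x : P) : sec x ≠ 0 := by
  intro h
  have h1 : (sec x).1 = 0 := by rw [h]; rfl
  have h2 : (sec x).2 = 0 := by rw [h]; rfl
  rw [sec_snd] at h2
  rw [sec_fst, h2, norm_zero] at h1
  norm_num at h1

theorem sec_zone {κ : ℝ} (hκ : 0 ≤ κ) {x : P} (hx : ‖x‖ ≤ 1) :
    -κ * ‖(sec x).2‖ ≤ (sec x).1 := by
  rw [sec_fst, sec_snd]
  have := mul_nonneg hκ (norm_nonneg x)
  linarith

theorem sec_fst_eq_zero {x : P} (hx : ‖x‖ = 1) : (sec x).1 = 0 := by
  rw [sec_fst, hx, sub_self]

end sec

section Data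

variable {P V σ : Type} [NormedAddCommGroup P] [NormedSpace ℝ P] [NormedAddCommGroup V]
  [InnerProductSpace ℝ V] {e : V} {κ : ℝ} {c : σ → ℝ × P → V} {nu : ℝ × P → V}

theorem KData.continuous_sec (h : KData e κ c nu) (k : σ) : Continuous fun x => c k (sec x) :=
  (h.cont k).comp B4.continuous_sec

theorem KData.continuous_nu_sec (h : KData e κ c nu) : Continuous fun x => nu (sec x) := by
  rw [continuous_iff_continuousAt]
  intro x
  have h1 : ContinuousAt nu (sec x) := (h.ncont (sec x) (sec_ne x)).continuousAt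
    (isOpen_ne.mem_nhds (sec_ne x))
  exact h1.comp (f := sec) B4.continuous_sec.continuousAt

/-- The half space data, restricted to the section, are data of the normal form. -/
theorem KData.bData (h : KData e κ c nu) (hκ : 0 ≤ κ) :
    BData e (fun k x => c k (sec x)) (fun _ x => nu (sec x)) where
  cb k := ((h.continuous_sec k).comp continuous_snd).continuousOn
  cn _ := (h.continuous_nu_sec.comp continuous_snd).continuousOn
  nn _ _ _ x _ := h.norm _ (sec_ne x)
  inj _ _ x hx k l hkl := by
    by_contra hne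
    exact h.ne k l hne (sec x) (sec_ne x) (sec_zone hκ (by simpa using hx)) hkl
  bh _ _ k x hx := by
    show ⟪c k (sec x), e⟫ = 0
    rw [real_inner_comm]
    exact h.flat k _ (sec_fst_eq_zero hx).le
  nh _ _ _ x hx := h.nflat _ (sec_ne x) (sec_fst_eq_zero hx).le

end Data

section usec

variable {n : ℕ}

/-- The section in the coordinates `u` of the K-form. -/
noncomputable def usec (n : ℕ) (d : ℝ) (x : Fin n → ℝ) : EuclideanSpace ℝ (Fin (n + 1)) :=
  (Theta n d).symm (sec x)

theorem continuous_usec (d : ℝ) : Continuous (usec n d) :=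
  (Theta n d).symm.continuous.comp continuous_sec

theorem Theta_usec (d : ℝ) (x : Fin n → ℝ) : Theta n d (usec n d x) = sec x :=
  (Theta n d).apply_symm_apply _

theorem usec_ne (d : ℝ) (x : Fin n → ℝ) : usec n d x ≠ 0 := by
  intro h
  have h1 := Theta_usec d x
  rw [h, Theta_zero] at h1
  exact sec_ne x h1.symm

theorem mx_usec (d : ℝ) (x : Fin n → ℝ) :
    mx (usec n d x).ofLp = d * osc (usec n d x).ofLp + (1 - ‖x‖) := by
  have h1 : (Theta n d (usec n d x)).1 = 1 - ‖x‖ := by rw [Theta_usec]; rfl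
  rw [Theta_fst] at h1
  linarith

theorem osc_usec (d : ℝ) (x : Fin n → ℝ) : osc (usec n d x).ofLp = osc (qq x) := by
  have h1 : (Theta n d (usec n d x)).2 = x := by rw [Theta_usec]; rfl
  rw [Theta_snd] at h1
  rw [← osc_qq_dif, h1]

theorem dif_usec (d : ℝ) (x : Fin n → ℝ) : dif (usec n d x).ofLp = x := by
  have h1 : (Theta n d (usec n d x)).2 = x := by rw [Theta_usec]; rfl
  rwa [Theta_snd] at h1

/-- Explicit coordinates of the section. -/
theorem usec_apply (d : ℝ) (x : Fin n → ℝ) (i : Fin (n + 1)) :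
    usec n d x i = qq x i + ((1 - ‖x‖) + d * osc (qq x) - mx (qq x)) := rfl

/-- Over the sphere the section lies in the flat region. -/
theorem usec_flat {d : ℝ} (hd : 0 ≤ d) {x : Fin n → ℝ} (hx : ‖x‖ = 1) :
    mx (usec n d x).ofLp ≤ 2 * d * ‖usec n d x‖ := by
  refine Theta_flat hd _ ?_
  rw [Theta_usec, sec_fst, hx, sub_self]

/-- Over the closed ball the sheets are distinct along the section. -/
theorem usec_dist {d d' : ℝ} (hd : 0 < d) (hd' : 0 ≤ d')
    (hc : d' * (Real.sqrt (n + 1) * (1 + 1 / d)) < 1) {x : Fin n → ℝ} (hx : ‖x‖ ≤ 1) :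
    d' * ‖usec n d x‖ < mx (usec n d x).ofLp := by
  refine Theta_dist (κ := 0) le_rfl hd hd' (by rwa [sub_zero]) _ (usec_ne d x) ?_
  rw [Theta_usec]
  exact sec_zone le_rfl hx

end usec

section Boundary

variable {n : ℕ} {d δ d' : ℝ}
  {nu : EuclideanSpace ℝ (Fin (n + 1)) → EuclideanSpace ℝ (Fin (n + 1))} {σ : Type}
  {c : σ → EuclideanSpace ℝ (Fin (n + 1)) → EuclideanSpace ℝ (Fin (n + 1))}

/-- **The data of the normal form, from the sheets of the K-form.**  `d` is the fixed parameter of
the chart, `δ` the flatness parameter, `d'` the (small) parameter of distinctness. -/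
theorem bData_usec (hd : 0 < d) (hδ : 2 * d ≤ δ) (hd' : 0 ≤ d')
    (hc : d' * (Real.sqrt (n + 1) * (1 + 1 / d)) < 1) (hn : NField δ nu)
    (hcc : ∀ k, Continuous (c k))
    (hch : ∀ k, ∀ r : ℝ, 0 ≤ r → ∀ u, c k (r • u) = r • c k u)
    (hp : ∀ k u, mx u.ofLp ≤ δ * ‖u‖ → ⟪nu u, c k u⟫ = 0)
    (hne : ∀ k l, k ≠ l → ∀ u, u ≠ 0 → d' * ‖u‖ < mx u.ofLp → c k u ≠ c l u) :
    BData (eDiag (Fin (n + 1))) (fun k x => rc nu (c k) (usec n d x))
      (fun _ x => rn nu (usec n d x)) := by
  have hK := kData_of (κ := 0) (Theta n d) (Theta_smul d) (Theta_zero d)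
    (fun u hu => (Theta_flat hd.le u hu).trans
      (mul_le_mul_of_nonneg_right hδ (norm_nonneg u)))
    (fun u hu h => Theta_dist le_rfl hd hd' (by rwa [sub_zero]) u hu h) hn hcc hch hp hne
  exact hK.bData le_rfl

end Boundary

end Vale.Agent.P268.T.B4
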