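import Vale.Agent.P268.T.B4.Main921
import Vale.Agent.P268.T.SkelNF
import Vale.Agent.P268.T.B4.Shape3
import Vale.Agent.P268.T.K372.BIm

/-!
# P268, topological half, block B4: `KFormKA`
-/

set_option linter.unusedSectionVars false

namespace Vale.Agent.P268.T

open Set Filter Topology Metric
open scoped RealInnerProductSpace

namespace B4

open K372 (nuV muV phiV etaV ppV cV lipEta)
open Vale.Agent.P268.H288 (mx)

/-- **`KFormKA`**, for one set of parameters. -/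
theorem veq_kform_KA (k : ℕ) {σ : Type} [Fintype σ] [Nonempty σ] {K : σ → Fin (k + 4) → ℕ}
    {G : (Fin (k + 4) → ℕ) → ℝ} {d d' θ ε ρ M k₁ L : ℝ} (hδ : 0 < dl k)
    (hd : 0 < d) (hdδ : 2 * d ≤ dl k) (hρ : 0 < ρ) (hρδ : ρ ≤ dl k / 4) (hM : 0 < M)
    (hε : 0 < ε) (hd' : 0 ≤ d') (hδ2 : Fintype.card (Fin (k + 4)) * dl k ^ 2 < 1)
    (hεθ : ∀ a, ε + |θ * G (K a)| * lipEta (Fin (k + 4)) (dl k) d' ≤ dl k / 4)
    (hst : KStart (eDiag (Fin (k + 4)))
      (fun p : Fin (k + 3) → ℝ => osc (qq p)) (3 / 2 * d - d) k₁ L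
      (fun s => ρ * ‖(Theta (k + 3) (3 / 2 * d)).symm s‖)
      (fun s => ε * ‖(Theta (k + 3) (3 / 2 * d)).symm s‖)
      (fun a s => rc (nuV (dl k)) (cV (dl k) d' θ G (K a)) ((Theta (k + 3) (3 / 2 * d)).symm s))
      (fun s => rn (nuV (dl k)) ((Theta (k + 3) (3 / 2 * d)).symm s)))
    {ε₂ R₂ M₂ : ℝ} (hA : Adm ε₂ R₂ M₂ (kbc k (3 / 2 * d) d' θ G K)) :
    VEq (kform (dl k) d d' θ ε ρ M G K)
      (KA (eDiag (Fin (k + 4))) ε₂ R₂ M₂ (kbc k (3 / 2 * d) d' θ G K)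
        (knc k (3 / 2 * d) (σ := σ)) : Ek k → ℂ) := by
  classical
  -- zero set of the K-form
  have hη : ∀ a u, ‖cV (dl k) d' θ G (K a) u - phiV (K a) u‖ ≤
      |θ * G (K a)| * lipEta (Fin (k + 4)) (dl k) d' * ‖u‖ := by
    intro a u
    unfold cV
    rw [add_sub_cancel_left, norm_smul, Real.norm_eq_abs, mul_assoc]
    refine mul_le_mul_of_nonneg_left ?_ (abs_nonneg _)
    have h1 := K372.norm_etaV_sub_le (ι := Fin (k + 4)) hδ.le hd' u 0
    have h0 : etaV (dl k) d' (0 : EuclideanSpace ℝ (Fin (k + 4))) = 0 := by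
      ext j
      rw [K372.etaV_apply]
      simp [K372.ppV_zero]
    rwa [h0, sub_zero, sub_zero] at h1
  have hF : ∀ x : EuclideanSpace ℝ (Fin (k + 4)) × EuclideanSpace ℝ (Fin (k + 4)),
      kform (dl k) d d' θ ε ρ M G K x = 0 ↔
        KZ ρ ε d (nuV (dl k)) (fun a => cV (dl k) d' θ G (K a)) x := by
    rintro ⟨u, v⟩
    refine eq_zero_iff_KZ hM rfl (fun h1 h2 => ?_) (fun a h1 => ?_)
    · show bIm (dl k) (u, v) = _
      refine K372.bIm_flat hδ.le (fun j => ?_) (h1.trans ?_)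
      · have h3 := K372.le_of_mx_le_osc hd.le (u := u) (by rw [mxV_eq, oscV_eq]; exact h2) j
        have h4 := mul_le_mul_of_nonneg_right hdδ (norm_nonneg u)
        exact h3.trans h4
      · exact mul_le_mul_of_nonneg_right hρδ (norm_nonneg u)
    · show bIm (dl k) (u, v) = _
      refine K372.bIm_eq_cV hδ.le ?_
      have h2 : ‖v - phiV (K a) u‖ ≤ ‖v - cV (dl k) d' θ G (K a) u‖ +
          ‖cV (dl k) d' θ G (K a) u - phiV (K a) u‖ := norm_sub_le_norm_sub_add_norm_sub _ _ _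
      have h3 := hη a u
      have h4 := mul_le_mul_of_nonneg_right (hεθ a) (norm_nonneg u)
      rw [add_mul] at h4
      linarith
  -- transport
  set Gf : (ℝ × (Fin (k + 3) → ℝ)) × EuclideanSpace ℝ (Fin (k + 4)) → ℂ := fun x =>
    if SZeroK (eDiag (Fin (k + 4))) (fun s => ρ * ‖(Theta (k + 3) (3 / 2 * d)).symm s‖)
      (fun s => ε * ‖(Theta (k + 3) (3 / 2 * d)).symm s‖)
      (fun p => -(3 / 2 * d - d) * osc (qq p))
      (fun a s => rc (nuV (dl k)) (cV (dl k) d' θ G (K a)) ((Theta (k + 3) (3 / 2 * d)).symm s))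
      (fun s => rn (nuV (dl k)) ((Theta (k + 3) (3 / 2 * d)).symm s)) x then 0 else 1 with hGf
  have hG : ∀ x, Gf x = 0 ↔ SZeroK (eDiag (Fin (k + 4)))
      (fun s => ρ * ‖(Theta (k + 3) (3 / 2 * d)).symm s‖)
      (fun s => ε * ‖(Theta (k + 3) (3 / 2 * d)).symm s‖)
      (fun p => -(3 / 2 * d - d) * osc (qq p))
      (fun a s => rc (nuV (dl k)) (cV (dl k) d' θ G (K a)) ((Theta (k + 3) (3 / 2 * d)).symm s))
      (fun s => rn (nuV (dl k)) ((Theta (k + 3) (3 / 2 * d)).symm s)) x := by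
    intro x
    rw [hGf]
    beta_reduce
    split_ifs with h
    · exact ⟨fun _ => h, fun _ => rfl⟩
    · exact ⟨fun h1 => absurd h1 one_ne_zero, fun h1 => absurd h1 h⟩
  set P : ℝ := ∑ a, ∑ j, (K a j : ℝ) with hP
  have hP0 : 0 ≤ P := Finset.sum_nonneg fun _ _ => Finset.sum_nonneg fun _ _ => Nat.cast_nonneg _
  have hKP : ∀ a j, (K a j : ℝ) ≤ P := fun a j =>
    (Finset.single_le_sum (f := fun j => (K a j : ℝ)) (fun _ _ => Nat.cast_nonneg _)
      (Finset.mem_univ j)).trans (Finset.single_le_sum (f := fun a => ∑ j, (K a j : ℝ))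
        (fun _ _ => Finset.sum_nonneg fun _ _ => Nat.cast_nonneg _) (Finset.mem_univ a))
  set g : ℝ := ∑ a, |θ * G (K a)| with hg
  have hg0 : 0 ≤ g := Finset.sum_nonneg fun _ _ => abs_nonneg _
  have hgG : ∀ a, |θ * G (K a)| ≤ g := fun a =>
    Finset.single_le_sum (f := fun a => |θ * G (K a)|) (fun _ _ => abs_nonneg _)
      (Finset.mem_univ a)
  have h1 : VEq (kform (dl k) d d' θ ε ρ M G K) Gf := by
    refine veq_SZeroK (dc := 3 / 2 * d) (df := d) (δ := dl k) (ρ := ρ) (ε₁ := ε)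
      (C := c0R (Fin (k + 4)) P g) hd.le hdδ hρ.le hε.le
      (nField_nuV hδ.le hδ2) (fun a r hr u => K372.cV_smul _ _ θ G (K a) hr u) ?_ ?_ hF hG
    · intro a u
      exact norm_cV_le_mx hδ.le hd' (norm_nonneg u) G (K a) (hKP a) hP0 (hgG a)
        (fun j => (le_abs_self _).trans (K372.abs_apply_le u j))
    · unfold c0R; positivity
  exact h1.trans (KStart.shape hst hG hA)

end B4

/-- **`KFormKA`.** -/
theorem kFormKA : KFormKA := by
  intro k σ _ _ K hK G hG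
  have hδ : 0 < dl k := by unfold dl; positivity
  have hδ2 : Fintype.card (Fin (k + 4)) * dl k ^ 2 < 1 := by
    rw [Fintype.card_fin]
    unfold dl
    push_cast
    rw [div_pow, one_pow, mul_one_div, div_lt_one (by positivity)]
    nlinarith [show (0 : ℝ) ≤ k from Nat.cast_nonneg k]
  set N : ℝ := (Fintype.card (Fin (k + 4)) : ℝ) with hN
  have hN0 : 0 < N := by rw [hN]; exact_mod_cast Fintype.card_pos
  have hδs : dl k < (Real.sqrt N)⁻¹ := by
    have hs : 0 < Real.sqrt N := Real.sqrt_pos.mpr hN0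
    have h1 : (Real.sqrt N * dl k) ^ 2 < 1 := by rw [mul_pow, Real.sq_sqrt hN0.le]; exact hδ2
    have h2 : Real.sqrt N * dl k < 1 := by
      have h3 : 0 ≤ Real.sqrt N * dl k := by positivity
      nlinarith
    rw [lt_inv_comm₀ hδ hs, ← one_div, lt_div_iff₀ hδ]
    exact h2
  set P : ℝ := ∑ a, ∑ j, (K a j : ℝ) with hP
  have hP0 : 0 ≤ P := Finset.sum_nonneg fun _ _ => Finset.sum_nonneg fun _ _ => Nat.cast_nonneg _
  have hKP : ∀ a j, (K a j : ℝ) ≤ P := fun a j =>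
    (Finset.single_le_sum (f := fun j => (K a j : ℝ)) (fun _ _ => Nat.cast_nonneg _)
      (Finset.mem_univ j)).trans (Finset.single_le_sum (f := fun a => ∑ j, (K a j : ℝ))
        (fun _ _ => Finset.sum_nonneg fun _ _ => Nat.cast_nonneg _) (Finset.mem_univ a))
  set S : ℝ := ∑ a, |G (K a)| with hS
  have hS0 : 0 ≤ S := Finset.sum_nonneg fun _ _ => abs_nonneg _
  have hGS : ∀ a, |G (K a)| ≤ S := fun a =>
    Finset.single_le_sum (f := fun a => |G (K a)|) (fun _ _ => abs_nonneg _) (Finset.mem_univ a)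
  set C₀ : ℝ := B4.c0R (Fin (k + 4)) P 1 with hC₀
  have hC₀0 : 0 ≤ C₀ := by rw [hC₀]; unfold B4.c0R; positivity
  filter_upwards [Ioc_mem_nhdsGT (show (0 : ℝ) < dl k / 4 by positivity)] with ρ hρ
  filter_upwards [Ioc_mem_nhdsGT (show (0 : ℝ) < min (1 / 2) (min (dl k / 3) (ρ / (6 * (C₀ + 1))))
    by have := hρ.1; positivity)] with d hd
  have hd0 := hd.1
  have hd1 : d ≤ 1 / 2 := hd.2.trans (min_le_left _ _)
  have hd2 : d ≤ dl k / 3 := hd.2.trans ((min_le_right _ _).trans (min_le_left _ _))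
  have hd3 : d ≤ ρ / (6 * (C₀ + 1)) := hd.2.trans ((min_le_right _ _).trans (min_le_right _ _))
  have hs0 : 0 ≤ Real.sqrt N := Real.sqrt_nonneg _
  filter_upwards [Ioc_mem_nhdsGT (show (0 : ℝ) < d / (4 * (Real.sqrt N + 1)) by positivity)]
    with d' hd'
  have hl0 : 0 ≤ K372.lipEta (Fin (k + 4)) (dl k) d' := K372.lipEta_nonneg hδ.le hd'.1.le
  obtain ⟨θ₀, hθ₀, hθ⟩ := K372.exists_theta K G (4 * N)
  filter_upwards [Ioc_mem_nhdsGT (show (0 : ℝ) < min θ₀ (min (1 / (S + 1))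
    (dl k / (8 * ((S + 1) * (K372.lipEta (Fin (k + 4)) (dl k) d' + 1))))) by positivity)] with θ hθ'
  have hθ0 := hθ'.1
  have hθ1 : θ ≤ θ₀ := hθ'.2.trans (min_le_left _ _)
  have hθ2 : θ ≤ 1 / (S + 1) := hθ'.2.trans ((min_le_right _ _).trans (min_le_left _ _))
  have hθ3 : θ ≤ dl k / (8 * ((S + 1) * (K372.lipEta (Fin (k + 4)) (dl k) d' + 1))) :=
    hθ'.2.trans ((min_le_right _ _).trans (min_le_right _ _))
  have hθG : ∀ a, |θ * G (K a)| ≤ θ * (S + 1) := fun a => by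
    rw [abs_mul, abs_of_pos hθ0]
    exact mul_le_mul_of_nonneg_left (by linarith [hGS a]) hθ0.le
  have hθS : θ * (S + 1) ≤ 1 := by
    rw [le_div_iff₀ (by positivity)] at hθ2
    exact hθ2
  have hθη : θ * (S + 1) * (K372.lipEta (Fin (k + 4)) (dl k) d' + 1) ≤ dl k / 8 := by
    rw [le_div_iff₀ (by positivity)] at hθ3
    linarith
  obtain ⟨ε₀, hε₀, hst⟩ := B4.exists_kStart (n := k + 3) (K := K) (G := G) (δ := dl k) (ρ := ρ)
    (d := d) (d' := d') (θ := θ) (P := P) (g := 1) hG.1 hG.2.1 hδ hδs hd0 hd1 (by linarith)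
    hρ.1 (by
      rw [le_div_iff₀ (by positivity)] at hd3
      have : B4.c0R (Fin (k + 4)) P 1 * (3 * d) = C₀ * (3 * d) := rfl
      rw [this]
      nlinarith) hd'.1.le (by
      have h1 := hd'.2
      rw [le_div_iff₀ (by positivity)] at h1
      have h2 := hd'.1
      show Real.sqrt N * d' < d / 2
      nlinarith) hθ0 (hθ θ hθ0.le hθ1) hP0 hKP zero_le_one
    (fun a => (hθG a).trans hθS)
  filter_upwards [Ioc_mem_nhdsGT (show (0 : ℝ) < min ε₀ (dl k / 8) by positivity)] with ε hε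
  obtain ⟨L, hL⟩ := hst ε hε.1 (hε.2.trans (min_le_left _ _))
  filter_upwards [eventually_gt_atTop (0 : ℝ)] with M hM
  intro ε₂ R₂ M₂ hA
  refine B4.veq_kform_KA k hδ hd0 (by linarith) hρ.1 hρ.2 hM hε.1 hd'.1.le hδ2 (fun a => ?_) hL hA
  have h1 : ε ≤ dl k / 8 := hε.2.trans (min_le_right _ _)
  have h2 : |θ * G (K a)| * K372.lipEta (Fin (k + 4)) (dl k) d' ≤
      θ * (S + 1) * (K372.lipEta (Fin (k + 4)) (dl k) d' + 1) :=
    mul_le_mul (hθG a) (by linarith) hl0 (by positivity)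
  linarith

end Vale.Agent.P268.T
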