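import Vale.Agent.P268.T.B4.Theta921

/-!
# P268, topological half, block B4: the zero set `KZ` of the end form of B3
-/

set_option linter.unusedSectionVars false

namespace Vale.Agent.P268.T.B4

open Set Filter Topology
open scoped RealInnerProductSpace
open Vale.Agent.P268.H288 (mx le_mx mx_le exists_mx mx_add_const continuous_mx mx_smul)

/-- The zero set of the end form of B3: slab of radius `ρ ‖u‖` over `max u ≤ df * osc u`, sheets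
of radius `ε₁ ‖u‖` around `c a u`. -/
def KZ {ι : Type} [Fintype ι] [Nonempty ι] {σ : Type} (ρ ε₁ df : ℝ)
    (nu : EuclideanSpace ℝ ι → EuclideanSpace ℝ ι)
    (c : σ → EuclideanSpace ℝ ι → EuclideanSpace ℝ ι)
    (x : EuclideanSpace ℝ ι × EuclideanSpace ℝ ι) : Prop :=
  (¬(‖x.2‖ < ρ * ‖x.1‖ ∧ mx x.1.ofLp < df * osc x.1.ofLp)) ∧
    (∀ a, ¬(‖x.2 - c a x.1‖ < ε₁ * ‖x.1‖)) ∧
    ((‖x.2‖ ≤ ρ * ‖x.1‖ ∧ mx x.1.ofLp ≤ df * osc x.1.ofLp ∧ ⟪x.2, nu x.1⟫ = 0) ∨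
      ∃ a, ‖x.2 - c a x.1‖ ≤ ε₁ * ‖x.1‖ ∧ ⟪x.2 - c a x.1, nu x.1⟫ = 0)

section ZeroSet

variable {ι : Type} [Fintype ι] [Nonempty ι] {σ : Type} [Fintype σ] [Nonempty σ]

/-- **The zero set of the end form of B3.** -/
theorem eq_zero_iff_KZ {ρ ε₁ df M : ℝ} (hM : 0 < M)
    {nu : EuclideanSpace ℝ ι → EuclideanSpace ℝ ι}
    {c : σ → EuclideanSpace ℝ ι → EuclideanSpace ℝ ι} {u v : EuclideanSpace ℝ ι} {F : ℂ}
    (hre : F.re = max (min (ρ * ‖u‖ - ‖v‖) (M * (df * osc u.ofLp - mx u.ofLp)))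
      (Finset.univ.sup' Finset.univ_nonempty fun a => ε₁ * ‖u‖ - ‖v - c a u‖))
    (him0 : ‖v‖ ≤ ρ * ‖u‖ → mx u.ofLp ≤ df * osc u.ofLp → F.im = ⟪v, nu u⟫)
    (him1 : ∀ a, ‖v - c a u‖ ≤ ε₁ * ‖u‖ → F.im = ⟪v - c a u, nu u⟫) :
    F = 0 ↔ KZ ρ ε₁ df nu c (u, v) := by
  have hle : F.re ≤ 0 ↔ (¬(‖v‖ < ρ * ‖u‖ ∧ mx u.ofLp < df * osc u.ofLp)) ∧
      (∀ a, ¬(‖v - c a u‖ < ε₁ * ‖u‖)) := by
    rw [hre, max_le_iff, Finset.sup'_le_iff]
    refine and_congr ?_ ?_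
    · rw [← not_lt, lt_min_iff, sub_pos]
      constructor
      · rintro h ⟨h1, h2⟩; exact h ⟨h1, mul_pos hM (by linarith)⟩
      · rintro h ⟨h1, h2⟩
        have := pos_of_mul_pos_right h2 hM.le
        exact h ⟨h1, by linarith⟩
    · constructor
      · intro h a h1; have := h a (Finset.mem_univ a); linarith
      · intro h a _; have := h a; linarith [not_lt.mp this]
  have hge : 0 ≤ F.re ↔ (‖v‖ ≤ ρ * ‖u‖ ∧ mx u.ofLp ≤ df * osc u.ofLp) ∨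
      ∃ a, ‖v - c a u‖ ≤ ε₁ * ‖u‖ := by
    rw [hre, le_max_iff, Finset.le_sup'_iff]
    refine or_congr ?_ ?_
    · rw [le_min_iff, sub_nonneg]
      constructor
      · rintro ⟨h1, h2⟩
        have := nonneg_of_mul_nonneg_right h2 hM
        exact ⟨h1, by linarith⟩
      · rintro ⟨h1, h2⟩; exact ⟨h1, mul_nonneg hM.le (by linarith)⟩
    · constructor
      · rintro ⟨a, -, h⟩; exact ⟨a, by linarith⟩
      · rintro ⟨a, h⟩; exact ⟨a, Finset.mem_univ a, by linarith⟩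
  unfold KZ
  constructor
  · intro h
    have h1 : F.re = 0 := by rw [h]; rfl
    have h2 : F.im = 0 := by rw [h]; rfl
    obtain ⟨h3, h4⟩ := hle.mp h1.le
    refine ⟨h3, h4, ?_⟩
    rcases hge.mp h1.ge with ⟨h5, h6⟩ | ⟨a, h5⟩
    · exact Or.inl ⟨h5, h6, by rw [← him0 h5 h6]; exact h2⟩
    · exact Or.inr ⟨a, h5, by rw [← him1 a h5]; exact h2⟩
  · rintro ⟨h1, h2, h3⟩
    have h4 : F.re ≤ 0 := hle.mpr ⟨h1, h2⟩
    rcases h3 with ⟨h5, h6, h7⟩ | ⟨a, h5, h6⟩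
    · exact Complex.ext (le_antisymm h4 (hge.mpr (Or.inl ⟨h5, h6⟩))) ((him0 h5 h6).trans h7)
    · exact Complex.ext (le_antisymm h4 (hge.mpr (Or.inr ⟨a, h5⟩))) ((him1 a h5).trans h6)

end ZeroSet

end Vale.Agent.P268.T.B4
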