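import Vale.Agent.P268.T.B4.Sec921
import Vale.Agent.P268.T.K372.SheetsV2

/-!
# P268, topological half, block B4: the rotated sheets are Lipschitz

`norm_rc_sub_le`: `rc nu c` is Lipschitz with an explicit constant.  Instances for the sheets
`cV δ d θ G K` and the normal field `nuV δ` of `K372/SheetsV`.
-/

set_option linter.unusedSectionVars false

namespace Vale.Agent.P268.T

open Set Filter Topology
open scoped RealInnerProductSpace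

section Rot

variable {V : Type*} [NormedAddCommGroup V] [InnerProductSpace ℝ V]

/-- The rotation depends on `a` in a Lipschitz way, where `1 + ⟪a, b⟫ ≥ 1`. -/
theorem norm_rot_sub_rot_le {a a' b : V} (ha : ‖a‖ = 1) (ha' : ‖a'‖ = 1) (hb : ‖b‖ = 1)
    (h : 1 ≤ 1 + ⟪a, b⟫) (h' : 1 ≤ 1 + ⟪a', b⟫) (v : V) :
    ‖rot a b v - rot a' b v‖ ≤ 10 * ‖a - a'‖ * ‖v‖ := by
  set D := 1 + ⟪a, b⟫ with hD
  set D' := 1 + ⟪a', b⟫ with hD'
  have hDp : 0 < D := by linarith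
  have hDp' : 0 < D' := by linarith
  set s := a + b with hs
  set s' := a' + b with hs'
  have hss : s - s' = a - a' := by rw [hs, hs']; abel
  have hsn : ‖s‖ ≤ 2 := (norm_add_le _ _).trans (by rw [ha, hb]; norm_num)
  have hsn' : ‖s'‖ ≤ 2 := (norm_add_le _ _).trans (by rw [ha', hb]; norm_num)
  have hDD : D' - D = -⟪a - a', b⟫ := by rw [hD, hD', inner_sub_left]; ring
  have key : rot a b v - rot a' b v =
      -((⟪a - a', v⟫ / D) • s) - ((⟪s', v⟫ * ((D' - D) / (D * D'))) • s) -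
        ((⟪s', v⟫ / D') • (a - a')) + (2 * ⟪a - a', v⟫) • b := by
    have e1 : ⟪s, v⟫ / D = ⟪a - a', v⟫ / D + ⟪s', v⟫ * ((D' - D) / (D * D')) + ⟪s', v⟫ / D' := by
      rw [← hss, inner_sub_left]; field_simp; ring
    unfold rot
    rw [← hs, ← hs', ← hD, ← hD', e1, ← hss]
    rw [inner_sub_left s s', show ⟪a, v⟫ = ⟪s, v⟫ - ⟪b, v⟫ by rw [hs, inner_add_left]; ring,
      show ⟪a', v⟫ = ⟪s', v⟫ - ⟪b, v⟫ by rw [hs', inner_add_left]; ring]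
    module
  have i1 : |⟪a - a', v⟫| ≤ ‖a - a'‖ * ‖v‖ := abs_real_inner_le_norm _ _
  have i2 : |⟪s', v⟫| ≤ 2 * ‖v‖ := (abs_real_inner_le_norm _ _).trans
    (mul_le_mul_of_nonneg_right hsn' (norm_nonneg _))
  have i3 : |D' - D| ≤ ‖a - a'‖ := by
    rw [hDD, abs_neg]
    have := abs_real_inner_le_norm (a - a') b
    rwa [hb, mul_one] at this
  have n0 := norm_nonneg (a - a')
  have nv := norm_nonneg v
  have n1 : ‖(⟪a - a', v⟫ / D) • s‖ ≤ 2 * (‖a - a'‖ * ‖v‖) := by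
    rw [norm_smul, Real.norm_eq_abs, abs_div, abs_of_pos hDp]
    calc |⟪a - a', v⟫| / D * ‖s‖ ≤ (‖a - a'‖ * ‖v‖) * 2 :=
          mul_le_mul ((div_le_self (abs_nonneg _) h).trans i1) hsn (norm_nonneg _) (by positivity)
      _ = _ := by ring
  have n2 : ‖(⟪s', v⟫ * ((D' - D) / (D * D'))) • s‖ ≤ 4 * (‖a - a'‖ * ‖v‖) := by
    rw [norm_smul, Real.norm_eq_abs, abs_mul, abs_div, abs_of_pos (mul_pos hDp hDp')]
    have j1 : |D' - D| / (D * D') ≤ ‖a - a'‖ := by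
      have : (1 : ℝ) ≤ D * D' := by nlinarith
      exact (div_le_self (abs_nonneg _) this).trans i3
    have j2 : 0 ≤ |D' - D| / (D * D') := by positivity
    calc |⟪s', v⟫| * (|D' - D| / (D * D')) * ‖s‖ ≤ (2 * ‖v‖) * ‖a - a'‖ * 2 := by gcongr
      _ = _ := by ring
  have n3 : ‖(⟪s', v⟫ / D') • (a - a')‖ ≤ 2 * (‖a - a'‖ * ‖v‖) := by
    rw [norm_smul, Real.norm_eq_abs, abs_div, abs_of_pos hDp']
    calc |⟪s', v⟫| / D' * ‖a - a'‖ ≤ (2 * ‖v‖) * ‖a - a'‖ :=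
          mul_le_mul_of_nonneg_right ((div_le_self (abs_nonneg _) h').trans i2) n0
      _ = _ := by ring
  have n4 : ‖(2 * ⟪a - a', v⟫) • b‖ ≤ 2 * (‖a - a'‖ * ‖v‖) := by
    rw [norm_smul, hb, mul_one, Real.norm_eq_abs, abs_mul, abs_of_pos (by norm_num : (0:ℝ) < 2)]
    linarith
  rw [key]
  calc _ ≤ ‖(⟪a - a', v⟫ / D) • s‖ + ‖(⟪s', v⟫ * ((D' - D) / (D * D'))) • s‖ +
        ‖(⟪s', v⟫ / D') • (a - a')‖ + ‖(2 * ⟪a - a', v⟫) • b‖ := by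
        refine (norm_add_le _ _).trans (add_le_add ((norm_sub_le _ _).trans
          (add_le_add ((norm_sub_le _ _).trans ?_) le_rfl)) le_rfl)
        rw [norm_neg]
    _ ≤ 2 * (‖a - a'‖ * ‖v‖) + 4 * (‖a - a'‖ * ‖v‖) + 2 * (‖a - a'‖ * ‖v‖) +
        2 * (‖a - a'‖ * ‖v‖) := by linarith
    _ = _ := by ring

end Rot

/-- Normalisation. -/
theorem norm_normalize_sub_le {V : Type*} [NormedAddCommGroup V] [NormedSpace ℝ V] {w w' : V}
    (hw : w ≠ 0) (hw' : w' ≠ 0) :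
    ‖‖w‖⁻¹ • w - ‖w'‖⁻¹ • w'‖ ≤ 2 * ‖w - w'‖ / ‖w‖ := by
  have h : 0 < ‖w‖ := norm_pos_iff.mpr hw
  have h' : 0 < ‖w'‖ := norm_pos_iff.mpr hw'
  have e : ‖w‖⁻¹ • w - ‖w'‖⁻¹ • w' = ‖w‖⁻¹ • (w - w') + (‖w‖⁻¹ - ‖w'‖⁻¹) • w' := by
    rw [smul_sub, sub_smul]; abel
  have h1 : |‖w‖⁻¹ - ‖w'‖⁻¹| * ‖w'‖ ≤ ‖w - w'‖ / ‖w‖ := by
    have e2 : ‖w‖⁻¹ - ‖w'‖⁻¹ = (‖w'‖ - ‖w‖) / (‖w‖ * ‖w'‖) := by field_simp
    rw [e2, abs_div, abs_of_pos (mul_pos h h')]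
    have h2 : |‖w'‖ - ‖w‖| ≤ ‖w - w'‖ := by
      rw [abs_sub_comm]; exact abs_norm_sub_norm_le w w'
    rw [div_mul_eq_mul_div, div_le_div_iff₀ (mul_pos h h') h]
    calc |‖w'‖ - ‖w‖| * ‖w'‖ * ‖w‖ ≤ ‖w - w'‖ * ‖w'‖ * ‖w‖ := by gcongr
      _ = _ := by ring
  rw [e]
  refine (norm_add_le _ _).trans ?_
  rw [norm_smul, norm_smul, norm_inv, norm_norm, Real.norm_eq_abs]
  have h3 : ‖w‖⁻¹ * ‖w - w'‖ = ‖w - w'‖ / ‖w‖ := by rw [div_eq_inv_mul]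
  rw [h3]
  have h4 : 2 * ‖w - w'‖ / ‖w‖ = ‖w - w'‖ / ‖w‖ + ‖w - w'‖ / ‖w‖ := by ring
  rw [h4]
  linarith

section

variable {ι : Type} [Fintype ι] [Nonempty ι]

theorem norm_absV_sub_le (w w' : EuclideanSpace ℝ ι) : ‖absV w - absV w'‖ ≤ ‖w - w'‖ := by
  rw [EuclideanSpace.norm_eq, EuclideanSpace.norm_eq]
  refine Real.sqrt_le_sqrt (Finset.sum_le_sum fun j _ => ?_)
  rw [PiLp.sub_apply, PiLp.sub_apply, absV_apply, absV_apply, Real.norm_eq_abs, Real.norm_eq_abs]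
  refine pow_le_pow_left₀ (abs_nonneg _) ?_ 2
  have : -|w j| - -|w' j| = -(|w j| - |w' j|) := by ring
  rw [this, abs_neg]
  exact abs_abs_sub_abs_le_abs_sub _ _

theorem norm_absDir_sub_le {w w' : EuclideanSpace ℝ ι} (hw : w ≠ 0) (hw' : w' ≠ 0) :
    ‖absDir w - absDir w'‖ ≤ 2 * ‖w - w'‖ / ‖w‖ := by
  have e : ∀ w : EuclideanSpace ℝ ι, w ≠ 0 → absDir w = absV (‖w‖⁻¹ • w) := fun w _ => by
    rw [absV_smul, abs_of_nonneg (inv_nonneg.mpr (norm_nonneg w))]; rfl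
  rw [e w hw, e w' hw']
  exact (norm_absV_sub_le _ _).trans (norm_normalize_sub_le hw hw')

theorem one_le_one_add_inner_absDir (w : EuclideanSpace ℝ ι) :
    1 ≤ 1 + ⟪absDir w, eDiag ι⟫ := by
  unfold absDir
  rw [inner_smul_left, RCLike.conj_to_real]
  have := mul_nonneg (inv_nonneg.mpr (norm_nonneg w)) (inner_absV_eDiag_nonneg w)
  linarith

end

namespace B4

open Vale.Agent.P268.H288 (mx le_mx mx_le exists_mx mx_add_const continuous_mx mx_smul)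
open K372 (nuV muV phiV etaV ppV cV)

variable {ι : Type} [Fintype ι] [Nonempty ι]

/-- **The rotated centres are Lipschitz.**  `m₀ ≤ ‖nu u‖`, `nu` Lipschitz with constant
`C / ‖u‖`, `c` Lipschitz with constant `Lc`. -/
theorem norm_rc_sub_le {δ : ℝ} {nu c : EuclideanSpace ℝ ι → EuclideanSpace ℝ ι}
    (h : NField δ nu) {m₀ C Lc : ℝ} (hm₀ : 0 < m₀) (hC : 0 ≤ C) (hLc : 0 ≤ Lc)
    (hm : ∀ u, u ≠ 0 → m₀ ≤ ‖nu u‖)
    (hnu : ∀ u v, u ≠ 0 → v ≠ 0 → ‖nu u - nu v‖ ≤ C / ‖u‖ * ‖u - v‖) (hc0 : c 0 = 0)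
    (hc : ∀ u v, ‖c u - c v‖ ≤ Lc * ‖u - v‖) (u v : EuclideanSpace ℝ ι) :
    ‖rc nu c u - rc nu c v‖ ≤ Lc * (1 + 20 * C / m₀) * ‖u - v‖ := by
  have hcn : ∀ u, ‖c u‖ ≤ Lc * ‖u‖ := fun u => by
    have := hc u 0
    rwa [hc0, sub_zero, sub_zero] at this
  have hbig : Lc ≤ Lc * (1 + 20 * C / m₀) := by
    have : 0 ≤ Lc * (20 * C / m₀) := by positivity
    linarith
  have hrc0 : rc nu c 0 = 0 := by unfold rc; rw [hc0, rot_zero]
  by_cases hu : u = 0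
  · subst hu
    rw [hrc0, zero_sub, norm_neg, norm_rc h hc0, zero_sub, norm_neg]
    exact (hcn v).trans (mul_le_mul_of_nonneg_right hbig (norm_nonneg _))
  by_cases hv : v = 0
  · subst hv
    rw [hrc0, sub_zero, norm_rc h hc0, sub_zero]
    exact (hcn u).trans (mul_le_mul_of_nonneg_right hbig (norm_nonneg _))
  have hv' : 0 < ‖v‖ := norm_pos_iff.mpr hv
  have hnv : 0 < ‖nu v‖ := norm_pos_iff.mpr (h.ne v hv)
  have e : rc nu c u - rc nu c v =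
      rot (absDir (nu u)) (eDiag ι) (c u - c v) +
        (rot (absDir (nu u)) (eDiag ι) (c v) - rot (absDir (nu v)) (eDiag ι) (c v)) := by
    unfold rc
    rw [rot_sub]; abel
  have h1 : ‖rot (absDir (nu u)) (eDiag ι) (c u - c v)‖ ≤ Lc * ‖u - v‖ := by
    rw [norm_rot (norm_absDir (h.ne u hu)) norm_eDiag (one_add_inner_absDir _).ne']
    exact hc u v
  have h2 : ‖absDir (nu u) - absDir (nu v)‖ ≤ 2 * (C / ‖v‖ * ‖u - v‖) / m₀ := by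
    rw [norm_sub_rev]
    refine (norm_absDir_sub_le (h.ne v hv) (h.ne u hu)).trans ?_
    have h3 : ‖nu v - nu u‖ ≤ C / ‖v‖ * ‖u - v‖ := by
      have := hnu v u hv hu
      rwa [norm_sub_rev v u] at this
    have h4 : 0 ≤ C / ‖v‖ * ‖u - v‖ := by positivity
    calc 2 * ‖nu v - nu u‖ / ‖nu v‖ ≤ 2 * (C / ‖v‖ * ‖u - v‖) / ‖nu v‖ := by gcongr
      _ ≤ _ := by
        have := hm v hv
        gcongr
  have h5 : ‖rot (absDir (nu u)) (eDiag ι) (c v) - rot (absDir (nu v)) (eDiag ι) (c v)‖ ≤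
      Lc * (20 * C / m₀) * ‖u - v‖ := by
    refine (norm_rot_sub_rot_le (norm_absDir (h.ne u hu)) (norm_absDir (h.ne v hv)) norm_eDiag
      (one_le_one_add_inner_absDir _) (one_le_one_add_inner_absDir _) (c v)).trans ?_
    have h6 : 0 ≤ 2 * (C / ‖v‖ * ‖u - v‖) / m₀ := by positivity
    calc 10 * ‖absDir (nu u) - absDir (nu v)‖ * ‖c v‖
        ≤ 10 * (2 * (C / ‖v‖ * ‖u - v‖) / m₀) * (Lc * ‖v‖) := by
          gcongr
          exact hcn v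
      _ = Lc * (20 * C / m₀) * ‖u - v‖ := by field_simp; ring
  rw [e]
  refine (norm_add_le _ _).trans ?_
  have : Lc * (1 + 20 * C / m₀) * ‖u - v‖ =
      Lc * ‖u - v‖ + Lc * (20 * C / m₀) * ‖u - v‖ := by ring
  rw [this]
  exact add_le_add h1 h5

/-! ### The instance -/

theorem mx_le_iff {δ : ℝ} {u : EuclideanSpace ℝ ι} :
    mx u.ofLp ≤ δ * ‖u‖ ↔ ∀ j, u j ≤ δ * ‖u‖ :=
  ⟨fun h j => (le_mx u.ofLp j).trans h, fun h => mx_le.mpr fun j => h j⟩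

theorem lt_mx_iff {δ : ℝ} {u : EuclideanSpace ℝ ι} :
    δ * ‖u‖ < mx u.ofLp ↔ ∃ j, δ * ‖u‖ < u j := by
  rw [← not_le, mx_le_iff]
  push Not
  rfl

/-- The normal field of the frozen K-form. -/
theorem nField_nuV {δ : ℝ} (hδ0 : 0 ≤ δ) (hδ : Fintype.card ι * δ ^ 2 < 1) :
    NField δ (nuV δ : EuclideanSpace ℝ ι → EuclideanSpace ℝ ι) where
  cont := K372.continuousOn_nuV δ
  hom := fun _ hr _ => K372.nuV_smul δ hr _
  ne := fun _ hu => K372.nuV_ne_zero hδ0 hδ hu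
  neg := fun _ hu j => K372.nuV_nonpos (mx_le_iff.mp hu j)

/-- Lower bound for the normal field. -/
noncomputable def nuM (ι : Type) [Fintype ι] (δ : ℝ) : ℝ :=
  (Real.sqrt (Fintype.card ι))⁻¹ - δ

/-- Lipschitz constant of the rotated sheets. -/
noncomputable def lipR (ι : Type) [Fintype ι] (δ d : ℝ) (P g : ℝ) : ℝ :=
  (P + g * K372.lipEta ι δ d) *
    (1 + 20 * (Fintype.card ι * (2 * (1 + δ)) + 1) / nuM ι δ)

theorem lipR_nonneg {δ d P g : ℝ} (hδ0 : 0 ≤ δ) (hδ : δ < (Real.sqrt (Fintype.card ι))⁻¹)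
    (hd : 0 ≤ d) (hP : 0 ≤ P) (hg : 0 ≤ g) : 0 ≤ lipR ι δ d P g := by
  have h1 := K372.lipEta_nonneg (ι := ι) hδ0 hd
  have h2 : 0 < nuM ι δ := by unfold nuM; linarith
  unfold lipR
  positivity

theorem lipR_mono {δ d P g d₁ g₁ : ℝ} (hδ0 : 0 ≤ δ) (hδ : δ < (Real.sqrt (Fintype.card ι))⁻¹)
    (hd : 0 ≤ d) (_hP : 0 ≤ P) (hg : 0 ≤ g) (hd₁ : d ≤ d₁) (hg₁ : g ≤ g₁) :
    lipR ι δ d P g ≤ lipR ι δ d₁ P g₁ := by
  have h1 := K372.lipEta_nonneg (ι := ι) hδ0 hd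
  have h2 : 0 < nuM ι δ := by unfold nuM; linarith
  have h3 : K372.lipEta ι δ d ≤ K372.lipEta ι δ d₁ := by unfold K372.lipEta; gcongr
  have h4 : 0 ≤ g₁ := hg.trans hg₁
  unfold lipR
  gcongr

/-- **The rotated sheets of the frozen K-form are Lipschitz.** -/
theorem norm_rcV_sub_le {δ d : ℝ} (hδ0 : 0 ≤ δ) (hδ : δ < (Real.sqrt (Fintype.card ι))⁻¹)
    (hd : 0 ≤ d) (θ : ℝ) (G : (ι → ℕ) → ℝ) {P g : ℝ} (K : ι → ℕ) (hK : ∀ j, (K j : ℝ) ≤ P)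
    (hP : 0 ≤ P) (hg : |θ * G K| ≤ g) (u v : EuclideanSpace ℝ ι) :
    ‖rc (nuV δ) (cV δ d θ G K) u - rc (nuV δ) (cV δ d θ G K) v‖ ≤ lipR ι δ d P g * ‖u - v‖ := by
  have hc : (0 : ℝ) < Fintype.card ι := by exact_mod_cast Fintype.card_pos
  have hs : 0 < Real.sqrt (Fintype.card ι) := Real.sqrt_pos.mpr hc
  have hδ2 : Fintype.card ι * δ ^ 2 < 1 := by
    have h1 : Real.sqrt (Fintype.card ι) * δ < 1 := by
      have := mul_lt_mul_of_pos_left hδ hs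
      rwa [mul_inv_cancel₀ hs.ne'] at this
    have h2 : (Real.sqrt (Fintype.card ι) * δ) ^ 2 < 1 := by
      have : 0 ≤ Real.sqrt (Fintype.card ι) * δ := by positivity
      nlinarith
    rwa [mul_pow, Real.sq_sqrt hc.le] at h2
  have hg0 : 0 ≤ g := (abs_nonneg _).trans hg
  have h1 := K372.lipEta_nonneg (ι := ι) hδ0 hd
  have h2 : 0 < nuM ι δ := by unfold nuM; linarith
  refine norm_rc_sub_le (nField_nuV hδ0 hδ2) h2 (C := Fintype.card ι * (2 * (1 + δ)) + 1)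
    (by positivity) (Lc := P + g * K372.lipEta ι δ d) (by positivity)
    (fun u hu => K372.le_norm_nuV hδ0 hu) (fun u v hu hv => K372.norm_nuV_sub_le hδ0 hu hv)
    (K372.cV_zero δ d θ G K) (fun u v => ?_) u v
  refine (K372.norm_cV_sub_le hδ0 hd θ G K hK hP u v).trans ?_
  gcongr

end B4

end Vale.Agent.P268.T
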