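import Vale.Agent.P268.T.B4.Start921
import Vale.Agent.P268.T.B4.Chart921
import Vale.Agent.P268.T.B4.KZ921

/-!
# P268, topological half, block B4: from the end form of B3 to the half space form `KA`
-/

set_option linter.unusedSectionVars false

namespace Vale.Agent.P268.T

open Set Filter Topology
open scoped RealInnerProductSpace

namespace B4

open Vale.Agent.P268.H288 (mx le_mx mx_le exists_mx mx_add_const continuous_mx mx_smul)
open K372 (nuV muV phiV etaV ppV cV ScalesB3)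

section

variable {n : ℕ}

theorem inner_rot_normal {δ : ℝ}
    {nu : EuclideanSpace ℝ (Fin (n + 1)) → EuclideanSpace ℝ (Fin (n + 1))} (hn : NField δ nu)
    {u : EuclideanSpace ℝ (Fin (n + 1))} (hu : u ≠ 0) (v : EuclideanSpace ℝ (Fin (n + 1))) :
    ⟪rot (absDir (nu u)) (eDiag (Fin (n + 1))) v, rn nu u⟫ = 0 ↔ ⟪v, nu u⟫ = 0 := by
  unfold rn
  rw [inner_rot (norm_absDir (hn.ne u hu)) norm_eDiag (one_add_inner_absDir _).ne',
    inner_smul_right]
  have h : ‖nu u‖⁻¹ ≠ 0 := inv_ne_zero (norm_ne_zero_iff.mpr (hn.ne u hu))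
  constructor
  · intro h1
    exact (mul_eq_zero.mp h1).resolve_left h
  · intro h1
    rw [h1, mul_zero]

/-- **Transport**: the zero set of the end form of B3 in the chart. -/
theorem veq_SZeroK {dc df δ ρ ε₁ C : ℝ}
    {nu : EuclideanSpace ℝ (Fin (n + 1)) → EuclideanSpace ℝ (Fin (n + 1))} {σ : Type}
    {c : σ → EuclideanSpace ℝ (Fin (n + 1)) → EuclideanSpace ℝ (Fin (n + 1))}
    (hdf : 0 ≤ df) (hδ : 2 * df ≤ δ) (hρ : 0 ≤ ρ) (hε₁ : 0 ≤ ε₁)
    (hn : NField δ nu) (hch : ∀ k, ∀ r : ℝ, 0 ≤ r → ∀ u, c k (r • u) = r • c k u)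
    (hC : ∀ k u, ‖c k u‖ ≤ C * ‖u‖) (hC0 : 0 ≤ C)
    {Z Z' : Type*} [Zero Z] [Zero Z']
    {F : EuclideanSpace ℝ (Fin (n + 1)) × EuclideanSpace ℝ (Fin (n + 1)) → Z}
    {G : (ℝ × (Fin n → ℝ)) × EuclideanSpace ℝ (Fin (n + 1)) → Z'}
    (hF : ∀ x, F x = 0 ↔ KZ ρ ε₁ df nu c x)
    (hG : ∀ x, G x = 0 ↔ SZeroK (eDiag (Fin (n + 1))) (fun s => ρ * ‖(Theta n dc).symm s‖)
      (fun s => ε₁ * ‖(Theta n dc).symm s‖) (fun p => -(dc - df) * osc (qq p))
      (fun k s => rc nu (c k) ((Theta n dc).symm s)) (fun s => rn nu ((Theta n dc).symm s)) x) :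
    VEq F G := by
  have hc0 : ∀ k, c k 0 = 0 := fun k => by
    have := hch k 0 le_rfl 0
    rwa [smul_zero, zero_smul] at this
  have hrc0 : ∀ k, rc nu (c k) 0 = 0 := fun k => by unfold rc; rw [hc0, rot_zero]
  have hgauge : Gauge (fun u : EuclideanSpace ℝ (Fin (n + 1)) => ‖u‖) :=
    { cont := continuous_norm
      hom := fun r hr u => by rw [norm_smul, Real.norm_eq_abs, abs_of_nonneg hr]
      pos := fun u hu => norm_pos_iff.mpr hu }
  have hrot := rotField_abs (N := fun u : EuclideanSpace ℝ (Fin (n + 1)) => ‖u‖) hgauge hn.cont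
    hn.ne
  have hM : 0 < ρ + ε₁ + C + 1 := by positivity
  -- the correspondence of the zero sets over one base point
  have key : ∀ u : EuclideanSpace ℝ (Fin (n + 1)), u ≠ 0 → ∀ v,
      (KZ ρ ε₁ df nu c (u, v) ↔ G (Theta n dc u, rot (absDir (nu u)) (eDiag _) v) = 0) := by
    intro u hu v
    rw [hG]
    have hA := norm_absDir (hn.ne u hu)
    have hne := (one_add_inner_absDir (nu u)).ne'
    have e1 : (Theta n dc).symm (Theta n dc u) = u := (Theta n dc).symm_apply_apply u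
    have n1 : ‖rot (absDir (nu u)) (eDiag (Fin (n + 1))) v‖ = ‖v‖ := norm_rot hA norm_eDiag hne v
    have e2 : ∀ a, rot (absDir (nu u)) (eDiag (Fin (n + 1))) v - rc nu (c a) u =
        rot (absDir (nu u)) (eDiag (Fin (n + 1))) (v - c a u) := fun a => by
      unfold rc; rw [rot_sub]
    have n2 : ∀ a, ‖rot (absDir (nu u)) (eDiag (Fin (n + 1))) v - rc nu (c a) u‖ =
        ‖v - c a u‖ := fun a => by rw [e2, norm_rot hA norm_eDiag hne]
    have o1 : osc (qq (Theta n dc u).2) = osc u.ofLp := by rw [Theta_snd, osc_qq_dif]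
    have f1 : (Theta n dc u).1 = mx u.ofLp - dc * osc u.ofLp := rfl
    have hlt : ((Theta n dc u).1 < -(dc - df) * osc (qq (Theta n dc u).2)) ↔
        mx u.ofLp < df * osc u.ofLp := by
      rw [o1, f1]; constructor <;> intro h <;> linarith
    have hle : ((Theta n dc u).1 ≤ -(dc - df) * osc (qq (Theta n dc u).2)) ↔
        mx u.ofLp ≤ df * osc u.ofLp := by
      rw [o1, f1]; constructor <;> intro h <;> linarith
    have hin : mx u.ofLp ≤ df * osc u.ofLp →
        (⟪rot (absDir (nu u)) (eDiag (Fin (n + 1))) v, eDiag (Fin (n + 1))⟫ = 0 ↔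
          ⟪v, nu u⟫ = 0) := by
      intro h
      have h1 : mx u.ofLp ≤ δ * ‖u‖ := by
        have h2 := mul_le_mul_of_nonneg_left (osc_le_norm u) hdf
        have h3 := mul_le_mul_of_nonneg_right hδ (norm_nonneg u)
        linarith
      have h2 := inner_rot_normal hn hu v
      rwa [rn_flat hn hu h1] at h2
    have hin' : ∀ a, (⟪rot (absDir (nu u)) (eDiag (Fin (n + 1))) v - rc nu (c a) u, rn nu u⟫ = 0 ↔
        ⟪v - c a u, nu u⟫ = 0) := fun a => by
      rw [e2]; exact inner_rot_normal hn hu _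
    unfold KZ SZeroK
    simp only [e1, n1, n2, hlt, hle, hin']
    constructor
    · rintro ⟨h1, h2, h3 | h3⟩
      · exact ⟨h1, h2, Or.inl ⟨h3.1, h3.2.1, (hin h3.2.1).mpr h3.2.2⟩⟩
      · exact ⟨h1, h2, Or.inr h3⟩
    · rintro ⟨h1, h2, h3 | h3⟩
      · exact ⟨h1, h2, Or.inl ⟨h3.1, h3.2.1, (hin h3.2.1).mp h3.2.2⟩⟩
      · exact ⟨h1, h2, Or.inr h3⟩
  have hnorm0 : ‖(0 : EuclideanSpace ℝ (Fin (n + 1)))‖ = 0 := norm_zero
  refine VEq.of_rot' hrot hM (Theta n dc) (Theta_zero dc) ?_ ?_ (fun u hu v _ => ?_) ?_ ?_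
  · rw [hF]
    refine ⟨fun h => ?_, fun a h => ?_, Or.inl ⟨?_, ?_, ?_⟩⟩
    · have := h.1
      rw [Prod.snd_zero, Prod.fst_zero, norm_zero, mul_zero] at this
      exact lt_irrefl _ this
    · rw [Prod.snd_zero, Prod.fst_zero, hc0, sub_zero, norm_zero, mul_zero] at h
      exact lt_irrefl _ h
    · rw [Prod.snd_zero, Prod.fst_zero, norm_zero, mul_zero]
    · rw [Prod.fst_zero]
      have e1 : mx (0 : EuclideanSpace ℝ (Fin (n + 1))).ofLp = 0 := by
        have := mx_smul (le_refl (0:ℝ)) (0 : EuclideanSpace ℝ (Fin (n + 1))).ofLp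
        rw [zero_mul, zero_smul] at this
        exact this
      have e2 : osc (0 : EuclideanSpace ℝ (Fin (n + 1))).ofLp = 0 := by
        have := osc_smul (le_refl (0:ℝ)) (0 : EuclideanSpace ℝ (Fin (n + 1))).ofLp
        rw [zero_mul, zero_smul] at this
        exact this
      rw [e1, e2, mul_zero]
    · rw [Prod.snd_zero, inner_zero_left]
  · rw [hG]
    refine ⟨fun h => ?_, fun a h => ?_, Or.inl ⟨?_, ?_, ?_⟩⟩
    · have := h.1
      beta_reduce at this
      rw [Prod.snd_zero, Prod.fst_zero, norm_zero, Theta_symm_zero, norm_zero, mul_zero] at this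
      exact lt_irrefl _ this
    · beta_reduce at h
      rw [Prod.snd_zero, Prod.fst_zero, Theta_symm_zero, hrc0, sub_zero, norm_zero, mul_zero] at h
      exact lt_irrefl _ h
    · beta_reduce
      rw [Prod.snd_zero, Prod.fst_zero, norm_zero, Theta_symm_zero, norm_zero, mul_zero]
    · beta_reduce
      rw [Prod.fst_zero, Prod.fst_zero, Prod.snd_zero]
      have e2 : osc (qq (0 : Fin n → ℝ)) = 0 := by
        have h1 := qq_smul (0:ℝ) (0 : Fin n → ℝ)
        rw [zero_smul, zero_smul] at h1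
        rw [h1]
        have := osc_smul (le_refl (0:ℝ)) (0 : Fin (n + 1) → ℝ)
        rw [zero_mul, zero_smul] at this
        exact this
      rw [e2, mul_zero]
    · rw [Prod.snd_zero, inner_zero_left]
  · rw [hF]; exact key u hu v
  · intro u v h
    rw [hF] at h
    have hb : ρ * ‖u‖ ≤ (ρ + ε₁ + C + 1) * ‖u‖ := by
      have := norm_nonneg u; nlinarith
    rcases h.2.2 with h1 | ⟨a, h1, -⟩
    · exact h1.1.trans hb
    · have h2 : ‖v‖ ≤ ‖v - c a u‖ + ‖c a u‖ := by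
        have := norm_add_le (v - c a u) (c a u)
        rwa [sub_add_cancel] at this
      have h3 := hC a u
      have h4 : ‖v - c a u‖ ≤ ε₁ * ‖u‖ := h1
      have h5 : (ε₁ + C) * ‖u‖ ≤ (ρ + ε₁ + C + 1) * ‖u‖ :=
        mul_le_mul_of_nonneg_right (by linarith) (norm_nonneg u)
      linarith
  · intro u v h
    rw [hG] at h
    have e1 : (Theta n dc).symm (Theta n dc u) = u := (Theta n dc).symm_apply_apply u
    unfold SZeroK at h
    simp only [e1] at h
    have hb : ρ * ‖u‖ ≤ (ρ + ε₁ + C + 1) * ‖u‖ := by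
      have := norm_nonneg u; nlinarith
    rcases h.2.2 with h1 | ⟨a, h1, -⟩
    · exact h1.1.trans hb
    · have h2 : ‖v‖ ≤ ‖v - rc nu (c a) u‖ + ‖rc nu (c a) u‖ := by
        have := norm_add_le (v - rc nu (c a) u) (rc nu (c a) u)
        rwa [sub_add_cancel] at this
      rw [norm_rc hn (hc0 a)] at h2
      have h3 := hC a u
      have h5 : (ε₁ + C) * ‖u‖ ≤ (ρ + ε₁ + C + 1) * ‖u‖ :=
        mul_le_mul_of_nonneg_right (by linarith) (norm_nonneg u)
      linarith

end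

section Exists

variable {n : ℕ}

/-- **The start conditions for the sheets of the frozen K-form**: front `d`, chart `3 d / 2`. -/
theorem exists_kStart {σ : Type} [Finite σ] {K : σ → Fin (n + 1) → ℕ}
    {G : (Fin (n + 1) → ℕ) → ℝ} {δ ρ d d' θ P g : ℝ} (hG : StrictMono G)
    (hGne : ∀ a b, a ≠ b → G (K a) ≠ G (K b)) (hδ0 : 0 < δ)
    (hδ : δ < (Real.sqrt (Fintype.card (Fin (n + 1))))⁻¹) (hd : 0 < d) (hd1 : d ≤ 1 / 2)
    (hdδ : 3 * d ≤ δ) (hρ : 0 < ρ) (hC₀ : c0R (Fin (n + 1)) P g * (3 * d) ≤ ρ / 2)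
    (hd'0 : 0 ≤ d') (hd' : Real.sqrt (Fintype.card (Fin (n + 1))) * d' < d / 2) (hθ : 0 < θ)
    (hθs : ∀ a b, 4 * Fintype.card (Fin (n + 1)) * θ * |G (K a) - G (K b)| ≤ 1)
    (hP0 : 0 ≤ P) (hP : ∀ a j, (K a j : ℝ) ≤ P) (hg0 : 0 ≤ g) (hg : ∀ a, |θ * G (K a)| ≤ g) :
    ∃ ε₀ > 0, ∀ ε, 0 < ε → ε ≤ ε₀ → ∃ L, KStart (eDiag (Fin (n + 1)))
      (fun p : Fin n → ℝ => osc (qq p)) (3 / 2 * d - d) (3 / 2 * d - d / 2) L
      (fun s => ρ * ‖(Theta n (3 / 2 * d)).symm s‖) (fun s => ε * ‖(Theta n (3 / 2 * d)).symm s‖)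
      (fun a s => rc (nuV δ) (cV δ d' θ G (K a)) ((Theta n (3 / 2 * d)).symm s))
      (fun s => rn (nuV δ) ((Theta n (3 / 2 * d)).symm s)) := by
  have hc : (0 : ℝ) < Fintype.card (Fin (n + 1)) := by exact_mod_cast Fintype.card_pos
  have hs : 0 < Real.sqrt (Fintype.card (Fin (n + 1))) := Real.sqrt_pos.mpr hc
  have hδ2 : Fintype.card (Fin (n + 1)) * δ ^ 2 < 1 := by
    have h1 : Real.sqrt (Fintype.card (Fin (n + 1))) * δ < 1 := by
      have := mul_lt_mul_of_pos_left hδ hs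
      rwa [mul_inv_cancel₀ hs.ne'] at this
    have h2 : (Real.sqrt (Fintype.card (Fin (n + 1))) * δ) ^ 2 < 1 := by
      have : 0 ≤ Real.sqrt (Fintype.card (Fin (n + 1))) * δ := by positivity
      nlinarith
    rwa [mul_pow, Real.sq_sqrt hc.le] at h2
  obtain ⟨κ, hκ, hsep⟩ := K372.exists_sepV' (K := K) (G := G) (δ := δ) (d := d') (θ := θ) hδ0.le hδ2
    hd'0 hθ hG hGne hθs (f := fun u => mxV u - d / 2 * oscV u)
    (continuous_mxV.sub (continuous_const.mul continuous_oscV))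
    (fun k hk u => by rw [mxV_smul hk, oscV_smul hk]; ring)
    (fun u hu hf => K372.exists_lt_of_osc_le (d := d / 2) (by positivity) (by linarith) hd'0 hd' hu
      (by linarith))
  have hC0 : 0 ≤ c0R (Fin (n + 1)) P g := by unfold c0R; positivity
  refine ⟨min (κ / 4) (ρ / 4), by positivity, fun ε hε0 hε => ⟨_, kStart_of (dc := 3 / 2 * d)
    (df := d) (d₂ := d / 2) (κ := κ) (C₀ := c0R (Fin (n + 1)) P g)
    (Lr := lipR (Fin (n + 1)) δ d' P g) (by positivity) (by linarith) (by linarith) (by linarith)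
    (by linarith) hε0 hρ ?_ hC0 ?_ (lipR_nonneg hδ0.le hδ hd'0 hP0 hg0) (nField_nuV hδ0.le hδ2)
    (fun a => K372.continuous_cV hδ0.le hd'0 θ G (K a))
    (fun a r hr u => K372.cV_smul δ d' θ G (K a) hr u) ?_ ?_ ?_
    (fun a u v => norm_rcV_sub_le hδ0.le hδ hd'0 θ G (K a) (hP a) hP0 (hg a) u v)⟩⟩
  · have := hε.trans (min_le_left _ _); linarith
  · have := hε.trans (min_le_right _ _); linarith
  · intro a u hu
    rw [real_inner_comm]
    exact K372.inner_cV_nuV_eq_zero hδ0.le d' θ G (K a) (mx_le_iff.mp hu)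
  · intro a b hab u hu
    refine hsep a b hab u ?_
    rw [mxV_eq, oscV_eq]
    have : 0 ≤ κ * ‖u‖ := by positivity
    linarith
  · intro a m u hm hu
    exact norm_cV_le_mx hδ0.le hd'0 hm G (K a) (hP a) hP0 (hg a) hu

end Exists

end B4

end Vale.Agent.P268.T
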