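import Vale.Agent.P268.T.DeltaR
import Vale.Agent.P268.T.H863.KA

/-!
# P268, topological half, block B4a (S4): plates over a half space base, general front

`splates e ρ₀ ρ₁ M f l c ν`, `x = ((u₀, p), v)`: slab `w = v`, normal `e`, radius `ρ₀`, over
`u₀ < f p`; sheets `w = v - c a s`, normal `ν a s`, radius `ρ₁`, over `u₀ > l p`, where `l < f`: the
fronts of the sheets are hidden in the slab.  `SFam`: conditions for a family to be in the class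
`R`; `SZero`: the zero set.
-/

set_option linter.unusedSectionVars false

namespace Vale.Agent.P268.T

open Set Filter Topology Metric

variable {T P V A : Type*} [TopologicalSpace T] [NormedAddCommGroup P] [NormedSpace ℝ P]
  [NormedAddCommGroup V] [InnerProductSpace ℝ V]

/-- Plates over the base `ℝ × P` with a slab over `u₀ < f p`. -/
noncomputable def splates (e : V) (ρ₀ ρ₁ : T → ℝ × P → ℝ) (M : T → ℝ) (f l : T → P → ℝ)
    (c ν : T → A → ℝ × P → V) : SheetData T ((ℝ × P) × V) V (Option A) where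
  w τ a x := a.elim x.2 fun a => x.2 - c τ a x.1
  ν τ a x := a.elim e fun a => ν τ a x.1
  r τ a x := a.elim (ρ₀ τ x.1) fun _ => ρ₁ τ x.1
  σ τ a x := a.elim (M τ * (f τ x.1.2 - x.1.1)) fun _ => M τ * (x.1.1 - l τ x.1.2)

/-- Conditions for a family of plates over `ℝ × P` to be in the class `R`. -/
structure SFam (s : Set T) (e : V) (ρ₀ ρ₁ : T → ℝ × P → ℝ) (M : T → ℝ) (f l : T → P → ℝ)
    (c ν : T → A → ℝ × P → V) (z L η : ℝ) : Prop where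
  he : ‖e‖ = 1
  hη : 0 < η
  hz : 0 < z
  hL : 0 < L
  cρ₀ : ContinuousOn (fun q : T × (ℝ × P) => ρ₀ q.1 q.2) (s ×ˢ univ)
  cρ₁ : ContinuousOn (fun q : T × (ℝ × P) => ρ₁ q.1 q.2) (s ×ˢ univ)
  cM : ContinuousOn M s
  cf : ContinuousOn (fun q : T × P => f q.1 q.2) (s ×ˢ univ)
  cl : ContinuousOn (fun q : T × P => l q.1 q.2) (s ×ˢ univ)
  cc : ∀ a, ContinuousOn (fun q : T × (ℝ × P) => c q.1 a q.2) (s ×ˢ univ)
  cn : ∀ a, ContinuousOn (fun q : T × (ℝ × P) => ν q.1 a q.2) (s ×ˢ {x | x ≠ 0})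
  hρ₀ : ∀ τ ∈ s, ∀ k : ℝ, 0 ≤ k → ∀ x, ρ₀ τ (k • x) = k * ρ₀ τ x
  hρ₁ : ∀ τ ∈ s, ∀ k : ℝ, 0 ≤ k → ∀ x, ρ₁ τ (k • x) = k * ρ₁ τ x
  hf : ∀ τ ∈ s, ∀ k : ℝ, 0 ≤ k → ∀ p, f τ (k • p) = k * f τ p
  hl : ∀ τ ∈ s, ∀ k : ℝ, 0 ≤ k → ∀ p, l τ (k • p) = k * l τ p
  hc : ∀ τ ∈ s, ∀ a, ∀ k : ℝ, 0 ≤ k → ∀ x, c τ a (k • x) = k • c τ a x
  hn : ∀ τ ∈ s, ∀ a, ∀ k : ℝ, 0 < k → ∀ x, ν τ a (k • x) = ν τ a x
  nn : ∀ τ ∈ s, ∀ a, ∀ x, x ≠ 0 → ‖ν τ a x‖ = 1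
  pos₀ : ∀ τ ∈ s, ∀ x, x ≠ 0 → 0 < ρ₀ τ x
  pos₁ : ∀ τ ∈ s, ∀ x, η * ‖x‖ ≤ ρ₁ τ x
  bf : ∀ τ ∈ s, ∀ p, |f τ p| ≤ 2 * ‖p‖
  bl : ∀ τ ∈ s, ∀ p, |l τ p| ≤ 2 * ‖p‖
  lf : ∀ τ ∈ s, ∀ p, l τ p + 2 * z * ‖p‖ ≤ f τ p
  flat : ∀ τ ∈ s, ∀ a x, x ≠ 0 → l τ x.2 - z * ‖x.2‖ ≤ x.1 → x.1 ≤ f τ x.2 + z * ‖x.2‖ →
    inner ℝ (c τ a x) e = 0
  nflat : ∀ τ ∈ s, ∀ a x, x ≠ 0 → l τ x.2 - z * ‖x.2‖ ≤ x.1 → x.1 ≤ f τ x.2 + z * ‖x.2‖ →
    ν τ a x = e
  dist : ∀ τ ∈ s, ∀ a b, a ≠ b → ∀ x, x ≠ 0 → l τ x.2 - z * ‖x.2‖ ≤ x.1 →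
    4 * ρ₁ τ x ≤ ‖c τ a x - c τ b x‖
  inn : ∀ τ ∈ s, ∀ a x, x ≠ 0 → l τ x.2 - z * ‖x.2‖ ≤ x.1 → x.1 ≤ f τ x.2 + z * ‖x.2‖ →
    ‖c τ a x‖ + 2 * ρ₁ τ x ≤ ρ₀ τ x
  lipc : ∀ τ ∈ s, ∀ a p u u', |u - f τ p| ≤ z * ‖p‖ → |u' - f τ p| ≤ z * ‖p‖ →
    ‖c τ a (u', p) - c τ a (u, p)‖ ≤ L * |u' - u|
  lip₀ : ∀ τ ∈ s, ∀ p u u', |u - f τ p| ≤ z * ‖p‖ → |u' - f τ p| ≤ z * ‖p‖ →
    |ρ₀ τ (u', p) - ρ₀ τ (u, p)| ≤ L * |u' - u|
  lip₁ : ∀ τ ∈ s, ∀ p u u', |u - f τ p| ≤ z * ‖p‖ → |u' - f τ p| ≤ z * ‖p‖ →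
    |ρ₁ τ (u', p) - ρ₁ τ (u, p)| ≤ L * |u' - u|
  hM : ∀ τ ∈ s, 8 * L ≤ M τ
  hMη : ∀ τ ∈ s, 8 * η ≤ M τ
  hMz : ∀ τ ∈ s, 3 * η ≤ z * M τ

section Fam

variable {s : Set T} {e : V} {ρ₀ ρ₁ : T → ℝ × P → ℝ} {M : T → ℝ} {f l : T → P → ℝ}
  {c ν : T → A → ℝ × P → V} {z L η : ℝ}

/-- Elementary estimate for the nearly active region of a front. -/
theorem zone_est {x : ℝ × P} {M η z g : ℝ} (hM : 0 < M) (hMη : 8 * η ≤ M)
    (hMz : 3 * η ≤ z * M) (hη : 0 < η) (hz : 0 ≤ z) (hg : |g| ≤ 2 * ‖x.2‖) :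
    (-η * ‖x‖ < M * (g - x.1) → x.1 ≤ g + z * ‖x.2‖) ∧
      (-η * ‖x‖ < M * (x.1 - g) → g - z * ‖x.2‖ ≤ x.1) := by
  have hp := norm_nonneg x.2
  have hzp : 0 ≤ z * ‖x.2‖ := mul_nonneg hz hp
  have hx0 : 0 ≤ ‖x‖ := norm_nonneg x
  have h1 : η * ‖x‖ ≤ M * (‖x‖ / 8) := by
    have := mul_le_mul_of_nonneg_right hMη hx0
    linarith
  have key : |x.1| ≤ 2 * ‖x.2‖ + ‖x‖ / 8 → ‖x‖ ≤ 3 * ‖x.2‖ := by
    intro h
    rcases le_total |x.1| ‖x.2‖ with h2 | h2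
    · rw [norm_base, max_eq_right h2]; linarith
    · rw [norm_base, max_eq_left h2] at h ⊢; linarith
  have key2 : ‖x‖ ≤ 3 * ‖x.2‖ → η * ‖x‖ ≤ M * (z * ‖x.2‖) := by
    intro h
    have h2 : η * ‖x‖ ≤ η * (3 * ‖x.2‖) := mul_le_mul_of_nonneg_left h hη.le
    have h3 : 3 * η * ‖x.2‖ ≤ z * M * ‖x.2‖ := mul_le_mul_of_nonneg_right hMz hp
    linarith
  obtain ⟨hg1, hg2⟩ := abs_le.mp hg
  constructor
  · intro h
    by_cases hlt : x.1 ≤ g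
    · linarith
    have h2 : M * (x.1 - g) < M * (‖x‖ / 8) := by linarith
    have h3 : x.1 - g < ‖x‖ / 8 := lt_of_mul_lt_mul_left h2 hM.le
    have h4 : |x.1| ≤ 2 * ‖x.2‖ + ‖x‖ / 8 := abs_le.mpr ⟨by linarith, by linarith⟩
    have h5 := key2 (key h4)
    have h6 : M * (x.1 - g) < M * (z * ‖x.2‖) := by linarith
    have := lt_of_mul_lt_mul_left h6 hM.le
    linarith
  · intro h
    by_cases hlt : g ≤ x.1
    · linarith
    have h2 : M * (g - x.1) < M * (‖x‖ / 8) := by linarith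
    have h3 : g - x.1 < ‖x‖ / 8 := lt_of_mul_lt_mul_left h2 hM.le
    have h4 : |x.1| ≤ 2 * ‖x.2‖ + ‖x‖ / 8 := abs_le.mpr ⟨by linarith, by linarith⟩
    have h5 := key2 (key h4)
    have h6 : M * (g - x.1) < M * (z * ‖x.2‖) := by linarith
    have := lt_of_mul_lt_mul_left h6 hM.le
    linarith

theorem SFam.M_pos (h : SFam s e ρ₀ ρ₁ M f l c ν z L η) {τ : T} (hτ : τ ∈ s) : 0 < M τ := by
  have := h.hM τ hτ
  have := h.hL
  linarith

variable [Fintype A]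

/-- **The global conditions.** -/
theorem SFam.base (h : SFam s e ρ₀ ρ₁ M f l c ν z L η) :
    (splates e ρ₀ ρ₁ M f l c ν).Base s η (fun x => ‖x.1‖) where
  hη := h.hη
  cN := by fun_prop
  nN := fun x => norm_nonneg _
  hN := fun k hk x => by rw [Prod.smul_fst, norm_smul, Real.norm_eq_abs, abs_of_nonneg hk]
  cw := by
    have c2 : ContinuousOn (fun p : T × ((ℝ × P) × V) => p.2.2) (s ×ˢ univ) := by fun_prop
    have c3 : ContinuousOn (fun p : T × ((ℝ × P) × V) => (p.1, p.2.1)) (s ×ˢ univ) := by fun_prop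
    rintro (_ | a)
    · exact c2
    · exact c2.sub ((h.cc a).comp c3 fun p hp => ⟨hp.1, mem_univ _⟩)
  cr := by
    have c3 : ContinuousOn (fun p : T × ((ℝ × P) × V) => (p.1, p.2.1)) (s ×ˢ univ) := by fun_prop
    rintro (_ | a)
    · exact h.cρ₀.comp c3 fun p hp => ⟨hp.1, mem_univ _⟩
    · exact h.cρ₁.comp c3 fun p hp => ⟨hp.1, mem_univ _⟩
  cs := by
    have c1 : ContinuousOn (fun p : T × ((ℝ × P) × V) => M p.1) (s ×ˢ univ) :=
      h.cM.comp continuousOn_fst fun p hp => hp.1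
    have c2 : ContinuousOn (fun p : T × ((ℝ × P) × V) => p.2.1.1) (s ×ˢ univ) := by fun_prop
    have c3 : ContinuousOn (fun p : T × ((ℝ × P) × V) => (p.1, p.2.1.2)) (s ×ˢ univ) := by
      fun_prop
    rintro (_ | a)
    · exact c1.mul ((h.cf.comp c3 fun p hp => ⟨hp.1, mem_univ _⟩).sub c2)
    · exact c1.mul (c2.sub (h.cl.comp c3 fun p hp => ⟨hp.1, mem_univ _⟩))
  cn := by
    rintro (_ | a)
    · exact continuousOn_const
    · have c3 : ContinuousOn (fun p : T × ((ℝ × P) × V) => (p.1, p.2.1))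
        (s ×ˢ {x | ‖x.1‖ ≠ 0}) := by fun_prop
      exact (h.cn a).comp c3 fun p hp => ⟨hp.1, norm_ne_zero_iff.mp hp.2⟩
  hw := by
    rintro τ hτ (_ | a) k hk x
    · rfl
    · show (k • x).2 - c τ a (k • x).1 = k • (x.2 - c τ a x.1)
      rw [Prod.smul_fst, Prod.smul_snd, h.hc τ hτ a k hk, smul_sub]
  hr := by
    rintro τ hτ (_ | a) k hk x
    · exact h.hρ₀ τ hτ k hk x.1
    · exact h.hρ₁ τ hτ k hk x.1
  hs := by
    rintro τ hτ (_ | a) k hk x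
    · show M τ * (f τ (k • x).1.2 - (k • x).1.1) = k * (M τ * (f τ x.1.2 - x.1.1))
      rw [Prod.smul_fst, Prod.smul_fst, Prod.smul_snd, h.hf τ hτ k hk, smul_eq_mul]
      ring
    · show M τ * ((k • x).1.1 - l τ (k • x).1.2) = k * (M τ * (x.1.1 - l τ x.1.2))
      rw [Prod.smul_fst, Prod.smul_fst, Prod.smul_snd, h.hl τ hτ k hk, smul_eq_mul]
      ring
  hn := by
    rintro τ hτ (_ | a) k hk x
    · rfl
    · exact h.hn τ hτ a k hk x.1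
  nn := by
    rintro τ hτ (_ | a) x hx
    · exact h.he
    · exact h.nn τ hτ a _ (norm_ne_zero_iff.mp hx)
  neg := by
    intro τ hτ a x hx hN
    have h1 : x.1 = 0 := norm_eq_zero.mp hN
    have h2 : x.2 ≠ 0 := fun h2 => hx (Prod.ext h1 h2)
    have h3 : 0 < ‖x.2‖ := norm_pos_iff.mpr h2
    refine lt_of_le_of_lt (min_le_left _ _) ?_
    rcases a with _ | a
    · show ρ₀ τ x.1 - ‖x.2‖ < 0
      have h4 := h.hρ₀ τ hτ 0 le_rfl x.1
      rw [zero_smul, zero_mul] at h4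
      rw [h1, h4]
      linarith
    · show ρ₁ τ x.1 - ‖x.2 - c τ a x.1‖ < 0
      have h4 := h.hρ₁ τ hτ 0 le_rfl x.1
      have h5 := h.hc τ hτ a 0 le_rfl x.1
      rw [zero_smul, zero_mul] at h4
      rw [zero_smul, zero_smul] at h5
      rw [h1, h4, h5, sub_zero]
      linarith
  sep := by
    intro τ hτ x hN a a' h1 h2
    have hs : x.1 ≠ 0 := norm_ne_zero_iff.mp hN
    have hg : 0 < ‖x.1‖ := norm_pos_iff.mpr hs
    have hMp := h.M_pos hτ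
    have hA : -η * ‖x.1‖ < (splates e ρ₀ ρ₁ M f l c ν).rho τ none x →
        x.1.1 ≤ f τ x.1.2 + z * ‖x.1.2‖ := fun h3 =>
      (zone_est hMp (h.hMη τ hτ) (h.hMz τ hτ) h.hη h.hz.le (h.bf τ hτ x.1.2)).1
        (lt_of_lt_of_le h3 (min_le_right _ _))
    have hB : ∀ a, -η * ‖x.1‖ < (splates e ρ₀ ρ₁ M f l c ν).rho τ (some a) x →
        l τ x.1.2 - z * ‖x.1.2‖ ≤ x.1.1 := fun a h3 =>
      (zone_est hMp (h.hMη τ hτ) (h.hMz τ hτ) h.hη h.hz.le (h.bl τ hτ x.1.2)).2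
        (lt_of_lt_of_le h3 (min_le_right _ _))
    have hbe : ∀ a, -η * ‖x.1‖ < (splates e ρ₀ ρ₁ M f l c ν).rho τ none x →
        -η * ‖x.1‖ < (splates e ρ₀ ρ₁ M f l c ν).rho τ (some a) x →
        (splates e ρ₀ ρ₁ M f l c ν).be τ (some a) x = inner ℝ x.2 e := by
      intro a h3 h4
      show inner ℝ (x.2 - c τ a x.1) (ν τ a x.1) = _
      rw [h.nflat τ hτ a _ hs (hB a h4) (hA h3), inner_sub_left,
        h.flat τ hτ a _ hs (hB a h4) (hA h3), sub_zero]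
    rcases a with _ | a <;> rcases a' with _ | a'
    · rfl
    · rw [hbe a' h1 h2]; rfl
    · rw [hbe a h2 h1]; rfl
    · by_cases hne : a = a'
      · rw [hne]
      exfalso
      have h3 := h.dist τ hτ a a' hne _ hs (hB a h1)
      have h4 : -η * ‖x.1‖ < ρ₁ τ x.1 - ‖x.2 - c τ a x.1‖ := lt_of_lt_of_le h1 (min_le_left _ _)
      have h5 : -η * ‖x.1‖ < ρ₁ τ x.1 - ‖x.2 - c τ a' x.1‖ := lt_of_lt_of_le h2 (min_le_left _ _)
      have h6 := h.pos₁ τ hτ x.1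
      have h7 : c τ a x.1 - c τ a' x.1 = (x.2 - c τ a' x.1) - (x.2 - c τ a x.1) := by abel
      have h8 := norm_sub_le (x.2 - c τ a' x.1) (x.2 - c τ a x.1)
      rw [← h7] at h8
      linarith

theorem SFam.loc0 (h : SFam s e ρ₀ ρ₁ M f l c ν z L η) {τ₀ : T} (hτ₀ : τ₀ ∈ s)
    {x₀ : (ℝ × P) × V} (hN : ‖x₀.1‖ ≠ 0) (h0 : gre (splates e ρ₀ ρ₁ M f l c ν).rho τ₀ x₀ = 0) :
    ∃ (D : V →L[ℝ] (ℝ × P) × V) (u : (ℝ × P) × V) (L : ℝ),
      (splates e ρ₀ ρ₁ M f l c ν).Loc0 s τ₀ x₀ D u L := by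
  have hs : x₀.1 ≠ 0 := norm_ne_zero_iff.mp hN
  have hg : 0 < ‖x₀.1‖ := norm_pos_iff.mpr hs
  have hM0 : 0 < M τ₀ := h.M_pos hτ₀
  have hz := h.hz
  have hp := norm_nonneg x₀.1.2
  have hzp : 0 ≤ z * ‖x₀.1.2‖ := mul_nonneg hz.le hp
  have hlf := h.lf τ₀ hτ₀ x₀.1.2
  have hρ1 : 0 < ρ₁ τ₀ x₀.1 := lt_of_lt_of_le (mul_pos h.hη hg) (h.pos₁ τ₀ hτ₀ _)
  -- an active sheet
  have F0 : ∀ a, (splates e ρ₀ ρ₁ M f l c ν).rho τ₀ (some a) x₀ =
      gre (splates e ρ₀ ρ₁ M f l c ν).rho τ₀ x₀ → f τ₀ x₀.1.2 ≤ x₀.1.1 ∧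
        ‖x₀.2 - c τ₀ a x₀.1‖ ≤ ρ₁ τ₀ x₀.1 := by
    intro a ha
    rw [h0] at ha
    have h1 : 0 ≤ ρ₁ τ₀ x₀.1 - ‖x₀.2 - c τ₀ a x₀.1‖ := ha.ge.trans (min_le_left _ _)
    have h2 : 0 ≤ M τ₀ * (x₀.1.1 - l τ₀ x₀.1.2) := ha.ge.trans (min_le_right _ _)
    have h3 : 0 ≤ x₀.1.1 - l τ₀ x₀.1.2 := nonneg_of_mul_nonneg_right h2 hM0
    refine ⟨?_, by linarith⟩
    by_contra hcon
    have hcon : x₀.1.1 < f τ₀ x₀.1.2 := not_le.mp hcon
    have h4 := h.inn τ₀ hτ₀ a x₀.1 hs (by linarith) (by linarith)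
    have h5 : ‖x₀.2‖ ≤ ‖x₀.2 - c τ₀ a x₀.1‖ + ‖c τ₀ a x₀.1‖ := by
      have := norm_add_le (x₀.2 - c τ₀ a x₀.1) (c τ₀ a x₀.1)
      rwa [sub_add_cancel] at this
    have h6 : 0 < ρ₀ τ₀ x₀.1 - ‖x₀.2‖ := by linarith
    have h7 : 0 < M τ₀ * (f τ₀ x₀.1.2 - x₀.1.1) := mul_pos hM0 (by linarith)
    have h8 : (splates e ρ₀ ρ₁ M f l c ν).rho τ₀ none x₀ ≤ 0 := by
      have := gre_ge (rho := (splates e ρ₀ ρ₁ M f l c ν).rho) τ₀ none x₀
      rwa [h0] at this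
    exact absurd (lt_min h6 h7) (not_lt.mpr h8)
  have hpf : x₀.1.1 = f τ₀ x₀.1.2 → 0 < ‖x₀.1.2‖ := by
    intro h1
    rcases hp.eq_or_lt with h2 | h2
    · exfalso
      have h3 := h.bf τ₀ hτ₀ x₀.1.2
      rw [← h2, mul_zero] at h3
      have h4 : x₀.1.1 = 0 := by rw [h1]; exact abs_nonpos_iff.mp h3
      rw [norm_base, h4, abs_zero, ← h2, max_self] at hg
      exact lt_irrefl _ hg
    · exact h2
  have F1 : ∀ a, (splates e ρ₀ ρ₁ M f l c ν).rho τ₀ (some a) x₀ =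
      gre (splates e ρ₀ ρ₁ M f l c ν).rho τ₀ x₀ →
        0 < (splates e ρ₀ ρ₁ M f l c ν).σ τ₀ (some a) x₀ ∧
        (splates e ρ₀ ρ₁ M f l c ν).tp τ₀ (some a) x₀ = 0 := by
    intro a ha
    obtain ⟨h1, h2⟩ := F0 a ha
    have h9 : 0 < M τ₀ * (x₀.1.1 - l τ₀ x₀.1.2) := by
      refine mul_pos hM0 ?_
      rcases hp.eq_or_lt with h3 | h3
      · have h4 := h.bf τ₀ hτ₀ x₀.1.2
        have h5 := h.bl τ₀ hτ₀ x₀.1.2
        rw [← h3, mul_zero] at h4 h5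
        rw [abs_nonpos_iff.mp h4] at h1
        rw [abs_nonpos_iff.mp h5, sub_zero]
        refine lt_of_le_of_ne h1 fun h6 => ?_
        rw [norm_base, ← h6, abs_zero, ← h3, max_self] at hg
        exact lt_irrefl _ hg
      · have := mul_pos hz h3
        linarith
    refine ⟨h9, ?_⟩
    rw [h0] at ha
    rcases min_choice (ρ₁ τ₀ x₀.1 - ‖x₀.2 - c τ₀ a x₀.1‖)
      (M τ₀ * (x₀.1.1 - l τ₀ x₀.1.2)) with h10 | h10
    · exact h10.symm.trans ha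
    · have h11 : M τ₀ * (x₀.1.1 - l τ₀ x₀.1.2) = 0 := h10.symm.trans ha
      linarith
  have F2 : (splates e ρ₀ ρ₁ M f l c ν).rho τ₀ none x₀ =
      gre (splates e ρ₀ ρ₁ M f l c ν).rho τ₀ x₀ → x₀.1.1 ≤ f τ₀ x₀.1.2 := by
    intro ha
    rw [h0] at ha
    have h2 : 0 ≤ M τ₀ * (f τ₀ x₀.1.2 - x₀.1.1) := ha.ge.trans (min_le_right _ _)
    have := nonneg_of_mul_nonneg_right h2 hM0
    linarith
  have F2' : (splates e ρ₀ ρ₁ M f l c ν).rho τ₀ none x₀ =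
      gre (splates e ρ₀ ρ₁ M f l c ν).rho τ₀ x₀ → ∀ a,
      (splates e ρ₀ ρ₁ M f l c ν).rho τ₀ (some a) x₀ =
        gre (splates e ρ₀ ρ₁ M f l c ν).rho τ₀ x₀ →
      (splates e ρ₀ ρ₁ M f l c ν).ν τ₀ (some a) x₀ = e ∧
        0 < (splates e ρ₀ ρ₁ M f l c ν).tp τ₀ none x₀ := by
    intro ha a ha'
    obtain ⟨h1, h2⟩ := F0 a ha'
    have h3 := F2 ha
    have h4 : l τ₀ x₀.1.2 - z * ‖x₀.1.2‖ ≤ x₀.1.1 := by linarith
    have h5 : x₀.1.1 ≤ f τ₀ x₀.1.2 + z * ‖x₀.1.2‖ := by linarith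
    refine ⟨h.nflat τ₀ hτ₀ a _ hs h4 h5, ?_⟩
    have h6 := h.inn τ₀ hτ₀ a x₀.1 hs h4 h5
    have h7 : ‖x₀.2‖ ≤ ‖x₀.2 - c τ₀ a x₀.1‖ + ‖c τ₀ a x₀.1‖ := by
      have := norm_add_le (x₀.2 - c τ₀ a x₀.1) (c τ₀ a x₀.1)
      rwa [sub_add_cancel] at this
    show 0 < ρ₀ τ₀ x₀.1 - ‖x₀.2‖
    linarith
  have F3 : ∀ a a', (splates e ρ₀ ρ₁ M f l c ν).rho τ₀ (some a) x₀ =
      gre (splates e ρ₀ ρ₁ M f l c ν).rho τ₀ x₀ →
      (splates e ρ₀ ρ₁ M f l c ν).rho τ₀ (some a') x₀ =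
      gre (splates e ρ₀ ρ₁ M f l c ν).rho τ₀ x₀ → a = a' := by
    intro a a' ha ha'
    by_contra hne
    obtain ⟨h1, h2⟩ := F0 a ha
    obtain ⟨h1', h2'⟩ := F0 a' ha'
    have h3 := h.dist τ₀ hτ₀ a a' hne _ hs (by linarith)
    have h7 : c τ₀ a x₀.1 - c τ₀ a' x₀.1 = (x₀.2 - c τ₀ a' x₀.1) - (x₀.2 - c τ₀ a x₀.1) := by abel
    have h8 := norm_sub_le (x₀.2 - c τ₀ a' x₀.1) (x₀.2 - c τ₀ a x₀.1)
    rw [← h7] at h8
    linarith
  have hν : ∀ a a', (splates e ρ₀ ρ₁ M f l c ν).rho τ₀ a x₀ =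
      gre (splates e ρ₀ ρ₁ M f l c ν).rho τ₀ x₀ → (splates e ρ₀ ρ₁ M f l c ν).rho τ₀ a' x₀ =
      gre (splates e ρ₀ ρ₁ M f l c ν).rho τ₀ x₀ →
      (splates e ρ₀ ρ₁ M f l c ν).ν τ₀ a x₀ = (splates e ρ₀ ρ₁ M f l c ν).ν τ₀ a' x₀ := by
    rintro (_ | a) (_ | a') ha ha'
    · rfl
    · exact (F2' ha a' ha').1.symm
    · exact (F2' ha' a ha).1
    · rw [F3 a a' ha ha']
  have hrim : gre (splates e ρ₀ ρ₁ M f l c ν).rho τ₀ x₀ = 0 → ∀ a a',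
      (splates e ρ₀ ρ₁ M f l c ν).rho τ₀ a x₀ = 0 →
      (splates e ρ₀ ρ₁ M f l c ν).rho τ₀ a' x₀ = 0 →
      (splates e ρ₀ ρ₁ M f l c ν).tp τ₀ a x₀ = 0 →
      (splates e ρ₀ ρ₁ M f l c ν).tp τ₀ a' x₀ = 0 →
      ‖(splates e ρ₀ ρ₁ M f l c ν).w τ₀ a' x₀‖ • (splates e ρ₀ ρ₁ M f l c ν).w τ₀ a x₀ =
        ‖(splates e ρ₀ ρ₁ M f l c ν).w τ₀ a x₀‖ • (splates e ρ₀ ρ₁ M f l c ν).w τ₀ a' x₀ := by
    rintro _ (_ | a) (_ | a') ha ha' ht ht'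
    · rfl
    · have := (F2' (ha.trans h0.symm) a' (ha'.trans h0.symm)).2
      rw [ht] at this
      exact absurd this (lt_irrefl _)
    · have := (F2' (ha'.trans h0.symm) a (ha.trans h0.symm)).2
      rw [ht'] at this
      exact absurd this (lt_irrefl _)
    · rw [F3 a a' (ha.trans h0.symm) (ha'.trans h0.symm)]
  have hrpos : ∀ a, (splates e ρ₀ ρ₁ M f l c ν).rho τ₀ a x₀ =
      gre (splates e ρ₀ ρ₁ M f l c ν).rho τ₀ x₀ →
      0 < (splates e ρ₀ ρ₁ M f l c ν).r τ₀ a x₀ := by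
    rintro (_ | a) _
    · exact h.pos₀ τ₀ hτ₀ _ hs
    · exact hρ1
  by_cases hfr : x₀.1.1 = f τ₀ x₀.1.2
  · -- the front of the slab
    have hp0 := hpf hfr
    have hL := h.hL
    set lam : ℝ := 1 / (8 * L) with hlam
    have hlam0 : 0 < lam := by positivity
    have hlamL : L * lam = 1 / 8 := by rw [hlam]; field_simp
    refine ⟨ContinuousLinearMap.inr ℝ (ℝ × P) V, ((-lam, 0), 0), lam * (M τ₀ + 1),
      hν, hrim, hrpos, fun κ hκ => ?_⟩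
    have hU : ∀ᶠ q : T × ((ℝ × P) × V) in 𝓝[s ×ˢ univ] (τ₀, x₀),
        |q.2.1.1 - f q.1 q.2.1.2| < z * ‖q.2.1.2‖ := by
      have c3 : ContinuousOn (fun p : T × ((ℝ × P) × V) => (p.1, p.2.1.2)) (s ×ˢ univ) := by
        fun_prop
      have c4 : ContinuousOn (fun q : T × ((ℝ × P) × V) => |q.2.1.1 - f q.1 q.2.1.2|)
          (s ×ˢ univ) := by
        have c2 : ContinuousOn (fun p : T × ((ℝ × P) × V) => p.2.1.1) (s ×ˢ univ) := by fun_prop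
        exact (c2.sub (h.cf.comp c3 fun p hp => ⟨hp.1, mem_univ _⟩)).abs
      have c5 : ContinuousOn (fun q : T × ((ℝ × P) × V) => z * ‖q.2.1.2‖) (s ×ˢ univ) := by
        fun_prop
      refine Tendsto.eventually_lt (c4 (τ₀, x₀) ⟨hτ₀, mem_univ _⟩)
        (c5 (τ₀, x₀) ⟨hτ₀, mem_univ _⟩) ?_
      show |x₀.1.1 - f τ₀ x₀.1.2| < z * ‖x₀.1.2‖
      rw [hfr, sub_self, abs_zero]
      exact mul_pos hz hp0
    obtain ⟨U, hU1, hU2⟩ := ev_prod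
      (Q := fun (τ : T) (x : (ℝ × P) × V) => |x.1.1 - f τ x.1.2| < z * ‖x.1.2‖) hU
    have eM' : ∀ᶠ τ in 𝓝[s] τ₀, M τ < M τ₀ + 1 :=
      (h.cM τ₀ hτ₀).eventually (gt_mem_nhds (by linarith))
    refine ⟨U ∩ {y | y.1 ≠ 0}, inter_mem hU1 ((isOpen_ne.preimage continuous_fst).mem_nhds hs), ?_⟩
    filter_upwards [hU2, eM', self_mem_nhdsWithin] with τ e2 e3 hτ y hy v l' hy' a ha
    have hMτ : 0 < M τ := h.M_pos hτ
    have hy1 : y + (ContinuousLinearMap.inr ℝ (ℝ × P) V v + l' • ((-lam, (0 : P)), (0 : V))) =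
        ((y.1.1 - l' * lam, y.1.2), y.2 + v) := by
      refine Prod.ext (Prod.ext ?_ ?_) ?_
      · simp; ring
      · simp
      · simp
    rw [hy1] at hy' ⊢
    have g1 : |y.1.1 - f τ y.1.2| < z * ‖y.1.2‖ := e2 y hy.1
    have g2 : |y.1.1 - l' * lam - f τ y.1.2| < z * ‖y.1.2‖ := e2 _ hy'.1
    have hn1 : y.1 ≠ 0 := hy.2
    have hn2 : (y.1.1 - l' * lam, y.1.2) ≠ 0 := hy'.2
    have hlfy := h.lf τ hτ y.1.2
    have b1 := abs_lt.mp g1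
    have b2 := abs_lt.mp g2
    have hdu : |y.1.1 - l' * lam - y.1.1| = lam * |l'| := by
      have : y.1.1 - l' * lam - y.1.1 = -(lam * l') := by ring
      rw [this, abs_neg, abs_mul, abs_of_pos hlam0]
    have hκv : 0 ≤ κ * ‖v‖ := by positivity
    have hl := abs_nonneg l'
    have hLl : L * (lam * |l'|) = |l'| / 8 := by
      rw [← mul_assoc, hlamL]; ring
    have hMl : M τ * lam ≤ lam * (M τ₀ + 1) := by
      rw [mul_comm]
      exact mul_le_mul_of_nonneg_left e3.le hlam0.le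
    have hMl' : 1 ≤ M τ * lam := by
      have h2 : 8 * L * lam ≤ M τ * lam := mul_le_mul_of_nonneg_right (h.hM τ hτ) hlam0.le
      linarith
    rcases a with _ | a
    · refine ⟨?_, ?_, ?_, ?_, ?_⟩
      · show ‖y.2 + v - y.2 - v‖ ≤ _
        have : y.2 + v - y.2 - v = 0 := by abel
        rw [this, norm_zero]
        positivity
      · show |ρ₀ τ (y.1.1 - l' * lam, y.1.2) - ρ₀ τ y.1| ≤ _
        have := h.lip₀ τ hτ y.1.2 y.1.1 (y.1.1 - l' * lam) g1.le g2.le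
        rw [hdu, hLl] at this
        have e4 : (y.1.1, y.1.2) = y.1 := rfl
        rw [e4] at this
        linarith
      · show _ * ‖e - e‖ ≤ _
        rw [sub_self, norm_zero, mul_zero]
        positivity
      · show |M τ * (f τ y.1.2 - (y.1.1 - l' * lam)) - M τ * (f τ y.1.2 - y.1.1)| ≤ _
        have : M τ * (f τ y.1.2 - (y.1.1 - l' * lam)) - M τ * (f τ y.1.2 - y.1.1) =
          M τ * lam * l' := by ring
        rw [this, abs_mul, abs_of_pos (mul_pos hMτ hlam0)]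
        have := mul_le_mul_of_nonneg_right hMl hl
        linarith
      · intro _
        show l' ^ 2 ≤ l' * (M τ * (f τ y.1.2 - (y.1.1 - l' * lam)) -
          M τ * (f τ y.1.2 - y.1.1)) + _
        have : l' * (M τ * (f τ y.1.2 - (y.1.1 - l' * lam)) - M τ * (f τ y.1.2 - y.1.1)) =
          M τ * lam * l' ^ 2 := by ring
        rw [this]
        have h3 : 1 * l' ^ 2 ≤ M τ * lam * l' ^ 2 := mul_le_mul_of_nonneg_right hMl' (sq_nonneg _)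
        have h4 : 0 ≤ κ * ‖v‖ * |l'| := by positivity
        linarith
    · refine ⟨?_, ?_, ?_, ?_, ?_⟩
      · show ‖y.2 + v - c τ a (y.1.1 - l' * lam, y.1.2) - (y.2 - c τ a y.1) - v‖ ≤ _
        have e4 : y.2 + v - c τ a (y.1.1 - l' * lam, y.1.2) - (y.2 - c τ a y.1) - v =
            -(c τ a (y.1.1 - l' * lam, y.1.2) - c τ a (y.1.1, y.1.2)) := by
          have e5 : (y.1.1, y.1.2) = y.1 := rfl
          rw [e5]; abel
        rw [e4, norm_neg]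
        have := h.lipc τ hτ a y.1.2 y.1.1 (y.1.1 - l' * lam) g1.le g2.le
        rw [hdu, hLl] at this
        linarith
      · show |ρ₁ τ (y.1.1 - l' * lam, y.1.2) - ρ₁ τ y.1| ≤ _
        have := h.lip₁ τ hτ y.1.2 y.1.1 (y.1.1 - l' * lam) g1.le g2.le
        rw [hdu, hLl] at this
        have e4 : (y.1.1, y.1.2) = y.1 := rfl
        rw [e4] at this
        linarith
      · show _ * ‖ν τ a (y.1.1 - l' * lam, y.1.2) - ν τ a y.1‖ ≤ _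
        rw [h.nflat τ hτ a (y.1.1 - l' * lam, y.1.2) hn2
            (by show l τ y.1.2 - z * ‖y.1.2‖ ≤ y.1.1 - l' * lam; linarith [b2.1])
            (by show y.1.1 - l' * lam ≤ f τ y.1.2 + z * ‖y.1.2‖; linarith [b2.2]),
          h.nflat τ hτ a y.1 hn1 (by linarith [b1.1]) (by linarith [b1.2]), sub_self, norm_zero,
          mul_zero]
        positivity
      · show |M τ * (y.1.1 - l' * lam - l τ y.1.2) - M τ * (y.1.1 - l τ y.1.2)| ≤ _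
        have : M τ * (y.1.1 - l' * lam - l τ y.1.2) - M τ * (y.1.1 - l τ y.1.2) =
          -(M τ * lam * l') := by ring
        rw [this, abs_neg, abs_mul, abs_of_pos (mul_pos hMτ hlam0)]
        have := mul_le_mul_of_nonneg_right hMl hl
        linarith
      · intro h1
        have := (F1 a ha).1
        rw [h1] at this
        exact absurd this (lt_irrefl _)
  · -- away from the front: fibre directions
    refine ⟨ContinuousLinearMap.inr ℝ (ℝ × P) V, 0, 0, hν, hrim, hrpos, fun κ hκ => ?_⟩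
    refine ⟨univ, univ_mem, Eventually.of_forall fun τ y _ v l' _ a ha => ?_⟩
    have hy1 : y + (ContinuousLinearMap.inr ℝ (ℝ × P) V v + l' • (0 : (ℝ × P) × V)) =
        (y.1, y.2 + v) := by
      refine Prod.ext ?_ ?_
      · simp
      · simp
    rw [hy1]
    have hκv : 0 ≤ κ * ‖v‖ := by positivity
    have hl := abs_nonneg l'
    rcases a with _ | a
    · refine ⟨?_, ?_, ?_, ?_, ?_⟩
      · show ‖y.2 + v - y.2 - v‖ ≤ _
        have : y.2 + v - y.2 - v = 0 := by abel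
        rw [this, norm_zero]
        positivity
      · show |ρ₀ τ y.1 - ρ₀ τ y.1| ≤ _
        rw [sub_self, abs_zero]
        positivity
      · show _ * ‖e - e‖ ≤ _
        rw [sub_self, norm_zero, mul_zero]
        positivity
      · show |M τ * (f τ y.1.2 - y.1.1) - M τ * (f τ y.1.2 - y.1.1)| ≤ _
        rw [sub_self, abs_zero]
        positivity
      · intro h1
        exfalso
        have h2 : M τ₀ * (f τ₀ x₀.1.2 - x₀.1.1) = 0 := h1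
        rcases mul_eq_zero.mp h2 with h3 | h3
        · exact hM0.ne' h3
        · exact hfr (by linarith)
    · refine ⟨?_, ?_, ?_, ?_, ?_⟩
      · show ‖y.2 + v - c τ a y.1 - (y.2 - c τ a y.1) - v‖ ≤ _
        have : y.2 + v - c τ a y.1 - (y.2 - c τ a y.1) - v = 0 := by
          abel
        rw [this, norm_zero]
        positivity
      · show |ρ₁ τ y.1 - ρ₁ τ y.1| ≤ _
        rw [sub_self, abs_zero]
        positivity
      · show _ * ‖ν τ a y.1 - ν τ a y.1‖ ≤ _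
        rw [sub_self, norm_zero, mul_zero]
        positivity
      · show |M τ * (y.1.1 - l τ y.1.2) - M τ * (y.1.1 - l τ y.1.2)| ≤ _
        rw [sub_self, abs_zero]
        positivity
      · intro h1
        have := (F1 a ha).1
        rw [h1] at this
        exact absurd this (lt_irrefl _)

/-- **The family is in the class `R`.** -/
theorem SFam.rfam (h : SFam s e ρ₀ ρ₁ M f l c ν z L η) :
    RFam s ((splates e ρ₀ ρ₁ M f l c ν).fn η (fun x => ‖x.1‖)) :=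
  h.base.rfam fun _ hτ₀ _ _ hN _ h0 => h.loc0 hτ₀ hN h0

end Fam

/-! ### The zero set -/

/-- The zero set of the plates; it does not depend on `M` and `η`. -/
def SZero (e : V) (ρ₀ ρ₁ : ℝ × P → ℝ) (f l : P → ℝ) (c ν : A → ℝ × P → V)
    (x : (ℝ × P) × V) : Prop :=
  (¬(‖x.2‖ < ρ₀ x.1 ∧ x.1.1 < f x.1.2)) ∧ (∀ a, ¬(‖x.2 - c a x.1‖ < ρ₁ x.1 ∧ l x.1.2 < x.1.1)) ∧
    ((‖x.2‖ ≤ ρ₀ x.1 ∧ x.1.1 ≤ f x.1.2 ∧ inner ℝ x.2 e = 0) ∨
      ∃ a, ‖x.2 - c a x.1‖ ≤ ρ₁ x.1 ∧ l x.1.2 ≤ x.1.1 ∧ inner ℝ (x.2 - c a x.1) (ν a x.1) = 0)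

section Zero

variable [Fintype A] {s : Set T} {e : V} {ρ₀ ρ₁ : T → ℝ × P → ℝ} {M : T → ℝ} {f l : T → P → ℝ}
  {c ν : T → A → ℝ × P → V} {z L η : ℝ}

theorem SFam.zero_iff (h : SFam s e ρ₀ ρ₁ M f l c ν z L η) {τ : T} (hτ : τ ∈ s)
    (x : (ℝ × P) × V) : (splates e ρ₀ ρ₁ M f l c ν).fn η (fun x => ‖x.1‖) τ x = 0 ↔
      SZero e (ρ₀ τ) (ρ₁ τ) (f τ) (l τ) (c τ) (ν τ) x := by
  have hM0 := h.M_pos hτ
  have hmin : ∀ {r t : ℝ}, 0 ≤ min r (M τ * t) ↔ 0 ≤ r ∧ 0 ≤ t := by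
    intro r t
    rw [le_min_iff]
    constructor
    · rintro ⟨h1, h2⟩; exact ⟨h1, nonneg_of_mul_nonneg_right h2 hM0⟩
    · rintro ⟨h1, h2⟩; exact ⟨h1, mul_nonneg hM0.le h2⟩
  have hmin' : ∀ {r t : ℝ}, min r (M τ * t) ≤ 0 ↔ ¬(0 < r ∧ 0 < t) := by
    intro r t
    rw [← not_lt, lt_min_iff]
    constructor
    · rintro h1 ⟨h2, h3⟩; exact h1 ⟨h2, mul_pos hM0 h3⟩
    · rintro h1 ⟨h2, h3⟩; exact h1 ⟨h2, pos_of_mul_pos_right h3 hM0.le⟩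
  by_cases hx : x = 0
  · have h1 : (splates e ρ₀ ρ₁ M f l c ν).fn η (fun x => ‖x.1‖) τ x = 0 := by
      rw [hx]; exact (h.base.glue.hom1 hτ).zero
    refine iff_of_true h1 ?_
    subst hx
    have e0 : ρ₀ τ 0 = 0 := by
      have := h.hρ₀ τ hτ 0 le_rfl 0
      rwa [zero_smul, zero_mul] at this
    have e1 : ρ₁ τ 0 = 0 := by
      have := h.hρ₁ τ hτ 0 le_rfl 0
      rwa [zero_smul, zero_mul] at this
    have ef : f τ 0 = 0 := by
      have := h.hf τ hτ 0 le_rfl 0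
      rwa [zero_smul, zero_mul] at this
    refine ⟨fun h2 => ?_, fun a h2 => ?_, Or.inl ⟨?_, ?_, ?_⟩⟩
    · have := h2.1
      rw [Prod.fst_zero, e0] at this
      exact absurd this (not_lt.mpr (norm_nonneg _))
    · have := h2.1
      rw [Prod.fst_zero, e1] at this
      exact absurd this (not_lt.mpr (norm_nonneg _))
    · rw [Prod.fst_zero, e0, Prod.snd_zero, norm_zero]
    · rw [Prod.fst_zero, Prod.snd_zero, ef]; exact le_rfl
    · rw [Prod.snd_zero, inner_zero_left]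
  · rw [show (splates e ρ₀ ρ₁ M f l c ν).fn η (fun x => ‖x.1‖) τ x =
      gfn η (fun x => ‖x.1‖) (splates e ρ₀ ρ₁ M f l c ν).rho (splates e ρ₀ ρ₁ M f l c ν).be τ x
      from rfl, gfn_eq_zero_iff h.base.glue hτ hx]
    have r0 : (splates e ρ₀ ρ₁ M f l c ν).rho τ none x =
      min (ρ₀ τ x.1 - ‖x.2‖) (M τ * (f τ x.1.2 - x.1.1)) := rfl
    have r1 : ∀ a, (splates e ρ₀ ρ₁ M f l c ν).rho τ (some a) x =
      min (ρ₁ τ x.1 - ‖x.2 - c τ a x.1‖) (M τ * (x.1.1 - l τ x.1.2)) := fun a => rfl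
    constructor
    · rintro ⟨h1, a, ha, hb⟩
      have hle : ∀ a, (splates e ρ₀ ρ₁ M f l c ν).rho τ a x ≤ 0 := fun a => by
        rw [← h1]; exact gre_ge τ a x
      refine ⟨?_, ?_, ?_⟩
      · have := hle none
        rw [r0, hmin'] at this
        rintro ⟨h2, h3⟩
        exact this ⟨by linarith, by linarith⟩
      · intro a
        have := hle (some a)
        rw [r1, hmin'] at this
        rintro ⟨h2, h3⟩
        exact this ⟨by linarith, by linarith⟩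
      · rcases a with _ | a
        · left
          have h2 := ha.ge
          rw [r0] at h2
          obtain ⟨h3, h4⟩ := hmin.mp h2
          exact ⟨by linarith, by linarith, hb⟩
        · right
          have h2 := ha.ge
          rw [r1] at h2
          obtain ⟨h3, h4⟩ := hmin.mp h2
          exact ⟨a, by linarith, by linarith, hb⟩
    · rintro ⟨h1, h2, h3⟩
      have hle : ∀ a, (splates e ρ₀ ρ₁ M f l c ν).rho τ a x ≤ 0 := by
        rintro (_ | a)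
        · rw [r0, hmin']
          rintro ⟨h4, h5⟩
          exact h1 ⟨by linarith, by linarith⟩
        · rw [r1, hmin']
          rintro ⟨h4, h5⟩
          exact h2 a ⟨by linarith, by linarith⟩
      have key : ∀ a, 0 ≤ (splates e ρ₀ ρ₁ M f l c ν).rho τ a x →
          (splates e ρ₀ ρ₁ M f l c ν).be τ a x = 0 →
          gre (splates e ρ₀ ρ₁ M f l c ν).rho τ x = 0 ∧
          ∃ a, (splates e ρ₀ ρ₁ M f l c ν).rho τ a x = 0 ∧
            (splates e ρ₀ ρ₁ M f l c ν).be τ a x = 0 := by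
        intro a h4 h5
        have h6 : (splates e ρ₀ ρ₁ M f l c ν).rho τ a x = 0 := le_antisymm (hle a) h4
        refine ⟨le_antisymm ?_ (h6.symm.le.trans (gre_ge τ a x)), a, h6, h5⟩
        obtain ⟨a', ha'⟩ := exists_gre (splates e ρ₀ ρ₁ M f l c ν).rho τ x
        rw [ha']
        exact hle a'
      rcases h3 with ⟨h4, h5, h6⟩ | ⟨a, h4, h5, h6⟩
      · exact key none (by rw [r0, hmin]; exact ⟨by linarith, by linarith⟩) h6
      · exact key (some a) (by rw [r1, hmin]; exact ⟨by linarith, by linarith⟩) h6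

end Zero

end Vale.Agent.P268.T
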