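import Vale.Agent.P268.T.B4.Shape
import Vale.Agent.P268.T.B4.Sec921

/-!
# P268, topological half, block B4d: the shape path

`KStart`: the end form of block B3 in the chart (rotated sheets over the half space base, slab over
`u₀ < -κ₀ z(p)`).  `KStart.shape`: its zero set is equivalent to the one of `KA`.
-/

set_option linter.unusedSectionVars false

namespace Vale.Agent.P268.T

open Set Filter Topology Metric
open Vale.Agent.P268.T.B4 (sec continuous_sec sec_ne)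

section Ind

variable {E E' : Type*} [TopologicalSpace E] [Zero E] [TopologicalSpace E'] [Zero E']

open Classical in
/-- A function with a given zero set. -/
noncomputable def shInd {E : Type*} (Z : E → Prop) (x : E) : ℂ := if Z x then 0 else 1

theorem shInd_eq_zero {E : Type*} {Z : E → Prop} {x : E} : shInd Z x = 0 ↔ Z x := by
  unfold shInd
  split_ifs with h
  · exact ⟨fun _ => h, fun _ => rfl⟩
  · exact ⟨fun h1 => absurd h1 one_ne_zero, fun h1 => absurd h1 h⟩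

end Ind

section Compact

variable {T S : Type*} [TopologicalSpace T] [NormedAddCommGroup S] [NormedSpace ℝ S]
  [ProperSpace S]

theorem sh_exists_lower {K : Set T} (hK : IsCompact K) {φ : T → S → ℝ}
    (hc : ContinuousOn (fun q : T × S => φ q.1 q.2) (K ×ˢ univ))
    (hh : ∀ t ∈ K, ∀ r : ℝ, 0 ≤ r → ∀ x, φ t (r • x) = r * φ t x)
    (hp : ∀ t ∈ K, ∀ x ≠ 0, 0 < φ t x) : ∃ δ > 0, ∀ t ∈ K, ∀ x, δ * ‖x‖ ≤ φ t x := by
  obtain ⟨δ, h1, h2⟩ := (hK.prod (isCompact_sphere (0 : S) 1)).exists_forall_le'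
    (hc.mono (prod_mono Subset.rfl (subset_univ _))) (a := 0)
    (fun q hq => hp q.1 hq.1 q.2 (by
      rintro h
      have := hq.2
      rw [mem_sphere_zero_iff_norm, h, norm_zero] at this
      exact zero_ne_one this))
  refine ⟨δ, h1, fun t ht x => ?_⟩
  by_cases hx : x = 0
  · have := hh t ht 0 le_rfl x
    rw [zero_smul, zero_mul] at this
    rw [hx, norm_zero, mul_zero, this]
  · have hn : 0 < ‖x‖ := norm_pos_iff.mpr hx
    have h3 : δ ≤ φ t (‖x‖⁻¹ • x) := h2 (t, ‖x‖⁻¹ • x) ⟨ht, by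
      rw [mem_sphere_zero_iff_norm, norm_smul, norm_inv, norm_norm, inv_mul_cancel₀ hn.ne']⟩
    have h4 := hh t ht ‖x‖ hn.le (‖x‖⁻¹ • x)
    rw [smul_smul, mul_inv_cancel₀ hn.ne', one_smul] at h4
    rw [h4, mul_comm]
    exact mul_le_mul_of_nonneg_left h3 hn.le

theorem sh_exists_upper {K : Set T} (hK : IsCompact K) {φ : T → S → ℝ}
    (hc : ContinuousOn (fun q : T × S => φ q.1 q.2) (K ×ˢ univ))
    (hh : ∀ t ∈ K, ∀ r : ℝ, 0 ≤ r → ∀ x, φ t (r • x) = r * φ t x) :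
    ∃ B > 0, ∀ t ∈ K, ∀ x, φ t x ≤ B * ‖x‖ := by
  obtain ⟨C, h2⟩ := (hK.prod (isCompact_sphere (0 : S) 1)).exists_bound_of_continuousOn
    (hc.mono (prod_mono Subset.rfl (subset_univ _)))
  refine ⟨max C 1, lt_max_of_lt_right one_pos, fun t ht x => ?_⟩
  by_cases hx : x = 0
  · have := hh t ht 0 le_rfl x
    rw [zero_smul, zero_mul] at this
    rw [hx, norm_zero, mul_zero, this]
  · have hn : 0 < ‖x‖ := norm_pos_iff.mpr hx
    have h3 : |φ t (‖x‖⁻¹ • x)| ≤ C := h2 (t, ‖x‖⁻¹ • x) ⟨ht, by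
      rw [mem_sphere_zero_iff_norm, norm_smul, norm_inv, norm_norm, inv_mul_cancel₀ hn.ne']⟩
    have h4 := hh t ht ‖x‖ hn.le (‖x‖⁻¹ • x)
    rw [smul_smul, mul_inv_cancel₀ hn.ne', one_smul] at h4
    rw [h4, mul_comm]
    exact mul_le_mul_of_nonneg_right (((le_abs_self _).trans h3).trans (le_max_left _ _)) hn.le

theorem sh_exists_pos_le {ι : Type*} [Finite ι] (δ : ι → ℝ) (h : ∀ i, 0 < δ i) :
    ∃ d > 0, ∀ i, d ≤ δ i := by
  have := Fintype.ofFinite ι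
  have : ∀ S : Finset ι, ∃ d : ℝ, 0 < d ∧ ∀ i ∈ S, d ≤ δ i := by
    intro S
    classical
    induction S using Finset.induction_on with
    | empty => exact ⟨1, one_pos, by simp⟩
    | insert i S _ ih =>
      obtain ⟨d, h3, h4⟩ := ih
      refine ⟨min d (δ i), lt_min h3 (h i), fun j hj => ?_⟩
      rcases Finset.mem_insert.mp hj with rfl | hj
      · exact min_le_right _ _
      · exact (min_le_left _ _).trans (h4 j hj)
  obtain ⟨d, h3, h4⟩ := this Finset.univ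
  exact ⟨d, h3, fun i => h4 i (Finset.mem_univ i)⟩

theorem sh_exists_pos_ge {ι : Type*} [Finite ι] (B : ι → ℝ) :
    ∃ C > 0, ∀ i, B i ≤ C := by
  have := Fintype.ofFinite ι
  refine ⟨∑ i, |B i| + 1, by
    have : 0 ≤ ∑ i, |B i| := Finset.sum_nonneg fun i _ => abs_nonneg _
    linarith, fun i => ?_⟩
  have : |B i| ≤ ∑ i, |B i| :=
    Finset.single_le_sum (f := fun i => |B i|) (fun a _ => abs_nonneg _) (Finset.mem_univ i)
  linarith [le_abs_self (B i)]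

end Compact

variable {P V A : Type} [NormedAddCommGroup P] [NormedSpace ℝ P]
  [NormedAddCommGroup V] [InnerProductSpace ℝ V]

/-! ### The section as a map of the base -/

/-- `s ↦ ‖s‖ sec (kap s)`. -/
noncomputable def shLam (s : ℝ × P) : ℝ × P := ‖s‖ • sec (kap s)

theorem norm_sec_le {x : P} (hx : ‖x‖ ≤ 1) : ‖sec x‖ ≤ 1 := by
  rw [norm_base]
  show max |1 - ‖x‖| ‖x‖ ≤ 1
  refine max_le ?_ hx
  rw [abs_of_nonneg (by linarith)]
  linarith [norm_nonneg x]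

theorem norm_shLam_le (s : ℝ × P) : ‖shLam s‖ ≤ ‖s‖ := by
  unfold shLam
  rw [norm_smul, norm_norm]
  exact mul_le_of_le_one_right (norm_nonneg _) (norm_sec_le (norm_kap_le s))

theorem shLam_fst (s : ℝ × P) : (shLam s).1 = ‖s‖ * (1 - ‖kap s‖) := rfl

theorem shLam_snd (s : ℝ × P) : (shLam s).2 = ‖s‖ • kap s := rfl

theorem continuous_shLam : Continuous (shLam : ℝ × P → ℝ × P) := by
  rw [continuous_iff_continuousAt]
  intro s
  by_cases hs : s = 0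
  · subst hs
    have h0 : shLam (0 : ℝ × P) = 0 := by unfold shLam; rw [norm_zero, zero_smul]
    show Tendsto shLam (𝓝 0) (𝓝 (shLam 0))
    rw [h0]
    refine squeeze_zero_norm (fun s => norm_shLam_le s) ?_
    have := (continuous_norm (E := ℝ × P)).tendsto 0
    rwa [norm_zero] at this
  · exact continuous_norm.continuousAt.smul
      (ContinuousAt.comp (g := (sec : P → ℝ × P)) continuous_sec.continuousAt
        (continuousAt_kap hs))

theorem shLam_smul {k : ℝ} (hk : 0 ≤ k) (s : ℝ × P) : shLam (k • s) = k • shLam s := by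
  unfold shLam
  rcases hk.eq_or_lt with rfl | hk'
  · simp
  · rw [kap_smul hk', norm_smul, Real.norm_eq_abs, abs_of_nonneg hk, smul_smul]

theorem shLam_fst_nonneg (s : ℝ × P) : 0 ≤ (shLam s).1 := by
  rw [shLam_fst]
  exact mul_nonneg (norm_nonneg _) (by linarith [norm_kap_le s])

theorem shLam_fst_zero {s : ℝ × P} (h : |s.1| ≤ 2 * ‖s.2‖) (hp : s.2 ≠ 0) : (shLam s).1 = 0 := by
  rw [shLam_fst, norm_kap_of_le h hp, sub_self, mul_zero]

/-- The second component of `shLam s` is a multiple `≥ 1` of the one of `s`. -/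
theorem shLam_snd_mul (s : ℝ × P) : ∃ μ : ℝ, 1 ≤ μ ∧ (shLam s).2 = μ • s.2 := by
  by_cases hs : s = 0
  · refine ⟨1, le_rfl, ?_⟩
    rw [hs, shLam_snd]
    simp
  · refine ⟨‖s‖ * (2 / max |s.1| (2 * ‖s.2‖)), ?_, ?_⟩
    · rw [mul_div_assoc', le_div_iff₀ (kap_den_pos hs), one_mul, norm_base]
      have h1 := le_max_left |s.1| ‖s.2‖
      have h2 := le_max_right |s.1| ‖s.2‖
      have h3 := abs_nonneg s.1
      refine max_le ?_ ?_ <;> linarith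
    · rw [shLam_snd, kap, smul_smul]

/-! ### The start -/

/-- The end form of block B3, in the chart. -/
structure KStart (e : V) (z : P → ℝ) (κ₀ κ₁ L : ℝ) (ρ₀ ρ₁ : ℝ × P → ℝ)
    (c : A → ℝ × P → V) (nu : ℝ × P → V) : Prop where
  he : ‖e‖ = 1
  zc : Continuous z
  zh : ∀ r : ℝ, 0 ≤ r → ∀ p, z (r • p) = r * z p
  z1 : ∀ p, ‖p‖ ≤ z p
  z2 : ∀ p, z p ≤ 2 * ‖p‖
  hk0 : 0 < κ₀
  hk : κ₀ < κ₁
  hk1 : κ₁ ≤ 1 / 2
  hL : 0 < L
  cont : ∀ k, Continuous (c k)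
  hom : ∀ k, ∀ r : ℝ, 0 ≤ r → ∀ s, c k (r • s) = r • c k s
  ncont : ContinuousOn nu {s | s ≠ 0}
  nhom : ∀ r : ℝ, 0 < r → ∀ s, nu (r • s) = nu s
  norm : ∀ s, s ≠ 0 → ‖nu s‖ = 1
  flat : ∀ k s, s.1 ≤ 0 → inner ℝ (c k s) e = 0
  nflat : ∀ s, s ≠ 0 → s.1 ≤ 0 → nu s = e
  ne : ∀ k l, k ≠ l → ∀ s, s ≠ 0 → -κ₁ * z s.2 ≤ s.1 → c k s ≠ c l s
  c₀ : Continuous ρ₀
  c₁ : Continuous ρ₁
  h₀ : ∀ r : ℝ, 0 ≤ r → ∀ s, ρ₀ (r • s) = r * ρ₀ s
  h₁ : ∀ r : ℝ, 0 ≤ r → ∀ s, ρ₁ (r • s) = r * ρ₁ s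
  p₀ : ∀ s, s ≠ 0 → 0 < ρ₀ s
  p₁ : ∀ s, s ≠ 0 → 0 < ρ₁ s
  dist : ∀ k l, k ≠ l → ∀ s, s ≠ 0 → -κ₁ * z s.2 ≤ s.1 → 4 * ρ₁ s ≤ ‖c k s - c l s‖
  inn : ∀ k s, s ≠ 0 → s.1 ≤ 0 → ‖c k s‖ + 2 * ρ₁ s ≤ ρ₀ s
  lipc : ∀ k p x y, -κ₁ * z p ≤ x → x ≤ 0 → -κ₁ * z p ≤ y → y ≤ 0 →
    ‖c k (x, p) - c k (y, p)‖ ≤ L * |x - y|
  lip₀ : ∀ p x y, -κ₁ * z p ≤ x → x ≤ 0 → -κ₁ * z p ≤ y → y ≤ 0 →
    |ρ₀ (x, p) - ρ₀ (y, p)| ≤ L * |x - y|
  lip₁ : ∀ p x y, -κ₁ * z p ≤ x → x ≤ 0 → -κ₁ * z p ≤ y → y ≤ 0 →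
    |ρ₁ (x, p) - ρ₁ (y, p)| ≤ L * |x - y|

/-- The zero set of the start (the sheets are present everywhere). -/
def SZeroK (e : V) (ρ₀ ρ₁ : ℝ × P → ℝ) (f : P → ℝ) (c : A → ℝ × P → V) (nu : ℝ × P → V)
    (x : (ℝ × P) × V) : Prop :=
  (¬(‖x.2‖ < ρ₀ x.1 ∧ x.1.1 < f x.1.2)) ∧ (∀ a, ¬(‖x.2 - c a x.1‖ < ρ₁ x.1)) ∧
    ((‖x.2‖ ≤ ρ₀ x.1 ∧ x.1.1 ≤ f x.1.2 ∧ inner ℝ x.2 e = 0) ∨
      ∃ a, ‖x.2 - c a x.1‖ ≤ ρ₁ x.1 ∧ inner ℝ (x.2 - c a x.1) (nu x.1) = 0)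

section Start

variable {e : V} {z : P → ℝ} {κ₀ κ₁ L : ℝ} {ρ₀ ρ₁ : ℝ × P → ℝ} {c : A → ℝ × P → V}
  {nu : ℝ × P → V}

theorem KStart.z_nonneg (h : KStart e z κ₀ κ₁ L ρ₀ ρ₁ c nu) (p : P) : 0 ≤ z p :=
  (norm_nonneg p).trans (h.z1 p)

theorem KStart.c_zero (h : KStart e z κ₀ κ₁ L ρ₀ ρ₁ c nu) (k : A) : c k 0 = 0 := by
  have := h.hom k 0 le_rfl 0
  rwa [zero_smul, zero_smul] at this

theorem KStart.rho_zero (h : KStart e z κ₀ κ₁ L ρ₀ ρ₁ c nu) : ρ₀ 0 = 0 ∧ ρ₁ 0 = 0 := by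
  have h0 := h.h₀ 0 le_rfl 0
  have h1 := h.h₁ 0 le_rfl 0
  rw [zero_smul, zero_mul] at h0 h1
  exact ⟨h0, h1⟩

theorem KStart.z_zero (h : KStart e z κ₀ κ₁ L ρ₀ ρ₁ c nu) : z 0 = 0 := by
  have h0 := h.zh 0 le_rfl 0
  rwa [zero_smul, zero_mul] at h0

/-- Dropping the hidden parts of the sheets does not change the zero set. -/
theorem KStart.zero_congr (h : KStart e z κ₀ κ₁ L ρ₀ ρ₁ c nu) {l : ℝ} (hl : κ₀ < l)
    (x : (ℝ × P) × V) : SZeroK e ρ₀ ρ₁ (fun p => -κ₀ * z p) c nu x ↔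
      SZero e ρ₀ ρ₁ (fun p => -κ₀ * z p) (fun p => -l * z p) c (fun _ => nu) x := by
  have key : x.1 ≠ 0 → x.1.1 ≤ -l * z x.1.2 → ∀ a, ‖x.2 - c a x.1‖ ≤ ρ₁ x.1 →
      ‖x.2‖ < ρ₀ x.1 ∧ x.1.1 < -κ₀ * z x.1.2 := by
    intro hx hle a ha
    have hz0 := h.z_nonneg x.1.2
    have hl0 : 0 < l := h.hk0.trans hl
    have hlz : 0 ≤ l * z x.1.2 := mul_nonneg hl0.le hz0
    have h1 := h.inn a x.1 hx (by linarith)
    have h2 := h.p₁ x.1 hx
    have h3 : ‖x.2‖ ≤ ‖x.2 - c a x.1‖ + ‖c a x.1‖ := by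
      have := norm_add_le (x.2 - c a x.1) (c a x.1)
      rwa [sub_add_cancel] at this
    refine ⟨by linarith, ?_⟩
    rcases hz0.eq_or_lt with h4 | h4
    · have h5 : x.1.2 = 0 := norm_le_zero_iff.mp ((h.z1 _).trans h4.symm.le)
      rw [← h4, mul_zero] at hle ⊢
      refine lt_of_le_of_ne hle fun h6 => hx (Prod.ext h6 h5)
    · have := mul_lt_mul_of_pos_right hl h4
      linarith
  by_cases hx : x.1 = 0
  · have e0 := h.rho_zero
    have ez : z x.1.2 = 0 := by rw [hx]; exact h.z_zero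
    have e1 : ∀ k, c k x.1 = 0 := fun k => by rw [hx, h.c_zero]
    unfold SZeroK SZero
    simp only [e1, ez, mul_zero, sub_zero]
    rw [hx, e0.1, e0.2]
    have hn : ¬ ‖x.2‖ < 0 := not_lt.mpr (norm_nonneg _)
    simp only [Prod.fst_zero, lt_irrefl, and_false, not_false_eq_true, hn, le_refl, true_and]
  · constructor
    · rintro ⟨h1, h2, h3⟩
      refine ⟨h1, fun a ha => h2 a ha.1, ?_⟩
      rcases h3 with h3 | ⟨a, h4, h5⟩
      · exact Or.inl h3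
      · refine Or.inr ⟨a, h4, ?_, h5⟩
        by_contra hcon
        exact h1 (key hx (not_le.mp hcon).le a h4)
    · rintro ⟨h1, h2, h3⟩
      refine ⟨h1, fun a ha => ?_, ?_⟩
      · by_cases hcon : -l * z x.1.2 < x.1.1
        · exact h2 a ⟨ha, hcon⟩
        · exact h1 (key hx (not_lt.mp hcon) a ha.le)
      · rcases h3 with h3 | ⟨a, h4, h5, h6⟩
        · exact Or.inl h3
        · exact Or.inr ⟨a, h4, h6⟩

/-! ### The fold and the path of base maps -/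

/-- The fold `u₀ ↦ |u₀ + κ z| - κ z`. -/
noncomputable def shFold (z : P → ℝ) (κ : ℝ) (s : ℝ × P) : ℝ × P :=
  (|s.1 + κ * z s.2| - κ * z s.2, s.2)

theorem shFold_of_le {z : P → ℝ} {κ : ℝ} {s : ℝ × P} (h : -κ * z s.2 ≤ s.1) :
    shFold z κ s = s := by
  unfold shFold
  rw [abs_of_nonneg (by linarith), add_sub_cancel_right]

/-- The path of base maps. -/
noncomputable def shPsi (z : P → ℝ) (κ τ : ℝ) (s : ℝ × P) : ℝ × P :=
  (1 - τ) • shFold z κ s + τ • shLam s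

theorem shPsi_zero (z : P → ℝ) (κ : ℝ) (s : ℝ × P) : shPsi z κ 0 s = shFold z κ s := by
  unfold shPsi
  rw [sub_zero, one_smul, zero_smul, add_zero]

theorem shPsi_one (z : P → ℝ) (κ : ℝ) (s : ℝ × P) : shPsi z κ 1 s = shLam s := by
  unfold shPsi
  rw [sub_self, one_smul, zero_smul, zero_add]

theorem KStart.continuous_shPsi (h : KStart e z κ₀ κ₁ L ρ₀ ρ₁ c nu) :
    Continuous fun q : ℝ × (ℝ × P) => shPsi z κ₁ q.1 q.2 := by
  have h1 : Continuous fun q : ℝ × (ℝ × P) => shFold z κ₁ q.2 := by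
    have h2 : Continuous fun q : ℝ × (ℝ × P) => z q.2.2 :=
      h.zc.comp (continuous_snd.comp continuous_snd)
    have h4 : Continuous fun q : ℝ × (ℝ × P) => q.2.1 := continuous_fst.comp continuous_snd
    exact ((h4.add (continuous_const.mul h2)).abs.sub (continuous_const.mul h2)).prodMk
      (continuous_snd.comp continuous_snd)
  have h3 : Continuous fun q : ℝ × (ℝ × P) => shLam q.2 := continuous_shLam.comp continuous_snd
  exact ((continuous_const.sub continuous_fst).smul h1).add (continuous_fst.smul h3)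

theorem KStart.shPsi_smul (h : KStart e z κ₀ κ₁ L ρ₀ ρ₁ c nu) (τ : ℝ) {k : ℝ} (hk : 0 ≤ k)
    (s : ℝ × P) : shPsi z κ₁ τ (k • s) = k • shPsi z κ₁ τ s := by
  have h1 : shFold z κ₁ (k • s) = k • shFold z κ₁ s := by
    unfold shFold
    rw [Prod.smul_fst, Prod.smul_snd, h.zh k hk, Prod.smul_mk, smul_eq_mul, smul_eq_mul]
    congr 1
    have : k * s.1 + κ₁ * (k * z s.2) = k * (s.1 + κ₁ * z s.2) := by ring
    rw [this, abs_mul, abs_of_nonneg hk]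
    ring
  unfold shPsi
  rw [h1, shLam_smul hk, smul_add, smul_smul, smul_smul, smul_smul, smul_smul, mul_comm k,
    mul_comm k]

/-- Along the path the base point stays in the region where the sheets are distinct. -/
theorem KStart.shPsi_region (h : KStart e z κ₀ κ₁ L ρ₀ ρ₁ c nu) {τ : ℝ} (hτ : τ ∈ Icc (0 : ℝ) 1)
    {s : ℝ × P} (hs : s ≠ 0) :
    shPsi z κ₁ τ s ≠ 0 ∧ -κ₁ * z (shPsi z κ₁ τ s).2 ≤ (shPsi z κ₁ τ s).1 := by
  obtain ⟨μ, hμ1, hμ⟩ := shLam_snd_mul s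
  have h0 : 0 ≤ 1 - τ := by linarith [hτ.2]
  have hκ : 0 < κ₁ := h.hk0.trans h.hk
  have hz := h.z_nonneg s.2
  have e2 : (shPsi z κ₁ τ s).2 = ((1 - τ) + τ * μ) • s.2 := by
    show (1 - τ) • s.2 + τ • (shLam s).2 = _
    rw [hμ, smul_smul, add_smul]
  have e1 : (shPsi z κ₁ τ s).1 =
      (1 - τ) * (|s.1 + κ₁ * z s.2| - κ₁ * z s.2) + τ * (shLam s).1 := rfl
  have hm : 1 ≤ (1 - τ) + τ * μ := by
    have := mul_le_mul_of_nonneg_left hμ1 hτ.1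
    linarith
  have hl := shLam_fst_nonneg s
  refine ⟨fun hcon => ?_, ?_⟩
  · have h2 : ((1 - τ) + τ * μ) • s.2 = 0 := by rw [← e2, hcon]; rfl
    have hp : s.2 = 0 := by
      rcases smul_eq_zero.mp h2 with h3 | h3
      · linarith
      · exact h3
    have hu : s.1 ≠ 0 := fun h3 => hs (Prod.ext h3 hp)
    have h3 : (shPsi z κ₁ τ s).1 = |s.1| := by
      rw [e1, shLam_fst, hp, h.z_zero, mul_zero, add_zero, sub_zero]
      have h4 : kap s = 0 := by unfold kap; rw [hp, smul_zero]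
      rw [h4, norm_zero, sub_zero, mul_one, norm_base, hp, norm_zero, max_eq_left (abs_nonneg _)]
      ring
    rw [hcon] at h3
    exact hu (abs_eq_zero.mp h3.symm)
  · rw [e2, h.zh _ (by linarith), e1]
    have h3 : κ₁ * z s.2 * 1 ≤ κ₁ * z s.2 * ((1 - τ) + τ * μ) :=
      mul_le_mul_of_nonneg_left hm (mul_nonneg hκ.le hz)
    have h4 : 0 ≤ (1 - τ) * |s.1 + κ₁ * z s.2| := mul_nonneg h0 (abs_nonneg _)
    have h5 : 0 ≤ τ * (shLam s).1 := mul_nonneg hτ.1 hl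
    have h6 : 0 ≤ τ * (κ₁ * z s.2) := mul_nonneg hτ.1 (mul_nonneg hκ.le hz)
    linarith

theorem KStart.zone_norm (h : KStart e z κ₀ κ₁ L ρ₀ ρ₁ c nu) {x : ℝ} {p : P}
    (h1 : -κ₁ * z p ≤ x) (h2 : x ≤ 0) : |x| ≤ ‖p‖ := by
  rw [abs_of_nonpos h2]
  have h3 : κ₁ * z p ≤ 1 / 2 * (2 * ‖p‖) :=
    mul_le_mul h.hk1 (h.z2 p) (h.z_nonneg p) (by norm_num)
  linarith

/-- In the collar the path is `s ↦ ((1 - τ) u₀, p)`. -/
theorem KStart.shPsi_collar (h : KStart e z κ₀ κ₁ L ρ₀ ρ₁ c nu) (τ : ℝ) {x : ℝ} {p : P}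
    (h1 : -κ₁ * z p ≤ x) (h2 : x ≤ 0) : shPsi z κ₁ τ (x, p) = ((1 - τ) * x, p) := by
  have h3 := h.zone_norm h1 h2
  have h4 : shFold z κ₁ (x, p) = (x, p) := shFold_of_le h1
  unfold shPsi
  rw [h4]
  by_cases hp : p = 0
  · subst hp
    have hx : x = 0 := by
      rw [norm_zero] at h3
      exact abs_nonpos_iff.mp h3
    subst hx
    have : shLam ((0 : ℝ), (0 : P)) = 0 := by
      unfold shLam
      have : ((0 : ℝ), (0 : P)) = 0 := rfl
      rw [this, norm_zero, zero_smul]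
    rw [this]
    refine Prod.ext ?_ ?_
    · simp
    · simp
  · have hn : 0 < ‖p‖ := norm_pos_iff.mpr hp
    have h5 : |((x, p) : ℝ × P).1| ≤ 2 * ‖((x, p) : ℝ × P).2‖ := by
      show |x| ≤ 2 * ‖p‖
      linarith
    have h6 : shLam (x, p) = (0, p) := by
      refine Prod.ext (shLam_fst_zero h5 hp) ?_
      rw [shLam_snd, kap_of_le h5, norm_base]
      show max |x| ‖p‖ • ‖p‖⁻¹ • p = p
      rw [max_eq_right h3, smul_smul, mul_inv_cancel₀ hn.ne', one_smul]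
    rw [h6]
    refine Prod.ext ?_ ?_
    · show (1 - τ) * x + τ * 0 = (1 - τ) * x
      ring
    · show (1 - τ) • p + τ • p = p
      rw [← add_smul, sub_add_cancel, one_smul]

end Start

end Vale.Agent.P268.T
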