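import Vale.Agent.P268.T.B4.Lip921
import Vale.Agent.P268.T.K372.Scales
import Vale.Agent.P268.T.B4.Shape2

/-!
# P268, topological half, block B4: the K-form in the chart satisfies the start conditions
-/

set_option linter.unusedSectionVars false

namespace Vale.Agent.P268.T

open Set Filter Topology
open scoped RealInnerProductSpace

namespace B4

open Vale.Agent.P268.H288 (mx le_mx mx_le exists_mx mx_add_const continuous_mx mx_smul)
open K372 (nuV muV phiV etaV ppV cV ScalesB3)

/-! ### The functions of `S708/Osc` -/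

section Bridge

variable {ι : Type} [Fintype ι] [Nonempty ι]

theorem mxV_eq (u : EuclideanSpace ℝ ι) : mxV u = mx u.ofLp := rfl

theorem oscV_eq (u : EuclideanSpace ℝ ι) : oscV u = osc u.ofLp := by
  unfold oscV osc
  have h : mnV u = -mx (-u.ofLp) := by
    refine le_antisymm ?_ ?_
    · obtain ⟨j, hj⟩ := exists_mx (-u.ofLp)
      rw [hj, Pi.neg_apply, neg_neg]
      exact mnV_le u j
    · refine le_mnV fun j => ?_
      have := le_mx (-u.ofLp) j
      rw [Pi.neg_apply] at this
      show -mx (-u.ofLp) ≤ u.ofLp j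
      linarith
  rw [h, mxV_eq]; ring

end Bridge

/-! ### Size of the sheets where `max u` is small -/

section Size

variable {ι : Type} [Fintype ι] [Nonempty ι]

/-- Constant of `norm_cV_le_mx`. -/
noncomputable def c0R (ι : Type) [Fintype ι] (P g : ℝ) : ℝ :=
  Real.sqrt (Fintype.card ι) * P + g * (Fintype.card ι * Fintype.card ι)

theorem norm_etaV_le_mx {δ d m : ℝ} (hδ : 0 ≤ δ) (hd : 0 ≤ d) (hm : 0 ≤ m)
    {u : EuclideanSpace ℝ ι} (hu : ∀ j, u j ≤ m) :
    ‖etaV δ d u‖ ≤ Fintype.card ι * (Fintype.card ι * m) := by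
  refine K372.norm_le_card_mul (by positivity) fun j => ?_
  rw [K372.etaV_apply]
  refine (Finset.abs_sum_le_sum_abs _ _).trans ?_
  have hp : ∀ i, ppV d u i ≤ m := fun i =>
    (K372.ppV_le_pos hd u i).trans (max_le (hu i) hm)
  calc ∑ i, |nuV δ u i * (ppV d u i - ppV d u j)| ≤ ∑ _i : ι, m :=
        Finset.sum_le_sum fun i _ => by
          rw [abs_mul]
          have h1 : |ppV d u i - ppV d u j| ≤ m := by
            rw [abs_le]
            constructor
            · linarith [hp j, K372.ppV_nonneg d u i]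
            · linarith [hp i, K372.ppV_nonneg d u j]
          calc |nuV δ u i| * |ppV d u i - ppV d u j| ≤ 1 * m :=
                mul_le_mul (K372.abs_nuV_le hδ u i) h1 (abs_nonneg _) zero_le_one
            _ = m := one_mul m
    _ = _ := by simp

theorem norm_cV_le_mx {δ d m θ P g : ℝ} (hδ : 0 ≤ δ) (hd : 0 ≤ d) (hm : 0 ≤ m)
    (G : (ι → ℕ) → ℝ) (K : ι → ℕ) (hK : ∀ j, (K j : ℝ) ≤ P) (hP : 0 ≤ P)
    (hg : |θ * G K| ≤ g) {u : EuclideanSpace ℝ ι} (hu : ∀ j, u j ≤ m) :
    ‖cV δ d θ G K u‖ ≤ c0R ι P g * m := by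
  unfold cV
  refine (norm_add_le _ _).trans ?_
  have h1 := K372.norm_phiV_le_max K hK hm hu hP
  have h2 := norm_etaV_le_mx hδ hd hm hu
  rw [norm_smul, Real.norm_eq_abs]
  have hg0 : 0 ≤ g := (abs_nonneg _).trans hg
  have h3 : |θ * G K| * ‖etaV δ d u‖ ≤ g * (Fintype.card ι * (Fintype.card ι * m)) :=
    mul_le_mul hg h2 (norm_nonneg _) hg0
  have h4 : c0R ι P g * m = Real.sqrt (Fintype.card ι) * (P * m) +
      g * (Fintype.card ι * (Fintype.card ι * m)) := by unfold c0R; ring
  rw [h4]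
  exact add_le_add h1 h3

end Size

/-! ### The start conditions -/

section Start

variable {n : ℕ}

theorem Theta_symm_sub (d : ℝ) (x y : ℝ) (p : Fin n → ℝ) :
    ‖(Theta n d).symm (x, p) - (Theta n d).symm (y, p)‖ = Real.sqrt (n + 1) * |x - y| := by
  have h : (Theta n d).symm (x, p) - (Theta n d).symm (y, p) = (x - y) • oneV (Fin (n + 1)) := by
    ext i
    show (qq p i + (x + d * osc (qq p) - mx (qq p))) - (qq p i + (y + d * osc (qq p) - mx (qq p))) =
      (x - y) * 1
    ring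
  rw [h, norm_smul, norm_oneV, Real.norm_eq_abs, Fintype.card_fin]
  push_cast
  ring

theorem Theta_symm_zero (d : ℝ) : (Theta n d).symm 0 = 0 := by
  rw [(Theta n d).symm_apply_eq, Theta_zero]

theorem Theta_symm_ne {d : ℝ} {s : ℝ × (Fin n → ℝ)} (hs : s ≠ 0) : (Theta n d).symm s ≠ 0 := by
  intro h
  apply hs
  rw [← (Theta n d).apply_symm_apply s, h, Theta_zero]

/-- `mx u` in the chart. -/
theorem mx_Theta_symm (d : ℝ) (s : ℝ × (Fin n → ℝ)) :
    mx ((Theta n d).symm s).ofLp = s.1 + d * osc ((Theta n d).symm s).ofLp := by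
  have h := Theta_fst d ((Theta n d).symm s)
  rw [(Theta n d).apply_symm_apply] at h
  linarith

theorem osc_Theta_symm (d : ℝ) (s : ℝ × (Fin n → ℝ)) :
    osc ((Theta n d).symm s).ofLp = osc (qq s.2) := by
  have h := Theta_snd d ((Theta n d).symm s)
  rw [(Theta n d).apply_symm_apply] at h
  rw [h, osc_qq_dif]

/-- The half spaces `u₀ ≤ 0`: `mx u ≤ dc * osc u`. -/
theorem fst_le_iff {d t : ℝ} (s : ℝ × (Fin n → ℝ)) :
    -(d - t) * osc (qq s.2) ≤ s.1 ↔
      t * osc ((Theta n d).symm s).ofLp ≤ mx ((Theta n d).symm s).ofLp := by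
  rw [mx_Theta_symm, osc_Theta_symm]
  constructor <;> intro h <;> linarith

/-- **The start conditions, for abstract sheets.** -/
theorem kStart_of {dc df d₂ δ κ ρ ε₁ C₀ Lr : ℝ}
    {nu : EuclideanSpace ℝ (Fin (n + 1)) → EuclideanSpace ℝ (Fin (n + 1))} {σ : Type}
    {c : σ → EuclideanSpace ℝ (Fin (n + 1)) → EuclideanSpace ℝ (Fin (n + 1))}
    (hd₂ : 0 ≤ d₂) (h2f : d₂ < df) (hfc : df < dc) (hc1 : dc - d₂ ≤ 1 / 2) (hδ : 2 * dc ≤ δ)
    (hε₁ : 0 < ε₁) (hρ : 0 < ρ) (hκ : 4 * ε₁ ≤ κ) (hC₀ : 0 ≤ C₀)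
    (hin : C₀ * (2 * dc) + 2 * ε₁ ≤ ρ) (hLr : 0 ≤ Lr)
    (hn : NField δ nu) (hcc : ∀ k, Continuous (c k))
    (hch : ∀ k, ∀ r : ℝ, 0 ≤ r → ∀ u, c k (r • u) = r • c k u)
    (hp : ∀ k u, mx u.ofLp ≤ δ * ‖u‖ → ⟪nu u, c k u⟫ = 0)
    (hsep : ∀ k l, k ≠ l → ∀ u, d₂ * osc u.ofLp ≤ mx u.ofLp → κ * ‖u‖ ≤ ‖c k u - c l u‖)
    (hsize : ∀ k m u, 0 ≤ m → (∀ j, u j ≤ m) → ‖c k u‖ ≤ C₀ * m)
    (hlip : ∀ k u v, ‖rc nu (c k) u - rc nu (c k) v‖ ≤ Lr * ‖u - v‖) :
    KStart (eDiag (Fin (n + 1))) (fun p : Fin n → ℝ => osc (qq p)) (dc - df) (dc - d₂)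
      ((Lr + ρ + ε₁) * Real.sqrt (n + 1)) (fun s => ρ * ‖(Theta n dc).symm s‖)
      (fun s => ε₁ * ‖(Theta n dc).symm s‖)
      (fun k s => rc nu (c k) ((Theta n dc).symm s)) (fun s => rn nu ((Theta n dc).symm s)) := by
  have hc0 : ∀ k, c k 0 = 0 := fun k => by
    have := hch k 0 le_rfl 0
    rwa [smul_zero, zero_smul] at this
  have hsn : 0 < Real.sqrt ((n : ℝ) + 1) := Real.sqrt_pos.mpr (by positivity)
  have hdc : 0 < dc := by linarith
  have hflat : ∀ s : ℝ × (Fin n → ℝ), s.1 ≤ 0 →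
      mx ((Theta n dc).symm s).ofLp ≤ δ * ‖(Theta n dc).symm s‖ := fun s hs => by
    refine (Theta_flat hdc.le _ (by rwa [(Theta n dc).apply_symm_apply])).trans
      (mul_le_mul_of_nonneg_right hδ (norm_nonneg _))
  have hκp : 0 < κ := by linarith
  -- separation in the chart
  have hsep' : ∀ k l, k ≠ l → ∀ s : ℝ × (Fin n → ℝ), -(dc - d₂) * osc (qq s.2) ≤ s.1 →
      κ * ‖(Theta n dc).symm s‖ ≤
        ‖rc nu (c k) ((Theta n dc).symm s) - rc nu (c l) ((Theta n dc).symm s)‖ := by
    intro k l hkl s hs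
    have h1 := hsep k l hkl _ ((fst_le_iff (t := d₂) s).mp hs)
    by_cases h0 : (Theta n dc).symm s = 0
    · rw [h0, norm_zero, mul_zero]; exact norm_nonneg _
    · have h2 : rc nu (c k) ((Theta n dc).symm s) - rc nu (c l) ((Theta n dc).symm s) =
          rot (absDir (nu ((Theta n dc).symm s))) (eDiag _)
            (c k ((Theta n dc).symm s) - c l ((Theta n dc).symm s)) := by
        unfold rc; rw [rot_sub]
      rw [h2, norm_rot (norm_absDir (hn.ne _ h0)) norm_eDiag (one_add_inner_absDir _).ne']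
      exact h1
  have hlipn : ∀ (t : ℝ), 0 ≤ t → ∀ (p : Fin n → ℝ) (x y : ℝ),
      |t * ‖(Theta n dc).symm (x, p)‖ - t * ‖(Theta n dc).symm (y, p)‖| ≤
        t * (Real.sqrt (n + 1) * |x - y|) := by
    intro t ht p x y
    rw [← mul_sub, abs_mul, abs_of_nonneg ht]
    refine mul_le_mul_of_nonneg_left ?_ ht
    refine (abs_norm_sub_norm_le _ _).trans ?_
    rw [Theta_symm_sub]
  have hN : Continuous fun s : ℝ × (Fin n → ℝ) => ‖(Theta n dc).symm s‖ :=
    (Theta n dc).symm.continuous.norm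
  have hNh : ∀ t r : ℝ, 0 ≤ r → ∀ s : ℝ × (Fin n → ℝ),
      t * ‖(Theta n dc).symm (r • s)‖ = r * (t * ‖(Theta n dc).symm s‖) := by
    intro t r hr s
    rw [Theta_symm_smul dc r hr, norm_smul, Real.norm_eq_abs, abs_of_nonneg hr]
    ring
  exact
    { he := norm_eDiag
      zc := continuous_osc.comp continuous_qq
      zh := fun r hr p => by
        show osc (qq (r • p)) = r * osc (qq p)
        rw [qq_smul, osc_smul hr]
      z1 := norm_le_osc_qq
      z2 := osc_qq_le
      hk0 := by linarith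
      hk := by linarith
      hk1 := hc1
      hL := mul_pos (by linarith) hsn
      cont := fun k => (continuous_rc hn (hcc k) (hc0 k)).comp (Theta n dc).symm.continuous
      hom := fun k r hr s => by
        show rc nu (c k) ((Theta n dc).symm (r • s)) = r • rc nu (c k) ((Theta n dc).symm s)
        rw [Theta_symm_smul dc r hr, rc_hom hn (hch k) hr]
      ncont := (continuousOn_rn hn).comp (Theta n dc).symm.continuous.continuousOn
        fun s h => Theta_symm_ne h
      nhom := fun r hr s => by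
        show rn nu ((Theta n dc).symm (r • s)) = rn nu ((Theta n dc).symm s)
        rw [Theta_symm_smul dc r hr.le, rn_hom hn hr]
      norm := fun s h => norm_rn hn (Theta_symm_ne h)
      flat := fun k s h => by
        show ⟪rc nu (c k) ((Theta n dc).symm s), eDiag _⟫ = 0
        rw [real_inner_comm]
        exact rc_flat hn (hc0 k) (hflat s h) (hp k _ (hflat s h))
      nflat := fun s h h' => rn_flat hn (Theta_symm_ne h) (hflat s h')
      ne := fun k l hkl s h h' heq => by
        have h1 := hsep' k l hkl s h'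
        have h2 : rc nu (c k) ((Theta n dc).symm s) = rc nu (c l) ((Theta n dc).symm s) := heq
        rw [h2, sub_self, norm_zero] at h1
        have h3 : 0 < ‖(Theta n dc).symm s‖ := norm_pos_iff.mpr (Theta_symm_ne h)
        have := mul_pos hκp h3
        linarith
      c₀ := continuous_const.mul hN
      c₁ := continuous_const.mul hN
      h₀ := fun r hr s => hNh ρ r hr s
      h₁ := fun r hr s => hNh ε₁ r hr s
      p₀ := fun s h => mul_pos hρ (norm_pos_iff.mpr (Theta_symm_ne h))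
      p₁ := fun s h => mul_pos hε₁ (norm_pos_iff.mpr (Theta_symm_ne h))
      dist := fun k l hkl s _ h' => by
        refine le_trans ?_ (hsep' k l hkl s h')
        have := mul_le_mul_of_nonneg_right hκ (norm_nonneg ((Theta n dc).symm s))
        show 4 * (ε₁ * ‖(Theta n dc).symm s‖) ≤ _
        linarith
      inn := fun k s h h' => by
        show ‖rc nu (c k) ((Theta n dc).symm s)‖ + 2 * (ε₁ * ‖(Theta n dc).symm s‖) ≤
          ρ * ‖(Theta n dc).symm s‖
        rw [norm_rc hn (hc0 k)]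
        set u := (Theta n dc).symm s with hu
        have hun : 0 < ‖u‖ := norm_pos_iff.mpr (Theta_symm_ne h)
        have h1 : mx u.ofLp ≤ 2 * dc * ‖u‖ :=
          Theta_flat hdc.le _ (by rwa [hu, (Theta n dc).apply_symm_apply])
        have h2 : ‖c k u‖ ≤ C₀ * (2 * dc * ‖u‖) :=
          hsize k _ u (by positivity) fun j => (le_mx u.ofLp j).trans h1
        have h3 := mul_le_mul_of_nonneg_right hin hun.le
        linarith
      lipc := fun k p x y _ _ _ _ => by
        refine (hlip k _ _).trans ?_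
        rw [Theta_symm_sub]
        have h1 : 0 ≤ (ρ + ε₁) * (Real.sqrt (n + 1) * |x - y|) := by positivity
        linarith
      lip₀ := fun p x y _ _ _ _ => by
        refine (hlipn ρ hρ.le p x y).trans ?_
        have h1 : 0 ≤ (Lr + ε₁) * (Real.sqrt (n + 1) * |x - y|) := by positivity
        linarith
      lip₁ := fun p x y _ _ _ _ => by
        refine (hlipn ε₁ hε₁.le p x y).trans ?_
        have h1 : 0 ≤ (Lr + ρ) * (Real.sqrt (n + 1) * |x - y|) := by positivity
        linarith }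

end Start

end B4

end Vale.Agent.P268.T
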