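import Vale.Agent.P268.T.B4.Data921

/-!
# P268, topological half, block B4a: the homeomorphism `Θ` of the base

`Θ u = (max u - d * osc u, (u_j - u_last)_{j < n})`, `osc u = max u - min u`, with explicit inverse.
It carries `{max u ≤ d * osc u}` to the half space `{u0 ≤ 0}`.
-/

set_option linter.unusedSectionVars false

namespace Vale.Agent.P268.T.B4

open Set Filter Topology
open scoped RealInnerProductSpace
open Vale.Agent.P268.H288 (mx le_mx mx_le exists_mx mx_add_const continuous_mx mx_smul)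

section osc

variable {ι : Type} [Fintype ι] [Nonempty ι]

/-- Oscillation `max u - min u`. -/
noncomputable def osc (u : ι → ℝ) : ℝ := mx u + mx (-u)

theorem continuous_osc : Continuous (osc : (ι → ℝ) → ℝ) :=
  continuous_mx.add (continuous_mx.comp continuous_neg)

theorem osc_smul {r : ℝ} (hr : 0 ≤ r) (u : ι → ℝ) : osc (r • u) = r * osc u := by
  unfold osc
  rw [mx_smul hr, ← smul_neg, mx_smul hr, mul_add]

theorem osc_add_const (u : ι → ℝ) (c : ℝ) : osc (fun i => u i + c) = osc u := by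
  unfold osc
  have e : -(fun i => u i + c) = fun i => (-u) i + -c := by
    funext i; simp only [Pi.neg_apply]; ring
  rw [mx_add_const, e, mx_add_const]; ring

theorem sub_le_osc (u : ι → ℝ) (i j : ι) : u i - u j ≤ osc u := by
  unfold osc
  have h1 := le_mx u i
  have h2 := le_mx (-u) j
  simp only [Pi.neg_apply] at h2
  linarith

theorem abs_sub_le_osc (u : ι → ℝ) (i j : ι) : |u i - u j| ≤ osc u :=
  abs_le.mpr ⟨by linarith [sub_le_osc u j i], sub_le_osc u i j⟩

theorem osc_nonneg (u : ι → ℝ) : 0 ≤ osc u := by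
  obtain ⟨i, -⟩ := exists_mx u
  have := sub_le_osc u i i
  linarith

theorem exists_osc (u : ι → ℝ) : ∃ i j, osc u = u i - u j := by
  obtain ⟨i, hi⟩ := exists_mx u
  obtain ⟨j, hj⟩ := exists_mx (-u)
  refine ⟨i, j, ?_⟩
  unfold osc
  rw [hi, hj]
  simp only [Pi.neg_apply]; ring

theorem osc_le_norm (u : EuclideanSpace ℝ ι) : osc u.ofLp ≤ 2 * ‖u‖ := by
  obtain ⟨i, j, h⟩ := exists_osc u.ofLp
  rw [h]
  have h1 : |u i| ≤ ‖u‖ := by
    have := PiLp.norm_apply_le u i
    rwa [Real.norm_eq_abs] at this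
  have h2 : |u j| ≤ ‖u‖ := by
    have := PiLp.norm_apply_le u j
    rwa [Real.norm_eq_abs] at this
  have h3 := (abs_le.mp h1).2
  have h4 := (abs_le.mp h2).1
  show u i - u j ≤ _
  linarith

/-- If `max u ≥ 0` then `‖u‖ ≤ √N (max u + osc u)`. -/
theorem norm_le_mx (u : EuclideanSpace ℝ ι) (h : 0 ≤ mx u.ofLp) :
    ‖u‖ ≤ Real.sqrt (Fintype.card ι) * (mx u.ofLp + osc u.ofLp) := by
  have ho := osc_nonneg u.ofLp
  have h1 : ∀ j, |u j| ≤ mx u.ofLp + osc u.ofLp := by
    intro j
    have h2 := le_mx u.ofLp j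
    have h3 := le_mx (-u.ofLp) j
    simp only [Pi.neg_apply] at h3
    have h4 : mx (-u.ofLp) = osc u.ofLp - mx u.ofLp := by unfold osc; ring
    rw [h4] at h3
    exact abs_le.mpr ⟨by linarith, by linarith⟩
  set c := mx u.ofLp + osc u.ofLp with hc
  have hc0 : 0 ≤ c := by positivity
  rw [EuclideanSpace.norm_eq]
  have h5 : ∑ i, ‖u i‖ ^ 2 ≤ (Fintype.card ι : ℝ) * c ^ 2 := by
    calc ∑ i, ‖u i‖ ^ 2 ≤ ∑ _i : ι, c ^ 2 := by
          refine Finset.sum_le_sum fun i _ => ?_
          rw [Real.norm_eq_abs]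
          exact pow_le_pow_left₀ (abs_nonneg _) (h1 i) 2
      _ = _ := by rw [Finset.sum_const, Finset.card_univ, nsmul_eq_mul]
  calc Real.sqrt (∑ i, ‖u i‖ ^ 2) ≤ Real.sqrt ((Fintype.card ι : ℝ) * c ^ 2) :=
        Real.sqrt_le_sqrt h5
    _ = Real.sqrt (Fintype.card ι) * c := by
        rw [Real.sqrt_mul (by positivity), Real.sqrt_sq hc0]

end osc

variable {n : ℕ}

/-- `(p_0, …, p_{n-1}, 0)`. -/
noncomputable def qq (p : Fin n → ℝ) : Fin (n + 1) → ℝ := Fin.snoc (α := fun _ => ℝ) p 0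

theorem qq_castSucc (p : Fin n → ℝ) (j : Fin n) : qq p j.castSucc = p j := by
  unfold qq; rw [Fin.snoc_castSucc]

theorem qq_last (p : Fin n → ℝ) : qq p (Fin.last n) = 0 := by
  unfold qq; rw [Fin.snoc_last]

theorem continuous_qq : Continuous (qq : (Fin n → ℝ) → Fin (n + 1) → ℝ) := by
  refine continuous_pi fun j => ?_
  refine Fin.lastCases ?_ (fun i => ?_) j
  · simp only [qq_last]; exact continuous_const
  · simp only [qq_castSucc]; exact continuous_apply i

theorem qq_smul (r : ℝ) (p : Fin n → ℝ) : qq (r • p) = r • qq p := by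
  funext j
  refine Fin.lastCases ?_ (fun i => ?_) j
  · rw [Pi.smul_apply, qq_last, qq_last, smul_zero]
  · rw [Pi.smul_apply, qq_castSucc, qq_castSucc, Pi.smul_apply]

/-- Differences with the last coordinate. -/
def dif (u : Fin (n + 1) → ℝ) : Fin n → ℝ := fun j => u j.castSucc - u (Fin.last n)

theorem continuous_dif : Continuous (dif : (Fin (n + 1) → ℝ) → Fin n → ℝ) :=
  continuous_pi fun _ => (continuous_apply _).sub (continuous_apply _)

theorem qq_dif (u : Fin (n + 1) → ℝ) : qq (dif u) = fun i => u i + -u (Fin.last n) := by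
  funext j
  refine Fin.lastCases ?_ (fun i => ?_) j
  · rw [qq_last]; ring
  · rw [qq_castSucc]; unfold dif; ring

theorem dif_qq (p : Fin n → ℝ) (c : ℝ) : dif (fun i => qq p i + c) = p := by
  funext j
  show (qq p j.castSucc + c) - (qq p (Fin.last n) + c) = p j
  rw [qq_castSucc, qq_last]; ring

theorem osc_qq_dif (u : Fin (n + 1) → ℝ) : osc (qq (dif u)) = osc u := by
  rw [qq_dif, osc_add_const]

theorem mx_qq_dif (u : Fin (n + 1) → ℝ) : mx (qq (dif u)) = mx u - u (Fin.last n) := by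
  rw [qq_dif, mx_add_const]; ring

theorem norm_dif_le (u : Fin (n + 1) → ℝ) : ‖dif u‖ ≤ osc u := by
  rw [pi_norm_le_iff_of_nonneg (osc_nonneg u)]
  intro j
  rw [Real.norm_eq_abs]
  exact abs_sub_le_osc u _ _

theorem osc_le_norm_dif (u : Fin (n + 1) → ℝ) : osc u ≤ 2 * ‖dif u‖ := by
  obtain ⟨i, j, h⟩ := exists_osc u
  have key : ∀ i, |u i - u (Fin.last n)| ≤ ‖dif u‖ := by
    intro i
    refine Fin.lastCases ?_ (fun i => ?_) i
    · rw [sub_self, abs_zero]; exact norm_nonneg _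
    · have := norm_le_pi_norm (dif u) i
      rwa [Real.norm_eq_abs] at this
  have h1 := (abs_le.mp (key i)).2
  have h2 := (abs_le.mp (key j)).1
  rw [h]; linarith

/-- **The base homeomorphism.** -/
noncomputable def Theta (n : ℕ) (d : ℝ) : EuclideanSpace ℝ (Fin (n + 1)) ≃ₜ ℝ × (Fin n → ℝ) where
  toFun u := (mx u.ofLp - d * osc u.ofLp, dif u.ofLp)
  invFun s := WithLp.toLp 2 fun i => qq s.2 i + (s.1 + d * osc (qq s.2) - mx (qq s.2))
  left_inv u := by
    ext i
    show qq (dif u.ofLp) i + (mx u.ofLp - d * osc u.ofLp + d * osc (qq (dif u.ofLp)) -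
      mx (qq (dif u.ofLp))) = u i
    rw [osc_qq_dif, mx_qq_dif, qq_dif]
    ring
  right_inv s := by
    have h2 : dif (fun i => qq s.2 i + (s.1 + d * osc (qq s.2) - mx (qq s.2))) = s.2 :=
      dif_qq _ _
    refine Prod.ext ?_ h2
    show mx (fun i => qq s.2 i + (s.1 + d * osc (qq s.2) - mx (qq s.2))) -
      d * osc (fun i => qq s.2 i + (s.1 + d * osc (qq s.2) - mx (qq s.2))) = s.1
    rw [mx_add_const, osc_add_const]; ring
  continuous_toFun := by
    have h : Continuous fun u : EuclideanSpace ℝ (Fin (n + 1)) => u.ofLp :=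
      PiLp.continuous_ofLp 2 _
    exact ((continuous_mx.comp h).sub (continuous_const.mul (continuous_osc.comp h))).prodMk
      (continuous_dif.comp h)
  continuous_invFun := by
    refine (PiLp.continuous_toLp 2 _).comp (continuous_pi fun i => ?_)
    have h : Continuous fun s : ℝ × (Fin n → ℝ) => qq s.2 := continuous_qq.comp continuous_snd
    exact ((continuous_apply i).comp h).add ((continuous_fst.add
      (continuous_const.mul (continuous_osc.comp h))).sub (continuous_mx.comp h))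

theorem Theta_fst (d : ℝ) (u : EuclideanSpace ℝ (Fin (n + 1))) :
    (Theta n d u).1 = mx u.ofLp - d * osc u.ofLp := rfl

theorem Theta_snd (d : ℝ) (u : EuclideanSpace ℝ (Fin (n + 1))) :
    (Theta n d u).2 = dif u.ofLp := rfl

theorem Theta_smul (d : ℝ) (r : ℝ) (hr : 0 ≤ r) (u : EuclideanSpace ℝ (Fin (n + 1))) :
    Theta n d (r • u) = r • Theta n d u := by
  refine Prod.ext ?_ ?_
  · rw [Theta_fst, Prod.smul_fst, Theta_fst]
    show mx (r • u.ofLp) - d * osc (r • u.ofLp) = r • (mx u.ofLp - d * osc u.ofLp)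
    rw [mx_smul hr, osc_smul hr, smul_eq_mul]; ring
  · rw [Theta_snd, Prod.smul_snd, Theta_snd]
    funext j
    show r * u j.castSucc - r * u (Fin.last n) = r * (u j.castSucc - u (Fin.last n))
    ring

theorem Theta_zero (d : ℝ) : Theta n d 0 = 0 := by
  have := Theta_smul (n := n) d 0 le_rfl 0
  rwa [smul_zero, zero_smul] at this

theorem Theta_symm_smul (d : ℝ) (r : ℝ) (hr : 0 ≤ r) (s : ℝ × (Fin n → ℝ)) :
    (Theta n d).symm (r • s) = r • (Theta n d).symm s := by
  rw [(Theta n d).symm_apply_eq, Theta_smul d r hr, (Theta n d).apply_symm_apply]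

/-- The flat region. -/
theorem Theta_flat {d : ℝ} (hd : 0 ≤ d) (u : EuclideanSpace ℝ (Fin (n + 1)))
    (h : (Theta n d u).1 ≤ 0) : mx u.ofLp ≤ 2 * d * ‖u‖ := by
  rw [Theta_fst] at h
  have := mul_le_mul_of_nonneg_left (osc_le_norm u) hd
  linarith

/-- The region where the sheets are distinct. -/
theorem Theta_dist {d d' κ : ℝ} (hκ : 0 ≤ κ) (hκd : κ < d) (hd' : 0 ≤ d')
    (hc : d' * (Real.sqrt (n + 1) * (1 + 1 / (d - κ))) < 1)
    (u : EuclideanSpace ℝ (Fin (n + 1))) (hu : u ≠ 0)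
    (h : -κ * ‖(Theta n d u).2‖ ≤ (Theta n d u).1) : d' * ‖u‖ < mx u.ofLp := by
  rw [Theta_fst, Theta_snd] at h
  have hp := norm_dif_le u.ofLp
  have ho := osc_nonneg u.ofLp
  have hk : 0 < d - κ := sub_pos.mpr hκd
  set m := mx u.ofLp with hm
  set o := osc u.ofLp with hoo
  have h1 : (d - κ) * o ≤ m := by
    have := mul_le_mul_of_nonneg_left hp hκ
    linarith
  have hm0 : 0 ≤ m := (mul_nonneg hk.le ho).trans h1
  have h2 := norm_le_mx u hm0
  rw [Fintype.card_fin] at h2
  have h3 : o ≤ m * (1 / (d - κ)) := by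
    rw [mul_one_div, le_div_iff₀ hk]; linarith
  have hs : 0 ≤ Real.sqrt (n + 1) := Real.sqrt_nonneg _
  have h4 : ‖u‖ ≤ Real.sqrt (n + 1) * (1 + 1 / (d - κ)) * m := by
    push_cast at h2
    calc ‖u‖ ≤ Real.sqrt (n + 1) * (m + o) := h2
      _ ≤ Real.sqrt (n + 1) * (m + m * (1 / (d - κ))) := by gcongr
      _ = _ := by ring
  have hmpos : 0 < m := by
    rcases hm0.eq_or_lt with h0 | h0
    · exfalso
      rw [← h0, mul_zero] at h4
      exact hu (norm_le_zero_iff.mp h4)
    · exact h0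
  calc d' * ‖u‖ ≤ d' * (Real.sqrt (n + 1) * (1 + 1 / (d - κ)) * m) :=
        mul_le_mul_of_nonneg_left h4 hd'
    _ = d' * (Real.sqrt (n + 1) * (1 + 1 / (d - κ))) * m := by ring
    _ < 1 * m := by gcongr
    _ = m := one_mul m

/-- The front `d0 * osc u - max u` in the coordinates of `Θ`. -/
theorem Theta_front (d d0 : ℝ) (s : ℝ × (Fin n → ℝ)) :
    d0 * osc ((Theta n d).symm s).ofLp - mx ((Theta n d).symm s).ofLp =
      -(s.1 + (d - d0) * osc (qq s.2)) := by
  show d0 * osc (fun i => qq s.2 i + (s.1 + d * osc (qq s.2) - mx (qq s.2))) -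
    mx (fun i => qq s.2 i + (s.1 + d * osc (qq s.2) - mx (qq s.2))) = _
  rw [mx_add_const, osc_add_const]; ring

theorem norm_le_osc_qq (p : Fin n → ℝ) : ‖p‖ ≤ osc (qq p) := by
  have h := norm_dif_le (fun i => qq p i + 0)
  rwa [dif_qq, osc_add_const] at h

theorem osc_qq_le (p : Fin n → ℝ) : osc (qq p) ≤ 2 * ‖p‖ := by
  have h := osc_le_norm_dif (fun i => qq p i + 0)
  rwa [dif_qq, osc_add_const] at h

end Vale.Agent.P268.T.B4
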